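import Vale.Agent.P371.MDuality

/-!
P371: lifting from `γ = 1` to `1 < γ < 3/2` by the Aizenman-Lieb argument.
-/

namespace Vale.Agent.P371

open MeasureTheory Matrix
open scoped ComplexConjugate ComplexOrder

/-- `tr A^p`: the sum of the `p`-th powers of the eigenvalues of a Hermitian matrix. -/
noncomputable def trPowAt {m : ℕ} (p : ℝ) (A : Matrix (Fin m) (Fin m) ℂ) : ℝ :=
  if h : A.IsHermitian then ∑ i, h.eigenvalues i ^ p else 0

/-- An `m × m` matrix potential for the exponent `γ`. -/
def IsMPotentialAt {m : ℕ} (γ : ℝ) (W : ℝ → Matrix (Fin m) (Fin m) ℂ) : Prop :=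
  (∀ a b, Measurable fun x => W x a b) ∧ (∀ x, (W x).PosSemidef) ∧
    Integrable (fun x => trPowAt (γ + 1 / 2) (W x)) volume

/-- Lieb-Thirring ratios at the exponent `γ` for `m × m` matrix potentials. -/
def mLtRatiosAt (γ : ℝ) (m : ℕ) : Set ℝ :=
  {r | ∃ W : ℝ → Matrix (Fin m) (Fin m) ℂ, IsMPotentialAt γ W ∧
    0 < (∫ x, trPowAt (γ + 1 / 2) (W x)) ∧
    ∃ (N : ℕ) (lam : Fin N → ℝ) (f : Fin N → ℝ → Fin m → ℂ),
      (∀ i, lam i < 0 ∧ IsMEigenfunction W (lam i) (f i)) ∧
      (∀ i j, ∫ x, ∑ a, conj (f i x a) * f j x a = if i = j then 1 else 0) ∧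
      r = (∑ i, |lam i| ^ γ) / ∫ x, trPowAt (γ + 1 / 2) (W x)}

/-- The semiclassical constant `Γ(γ+1) / (2√π Γ(γ+3/2))`. -/
noncomputable def ltClassical (γ : ℝ) : ℝ :=
  Real.Gamma (γ + 1) / (2 * Real.sqrt Real.pi * Real.Gamma (γ + 3 / 2))

variable {m : ℕ}

/-- The pointwise Young inequality with a spectral shift. -/
lemma mYoung_shift {A R : Matrix (Fin m) (Fin m) ℂ} (hA : A.IsHermitian) (hR : R.PosSemidef)
    (t : ℝ) :
    (A * R).trace.re - t * R.trace.re ≤ Real.pi ^ 2 / 4 * (R ^ 3).trace.re
      + ltConst * ∑ k, max (hA.eigenvalues k - t) 0 ^ (3 / 2 : ℝ) := by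
  obtain ⟨U, hU, hU', hAU⟩ := unitary_diag_form hA
  obtain ⟨V, hV, hV', hRV⟩ := unitary_diag_form hR.isHermitian
  set a := hA.eigenvalues with ha
  set r := hR.isHermitian.eigenvalues with hr
  have hr0 : ∀ i, 0 ≤ r i := hR.eigenvalues_nonneg
  set S := Uᴴ * V with hS
  have hS1 : S * Sᴴ = 1 := by
    simp only [hS, conjTranspose_mul, conjTranspose_conjTranspose]
    rw [Matrix.mul_assoc, ← Matrix.mul_assoc V, hV', Matrix.one_mul, hU]
  have hS2 : Sᴴ * S = 1 := mul_eq_one_comm.1 hS1
  have htr : (A * R).trace = ∑ k, ∑ l, ((a k * r l * Complex.normSq (S k l) : ℝ) : ℂ) := by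
    have e : (A * R).trace
        = (diagonal (fun i => (a i : ℂ)) * (S * diagonal (fun i => (r i : ℂ)) * Sᴴ)).trace := by
      rw [hAU, hRV, hS, conjTranspose_mul, conjTranspose_conjTranspose]
      rw [Matrix.trace_mul_comm (diagonal _) _]
      simp only [Matrix.mul_assoc]
      rw [Matrix.trace_mul_comm U]
      simp only [Matrix.mul_assoc]
      rw [Matrix.trace_mul_comm (diagonal fun i => (a i : ℂ))]
      simp only [Matrix.mul_assoc]
    rw [e]
    simp only [Matrix.trace, diag, diagonal_mul]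
    refine Finset.sum_congr rfl fun k _ => ?_
    rw [Matrix.mul_apply, Finset.mul_sum]
    refine Finset.sum_congr rfl fun l _ => ?_
    rw [Matrix.mul_diagonal, conjTranspose_apply]
    rw [Complex.ofReal_mul, Complex.ofReal_mul, Complex.normSq_eq_conj_mul_self]
    simp only [Complex.star_def]
    ring
  have htR : R.trace.re = ∑ l, r l := by
    conv_lhs => rw [hRV]
    rw [Matrix.trace_mul_cycle, hV, Matrix.one_mul, trace_diagonal, Complex.re_sum]
    simp
  have hrow : ∀ k, ∑ l, Complex.normSq (S k l) = 1 := fun k => by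
    have h := congrFun (congrFun hS1 k) k
    simp only [mul_apply, conjTranspose_apply, one_apply_eq, Complex.star_def, Complex.mul_conj] at h
    exact_mod_cast h
  have hcol : ∀ l, ∑ k, Complex.normSq (S k l) = 1 := fun l => by
    have h := congrFun (congrFun hS2 l) l
    simp only [mul_apply, conjTranspose_apply, one_apply_eq, Complex.star_def,
      ← Complex.normSq_eq_conj_mul_self] at h
    exact_mod_cast h
  have hcube : (R ^ 3).trace.re = ∑ l, r l ^ 3 := by
    have e : R ^ 3 = V * diagonal (fun i => (r i : ℂ)) ^ 3 * Vᴴ := by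
      rw [hRV, pow_three, pow_three]
      simp only [Matrix.mul_assoc]
      rw [← Matrix.mul_assoc Vᴴ V, hV, Matrix.one_mul, ← Matrix.mul_assoc Vᴴ V, hV, Matrix.one_mul]
    rw [e, Matrix.trace_mul_cycle, hV, Matrix.one_mul, diagonal_pow, trace_diagonal, Complex.re_sum]
    refine Finset.sum_congr rfl fun l _ => ?_
    simp [← Complex.ofReal_pow]
  have e1 : t * ∑ l, r l = ∑ k, ∑ l, t * r l * Complex.normSq (S k l) := by
    rw [Finset.sum_comm, Finset.mul_sum]
    refine Finset.sum_congr rfl fun l _ => ?_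
    rw [← Finset.mul_sum, hcol l, mul_one]
  rw [htr, hcube, htR, e1]
  simp only [Complex.re_sum, Complex.ofReal_re, ← Finset.sum_sub_distrib]
  calc ∑ k, ∑ l, (a k * r l * Complex.normSq (S k l) - t * r l * Complex.normSq (S k l))
      ≤ ∑ k, ∑ l, (Real.pi ^ 2 / 4 * r l ^ 3 + ltConst * max (a k - t) 0 ^ (3 / 2 : ℝ)) *
          Complex.normSq (S k l) :=
        Finset.sum_le_sum fun k _ => Finset.sum_le_sum fun l _ => by
          rw [← sub_mul, ← sub_mul]
          refine mul_le_mul_of_nonneg_right ?_ (Complex.normSq_nonneg _)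
          exact (mul_le_mul_of_nonneg_right (le_max_left _ 0) (hr0 l)).trans
            (young (le_max_right _ _) (hr0 l))
    _ = Real.pi ^ 2 / 4 * ∑ l, r l ^ 3 + ltConst * ∑ k, max (a k - t) 0 ^ (3 / 2 : ℝ) := by
        simp only [add_mul, Finset.sum_add_distrib]
        congr 1
        · rw [Finset.sum_comm, Finset.mul_sum]
          refine Finset.sum_congr rfl fun l _ => ?_
          rw [← Finset.mul_sum, hcol l, mul_one]
        · rw [Finset.mul_sum]
          refine Finset.sum_congr rfl fun k _ => ?_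
          rw [← Finset.mul_sum, hrow k, mul_one]

lemma beta_real {α : ℝ} (hα : -1 < α) :
    ∫ x in (0 : ℝ)..1, x ^ α * (1 - x) ^ (3 / 2 : ℝ)
      = Real.Gamma (α + 1) * Real.Gamma (5 / 2) / Real.Gamma (α + 1 + 5 / 2) := by
  have h1 : (0 : ℝ) < α + 1 := by linarith
  have h := ProbabilityTheory.beta_eq_betaIntegralReal (α + 1) (5 / 2) h1 (by norm_num)
  rw [ProbabilityTheory.beta] at h
  rw [h, Complex.betaIntegral, intervalIntegral.integral_of_le zero_le_one,
    intervalIntegral.integral_of_le zero_le_one, ← RCLike.re_to_complex, ← integral_re]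
  · refine setIntegral_congr_fun measurableSet_Ioc fun x ⟨hx1, hx2⟩ => ?_
    norm_cast
    rw [← Complex.ofReal_cpow, ← Complex.ofReal_cpow, RCLike.re_to_complex, Complex.re_mul_ofReal,
      Complex.ofReal_re]
    · norm_num
    all_goals linarith
  · have hc := Complex.betaIntegral_convergent (u := ((α + 1 : ℝ) : ℂ)) (v := ((5 / 2 : ℝ) : ℂ))
      (by simp; linarith) (by norm_num)
    rwa [intervalIntegrable_iff_integrableOn_Ioc_of_le zero_le_one] at hc

lemma integrable_layer (α e : ℝ) (hα : -1 < α) (a b : ℝ) :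
    IntervalIntegrable (fun t => t ^ α * max (e - t) 0 ^ (3 / 2 : ℝ)) volume a b :=
  (intervalIntegral.intervalIntegrable_rpow' hα).mul_continuousOn
    (((continuous_const.sub continuous_id).max continuous_const).rpow_const
      fun _ => Or.inr (by norm_num)).continuousOn

/-- The layer integral of one eigenvalue. -/
lemma layer_le {α e T : ℝ} (hα : -1 < α) (he : 0 ≤ e) (hT : 0 ≤ T) :
    ∫ t in (0 : ℝ)..T, t ^ α * max (e - t) 0 ^ (3 / 2 : ℝ)
      ≤ e ^ (α + 5 / 2) *
        (Real.Gamma (α + 1) * Real.Gamma (5 / 2) / Real.Gamma (α + 1 + 5 / 2)) := by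
  rw [← beta_real hα]
  have hi := integrable_layer α e hα
  have hnn : ∀ t : ℝ, 0 ≤ t → 0 ≤ t ^ α * max (e - t) 0 ^ (3 / 2 : ℝ) := fun t ht =>
    mul_nonneg (Real.rpow_nonneg ht _) (Real.rpow_nonneg (le_max_right _ _) _)
  have hmain : ∫ t in (0 : ℝ)..T, t ^ α * max (e - t) 0 ^ (3 / 2 : ℝ)
      ≤ ∫ t in (0 : ℝ)..e, t ^ α * max (e - t) 0 ^ (3 / 2 : ℝ) := by
    rcases le_total T e with h | h
    · rw [← intervalIntegral.integral_add_adjacent_intervals (hi 0 T) (hi T e)]
      linarith [intervalIntegral.integral_nonneg h (μ := volume)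
        fun t ht => hnn t (hT.trans ht.1)]
    · rw [← intervalIntegral.integral_add_adjacent_intervals (hi 0 e) (hi e T)]
      have hz : ∫ t in e..T, t ^ α * max (e - t) 0 ^ (3 / 2 : ℝ) = 0 := by
        rw [intervalIntegral.integral_congr (g := fun _ => (0 : ℝ)) fun t ht => ?_]
        · simp
        rw [Set.uIcc_of_le h] at ht
        simp [max_eq_right (sub_nonpos.2 ht.1)]
      rw [hz, add_zero]
  refine hmain.trans (le_of_eq ?_)
  rcases he.eq_or_lt with h0 | h0
  · rw [← h0, Real.zero_rpow (by linarith), zero_mul, intervalIntegral.integral_same]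
  rw [← intervalIntegral.integral_const_mul]
  have hsub := intervalIntegral.integral_comp_mul_left
    (f := fun t => t ^ α * max (e - t) 0 ^ (3 / 2 : ℝ)) (a := 0) (b := 1) h0.ne'
  rw [mul_zero, mul_one, smul_eq_mul, eq_inv_mul_iff_mul_eq₀ h0.ne',
    ← intervalIntegral.integral_const_mul] at hsub
  rw [← hsub]
  refine intervalIntegral.integral_congr fun x hx => ?_
  rw [Set.uIcc_of_le zero_le_one] at hx
  have hm : max (e - e * x) 0 = e * (1 - x) := by
    rw [max_eq_left (by nlinarith [hx.2])]; ring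
  show e * ((e * x) ^ α * max (e - e * x) 0 ^ (3 / 2 : ℝ)) = _
  rw [hm, Real.mul_rpow h0.le hx.1, Real.mul_rpow h0.le (sub_nonneg.2 hx.2),
    show α + 5 / 2 = (α + 3 / 2) + 1 by ring, Real.rpow_add h0, Real.rpow_add h0, Real.rpow_one]
  ring

/-- A layer indicator. -/
noncomputable def layerInd {N : ℕ} (μ : Fin N → ℝ) (S : Finset (Fin N)) (t : ℝ) : ℝ :=
  if Finset.univ.filter (fun i => t < μ i) = S then 1 else 0

lemma layerInd_integrable {N : ℕ} (μ : Fin N → ℝ) (S : Finset (Fin N)) {α : ℝ} (hα : -1 < α)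
    (a b : ℝ) : IntervalIntegrable (fun t => layerInd μ S t * t ^ α) volume a b := by
  have hm : Measurable (layerInd μ S) := by
    have e : layerInd μ S
        = fun t => ∏ i, (if i ∈ S then Set.indicator (Set.Iio (μ i)) (fun _ => (1 : ℝ)) t
            else Set.indicator (Set.Ici (μ i)) (fun _ => (1 : ℝ)) t) := by
      funext t
      unfold layerInd
      split_ifs with h
      · refine (Finset.prod_eq_one fun i _ => ?_).symm
        subst h
        by_cases hi : t < μ i <;> simp [hi, le_of_not_gt]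
      · have : ∃ i, ¬(t < μ i ↔ i ∈ S) := by
          by_contra hc
          exact h (Finset.ext fun i => by simpa using not_not.1 fun hn => hc ⟨i, hn⟩)
        obtain ⟨i, hi⟩ := this
        refine (Finset.prod_eq_zero (Finset.mem_univ i) ?_).symm
        by_cases hiS : i ∈ S <;> simp_all
    rw [e]
    refine Finset.measurable_fun_prod _ fun i _ => ?_
    split_ifs
    · exact measurable_const.indicator measurableSet_Iio
    · exact measurable_const.indicator measurableSet_Ici
  refine (intervalIntegral.intervalIntegrable_rpow' hα (a := a) (b := b)).mono_fun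
    ((hm.mul (measurable_id.pow_const α)).aestronglyMeasurable)
    (Filter.Eventually.of_forall fun t => ?_)
  simp only [norm_mul]
  refine mul_le_of_le_one_left (norm_nonneg _) ?_
  unfold layerInd
  split_ifs <;> simp

lemma layer_sum {N : ℕ} (μ : Fin N → ℝ) (G : Finset (Fin N) → ℝ) (t : ℝ) :
    ∑ S, layerInd μ S t * G S = G (Finset.univ.filter fun i => t < μ i) := by
  simp [layerInd]

/-- The lifted bound for every finite orthonormal family of eigenfunctions. -/
theorem lifted_bound (hK : MKineticBound m) {γ : ℝ} (hγ : 1 < γ)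
    {W : ℝ → Matrix (Fin m) (Fin m) ℂ} (hW : IsMPotentialAt γ W) {N : ℕ}
    (lam : Fin N → ℝ) (f : Fin N → ℝ → Fin m → ℂ)
    (hlf : ∀ i, lam i < 0 ∧ IsMEigenfunction W (lam i) (f i))
    (horth : ∀ i j, ∫ x, ∑ a, conj (f i x a) * f j x a = if i = j then 1 else 0) :
    ∑ i, |lam i| ^ γ
      ≤ 2 / Real.sqrt 3 * ltClassical γ * ∫ x, trPowAt (γ + 1 / 2) (W x) := by
  obtain ⟨hWm, hW0, hWi⟩ := hW
  choose f' hH1 hweak using fun i => (hlf i).2
  set μ : Fin N → ℝ := fun i => |lam i| with hμ
  have hμ0 : ∀ i, 0 < μ i := fun i => abs_pos.2 (hlf i).1.ne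
  have hL : 0 < ltConst := by unfold ltConst; positivity
  set α := γ - 2 with hαdef
  have hα : -1 < α := by linarith
  set p := γ + 1 / 2 with hp
  set e : ℝ → Fin m → ℝ := fun x => (hW0 x).isHermitian.eigenvalues with he
  have he0 : ∀ x k, 0 ≤ e x k := fun x k => (hW0 x).eigenvalues_nonneg k
  have htp : ∀ x, trPowAt p (W x) = ∑ k, e x k ^ p := fun x => by
    rw [trPowAt, dif_pos (hW0 x).isHermitian]
  set qc : Fin N → ℝ → ℂ := fun i x => ∑ a, conj (f i x a) * (W x *ᵥ f i x) a with hqc
  set s : Fin N → ℝ → ℝ := fun i x => ∑ a, Complex.normSq (f i x a) with hs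
  set D : Fin N → ℝ → ℝ := fun i x => ∑ a, Complex.normSq (f' i x a) with hD
  set U : ∀ S : Finset (Fin N), ℝ → Matrix (Fin S.card) (Fin m) ℂ :=
    fun S x => Matrix.of fun j a => conj (f (S.equivFin.symm j) x a) with hU
  set K : Finset (Fin N) → ℝ → ℝ := fun S x => ((U S x * (U S x)ᴴ) ^ 3).trace.re with hKdef
  have hkin : ∀ S, Integrable (K S) volume ∧
      Real.pi ^ 2 / 4 * (∫ x, K S x) ≤ ∑ i ∈ S, ∫ x, D i x := fun S => by
    obtain ⟨h1, h2⟩ := hK S.card (U S)
      (fun x => Matrix.of fun j a => conj (f' (S.equivFin.symm j) x a))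
      (fun x j a => ((hH1 _ a).1 x).star)
      (fun j a => Complex.continuous_conj.comp (hH1 _ a).2.1)
      (fun j a => (hH1 _ a).2.2.1.star) (fun j a => (hH1 _ a).2.2.2.star)
      (fun i j => by
        have h := horth (S.equivFin.symm i) (S.equivFin.symm j)
        simpa [hU, mul_apply, conjTranspose_apply] using h)
    refine ⟨h1, h2.trans (le_of_eq ?_)⟩
    simp only [of_apply, Complex.normSq_conj, hD]
    rw [← Finset.sum_coe_sort S, ← S.equivFin.symm.sum_comp]
    exact Finset.sum_congr rfl fun j _ =>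
      (integral_finsetSum _ fun a _ => integrable_normSq (hH1 _ a).2.2.2).symm
  have hpt : ∀ (S : Finset (Fin N)) (x t : ℝ), ∑ i ∈ S, ((qc i x).re - t * s i x)
      ≤ Real.pi ^ 2 / 4 * K S x + ltConst * ∑ k, max (e x k - t) 0 ^ (3 / 2 : ℝ) := by
    intro S x t
    have h := mYoung_shift (hW0 x).isHermitian (posSemidef_conjTranspose_mul_self (U S x)) t
    have hcyc : (((U S x)ᴴ * U S x) ^ 3).trace = ((U S x * (U S x)ᴴ) ^ 3).trace := by
      simp only [pow_three, Matrix.mul_assoc]
      rw [Matrix.trace_mul_comm]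
      simp only [Matrix.mul_assoc]
    have hq' : (W x * ((U S x)ᴴ * U S x)).trace = ∑ i ∈ S, qc i x := by
      rw [← Finset.sum_coe_sort S, ← S.equivFin.symm.sum_comp]
      simp only [hqc, hU, Matrix.trace, diag, mul_apply, mulVec, dotProduct, conjTranspose_apply,
        of_apply, Complex.star_def, Complex.conj_conj, Finset.mul_sum]
      symm
      rw [Finset.sum_comm]
      refine Finset.sum_congr rfl fun a _ => ?_
      rw [Finset.sum_comm]
      refine Finset.sum_congr rfl fun b _ => Finset.sum_congr rfl fun i _ => ?_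
      ring
    have hs' : ((U S x)ᴴ * U S x).trace.re = ∑ i ∈ S, s i x := by
      rw [← Finset.sum_coe_sort S, ← S.equivFin.symm.sum_comp]
      simp only [hs, hU, Matrix.trace, diag, mul_apply, conjTranspose_apply, of_apply,
        Complex.star_def, Complex.conj_conj, Complex.re_sum, Complex.mul_conj, Complex.ofReal_re]
      rw [Finset.sum_comm]
    rw [hq', hcyc, hs', Complex.re_sum] at h
    rw [Finset.sum_sub_distrib, ← Finset.mul_sum]
    exact h
  have hsint : ∀ i, Integrable (s i) volume := fun i =>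
    integrable_finsetSum _ fun a _ => integrable_normSq (hH1 i a).2.2.1
  have hs1 : ∀ i, ∫ x, s i x = 1 := fun i => by
    have h := horth i i
    have e1 : (fun x => ∑ a, conj (f i x a) * f i x a) = fun x => (s i x : ℂ) := by
      funext x; simp only [hs]; push_cast; simp only [Complex.normSq_eq_conj_mul_self]
    rw [if_pos rfl, e1, integral_complex_ofReal] at h
    exact_mod_cast h
  have hq0 : ∀ i x, 0 ≤ qc i x := fun i x => by
    simpa [hqc, dotProduct] using (hW0 x).dotProduct_mulVec_nonneg (f i x)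
  have hqi : ∀ i, Integrable (qc i) volume := fun i => by
    have hdom : Integrable (fun x => μ i * s i x + Real.pi ^ 2 / 4 * K {i} x
        + ltConst * (μ i ^ (3 / 2 - p) * trPowAt p (W x))) volume :=
      (((hsint i).const_mul _).add ((hkin {i}).1.const_mul _)).add
        ((hWi.const_mul _).const_mul _)
    refine hdom.mono' ?_ (Filter.Eventually.of_forall fun x => ?_)
    · simp only [hqc, mulVec, dotProduct]
      exact Finset.aestronglyMeasurable_fun_sum Finset.univ fun a _ =>
        (hH1 i a).2.2.1.1.star.mul (Finset.aestronglyMeasurable_fun_sum Finset.univ fun b _ =>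
          (hWm a b).aestronglyMeasurable.mul (hH1 i b).2.2.1.1)
    · rw [← Complex.re_eq_norm.mpr (hq0 i x)]
      have h := hpt {i} x (μ i)
      rw [Finset.sum_singleton] at h
      have hmax : ∑ k, max (e x k - μ i) 0 ^ (3 / 2 : ℝ) ≤ μ i ^ (3 / 2 - p) * trPowAt p (W x) := by
        rw [htp, Finset.mul_sum]
        refine Finset.sum_le_sum fun k _ => ?_
        rcases le_total (e x k) (μ i) with hle | hle
        · rw [max_eq_right (sub_nonpos.2 hle), Real.zero_rpow (by norm_num)]
          have := he0 x k; have := (hμ0 i).le; positivity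
        · rw [max_eq_left (sub_nonneg.2 hle)]
          have hek : 0 < e x k := (hμ0 i).trans_le hle
          calc (e x k - μ i) ^ (3 / 2 : ℝ) ≤ e x k ^ (3 / 2 : ℝ) :=
                Real.rpow_le_rpow (sub_nonneg.2 hle) (by linarith [hμ0 i]) (by norm_num)
            _ = e x k ^ (3 / 2 - p) * e x k ^ p := by
                rw [← Real.rpow_add hek, sub_add_cancel]
            _ ≤ μ i ^ (3 / 2 - p) * e x k ^ p :=
                mul_le_mul_of_nonneg_right
                  (Real.rpow_le_rpow_of_nonpos (hμ0 i) hle (by linarith))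
                  (Real.rpow_nonneg hek.le _)
      have := mul_le_mul_of_nonneg_left hmax hL.le
      linarith
  have heig : ∀ i, (∫ x, (qc i x).re) - ∫ x, D i x = μ i := fun i => by
    have h := hweak i (f i) (f' i) (hH1 i)
    have e1 : (fun x => ∑ a, conj (f' i x a) * f' i x a) = fun x => ((D i x : ℝ) : ℂ) := by
      funext x; simp only [hD]; push_cast; simp only [Complex.normSq_eq_conj_mul_self]
    have hn : ∫ x, ∑ a, conj (f i x a) * f i x a = 1 := by simpa using horth i i
    rw [hn, mul_one, e1, integral_complex_ofReal] at h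
    have h' := congrArg Complex.re h
    simp only [Complex.sub_re, Complex.ofReal_re] at h'
    rw [show (∫ x, (qc i x).re) = (∫ x, qc i x).re from integral_re (hqi i)]
    simp only [hμ, hqc]
    rw [abs_of_neg (hlf i).1]
    linarith
  set T := ∑ i, μ i with hTdef
  have hT : ∀ i, μ i ≤ T := fun i =>
    Finset.single_le_sum (fun j _ => (hμ0 j).le) (Finset.mem_univ i)
  have hT0 : 0 ≤ T := Finset.sum_nonneg fun j _ => (hμ0 j).le
  set c : Finset (Fin N) → ℝ := fun S => ∫ t in (0 : ℝ)..T, layerInd μ S t * t ^ α with hc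
  set d : Finset (Fin N) → ℝ := fun S => ∫ t in (0 : ℝ)..T, layerInd μ S t * t ^ (α + 1) with hd
  have hα1 : -1 < α + 1 := by linarith
  have hc0 : ∀ S, 0 ≤ c S := fun S =>
    intervalIntegral.integral_nonneg hT0 fun t ht =>
      mul_nonneg (by unfold layerInd; split_ifs <;> norm_num) (Real.rpow_nonneg ht.1 _)
  have hcd : ∀ G H : Finset (Fin N) → ℝ, (∑ S, (c S * G S - d S * H S))
      = ∫ t in (0 : ℝ)..T, ∑ S, (layerInd μ S t * t ^ α * G S
          - layerInd μ S t * t ^ (α + 1) * H S) := fun G H => by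
    rw [intervalIntegral.integral_finsetSum fun S _ =>
      ((layerInd_integrable μ S hα 0 T).mul_const _).sub
        ((layerInd_integrable μ S hα1 0 T).mul_const _)]
    refine Finset.sum_congr rfl fun S _ => ?_
    rw [intervalIntegral.integral_sub ((layerInd_integrable μ S hα 0 T).mul_const _)
      ((layerInd_integrable μ S hα1 0 T).mul_const _), intervalIntegral.integral_mul_const,
      intervalIntegral.integral_mul_const]
  set B := Real.Gamma (α + 1) * Real.Gamma (5 / 2) / Real.Gamma (α + 1 + 5 / 2) with hB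
  have hcollapse : ∀ (G H : Finset (Fin N) → ℝ) (t : ℝ), 0 < t →
      ∑ S, (layerInd μ S t * t ^ α * G S - layerInd μ S t * t ^ (α + 1) * H S)
        = t ^ α * (G (Finset.univ.filter fun i => t < μ i)
            - t * H (Finset.univ.filter fun i => t < μ i)) := fun G H t ht => by
    rw [← layer_sum μ G t, ← layer_sum μ H t, Finset.mul_sum, ← Finset.sum_sub_distrib,
      Finset.mul_sum]
    refine Finset.sum_congr rfl fun S _ => ?_
    rw [Real.rpow_add ht, Real.rpow_one]
    ring
  have hsumint : ∀ (G H : Finset (Fin N) → ℝ), IntervalIntegrable (fun t => ∑ S,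
      (layerInd μ S t * t ^ α * G S - layerInd μ S t * t ^ (α + 1) * H S)) volume 0 T :=
    fun G H => by
      have h := IntervalIntegrable.sum Finset.univ fun S _ =>
        ((layerInd_integrable μ S hα 0 T).mul_const (G S)).sub
          ((layerInd_integrable μ S hα1 0 T).mul_const (H S))
      simpa [Finset.sum_fn] using h
  have hpoint : ∀ x, ∑ S, (c S * (∑ i ∈ S, (qc i x).re - Real.pi ^ 2 / 4 * K S x)
      - d S * ∑ i ∈ S, s i x) ≤ ltConst * B * trPowAt p (W x) := by
    intro x
    rw [hcd]
    have hi : IntervalIntegrable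
        (fun t => ∑ k, ltConst * (t ^ α * max (e x k - t) 0 ^ (3 / 2 : ℝ))) volume 0 T := by
      have h := IntervalIntegrable.sum Finset.univ fun k _ =>
        (integrable_layer α (e x k) hα 0 T).const_mul ltConst
      simpa [Finset.sum_fn] using h
    refine (intervalIntegral.integral_mono_on_of_le_Ioo hT0 (hsumint _ _) hi fun t ht => ?_).trans ?_
    · rw [hcollapse _ _ t ht.1, ← Finset.mul_sum, ← Finset.mul_sum, ← mul_assoc,
        mul_comm ltConst, mul_assoc]
      refine mul_le_mul_of_nonneg_left ?_ (Real.rpow_nonneg ht.1.le _)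
      have h := hpt (Finset.univ.filter fun i => t < μ i) x t
      rw [Finset.sum_sub_distrib, ← Finset.mul_sum] at h
      linarith
    · rw [intervalIntegral.integral_finsetSum fun k _ =>
        (integrable_layer α (e x k) hα 0 T).const_mul ltConst, htp, Finset.mul_sum]
      refine Finset.sum_le_sum fun k _ => ?_
      rw [intervalIntegral.integral_const_mul, mul_assoc]
      refine mul_le_mul_of_nonneg_left ?_ hL.le
      refine (layer_le hα (he0 x k) hT0).trans (le_of_eq ?_)
      rw [mul_comm]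
      congr 2
      simp only [hp, hαdef]; ring
  have hG : ∀ S : Finset (Fin N), Integrable
      (fun x => c S * (∑ i ∈ S, (qc i x).re - Real.pi ^ 2 / 4 * K S x) - d S * ∑ i ∈ S, s i x)
      volume := fun S =>
    (((integrable_finsetSum _ fun i _ => (hqi i).re).sub ((hkin S).1.const_mul _)).const_mul _).sub
      ((integrable_finsetSum _ fun i _ => hsint i).const_mul _)
  have hx := integral_mono (integrable_finsetSum _ fun S _ => hG S) (hWi.const_mul _) hpoint
  rw [integral_const_mul, integral_finsetSum _ fun S _ => hG S] at hx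
  have hlow : ∀ S : Finset (Fin N), c S * (∑ i ∈ S, μ i) - d S * S.card
      ≤ ∫ x, c S * (∑ i ∈ S, (qc i x).re - Real.pi ^ 2 / 4 * K S x) - d S * ∑ i ∈ S, s i x := by
    intro S
    have i1 : Integrable (fun x => ∑ i ∈ S, (qc i x).re) volume :=
      integrable_finsetSum _ fun i _ => (hqi i).re
    have i3 : Integrable (fun x => ∑ i ∈ S, s i x) volume :=
      integrable_finsetSum _ fun i _ => hsint i
    rw [integral_sub ((i1.sub' ((hkin S).1.const_mul _)).const_mul _) (i3.const_mul _),
      integral_const_mul, integral_const_mul, integral_sub i1 ((hkin S).1.const_mul _),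
      integral_finsetSum (f := fun i x => (qc i x).re) _ fun i _ => (hqi i).re,
      integral_finsetSum _ fun i _ => hsint i, integral_const_mul]
    simp only [hs1, Finset.sum_const, nsmul_eq_mul, mul_one]
    have h1 : ∑ i ∈ S, μ i = ∑ i ∈ S, (∫ x, (qc i x).re) - ∑ i ∈ S, ∫ x, D i x := by
      rw [← Finset.sum_sub_distrib]
      exact Finset.sum_congr rfl fun i _ => (heig i).symm
    have h2 := mul_le_mul_of_nonneg_left
      (show ∑ i ∈ S, μ i ≤ ∑ i ∈ S, (∫ x, (qc i x).re) - Real.pi ^ 2 / 4 * ∫ x, K S x by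
        linarith [(hkin S).2]) (hc0 S)
    linarith
  have hmain := (Finset.sum_le_sum fun S (_ : S ∈ Finset.univ) => hlow S).trans hx
  rw [hcd] at hmain
  have hg : 0 < γ - 1 := by linarith
  have hval : ∫ t in (0 : ℝ)..T, ∑ S, (layerInd μ S t * t ^ α * (∑ i ∈ S, μ i)
      - layerInd μ S t * t ^ (α + 1) * (S.card : ℝ)) = ∑ i, μ i ^ γ / (γ * (γ - 1)) := by
    have hint : ∀ i, IntervalIntegrable
        (fun t => Set.indicator (Set.Iio (μ i)) (fun t => μ i * t ^ α - t ^ (α + 1)) t)
        volume 0 T := fun i => by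
      have hb := ((intervalIntegral.intervalIntegrable_rpow' hα (a := 0) (b := T)).const_mul
        (μ i)).sub (intervalIntegral.intervalIntegrable_rpow' hα1 (a := 0) (b := T))
      exact ⟨hb.1.indicator measurableSet_Iio, hb.2.indicator measurableSet_Iio⟩
    rw [intervalIntegral.integral_congr_ae (g := fun t => ∑ i,
      Set.indicator (Set.Iio (μ i)) (fun t => μ i * t ^ α - t ^ (α + 1)) t)
      (Filter.Eventually.of_forall fun t ht => ?_)]
    swap
    · rw [Set.uIoc_of_le hT0] at ht
      rw [hcollapse _ _ t ht.1, Finset.card_eq_sum_ones, Nat.cast_sum, Finset.sum_filter,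
        Finset.sum_filter, Finset.mul_sum, ← Finset.sum_sub_distrib, Finset.mul_sum]
      refine Finset.sum_congr rfl fun i _ => ?_
      have hpw : t ^ (α + 1) = t ^ α * t := by rw [Real.rpow_add ht.1, Real.rpow_one]
      by_cases hi : t < μ i <;> simp [hi, hpw] <;> ring
    rw [intervalIntegral.integral_finsetSum fun i _ => hint i]
    refine Finset.sum_congr rfl fun i _ => ?_
    rw [intervalIntegral.integral_of_le hT0, setIntegral_indicator measurableSet_Iio,
      show Set.Ioc (0 : ℝ) T ∩ Set.Iio (μ i) = Set.Ioo (0 : ℝ) (μ i) from Set.ext fun t => by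
        simp only [Set.mem_inter_iff, Set.mem_Ioc, Set.mem_Iio, Set.mem_Ioo]
        exact ⟨fun h => ⟨h.1.1, h.2⟩, fun h => ⟨⟨h.1, h.2.le.trans (hT i)⟩, h.2⟩⟩,
      ← integral_Ioc_eq_integral_Ioo,
      ← intervalIntegral.integral_of_le (hμ0 i).le,
      intervalIntegral.integral_sub
        ((intervalIntegral.intervalIntegrable_rpow' hα).const_mul _)
        (intervalIntegral.intervalIntegrable_rpow' hα1),
      intervalIntegral.integral_const_mul, integral_rpow (Or.inl hα), integral_rpow (Or.inl hα1),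
      Real.zero_rpow (by linarith), Real.zero_rpow (by linarith),
      show α + 1 + 1 = γ by simp only [hαdef]; ring,
      show α + 1 = γ - 1 by simp only [hαdef]; ring,
      show μ i ^ (γ - 1) = μ i ^ γ / μ i by rw [Real.rpow_sub (hμ0 i), Real.rpow_one]]
    have := (hμ0 i).ne'
    have : (γ : ℝ) ≠ 0 := by linarith
    field_simp
    ring
  rw [hval, ← Finset.sum_div, div_le_iff₀ (by positivity)] at hmain
  have h52 : Real.Gamma (5 / 2) = 3 / 4 * Real.sqrt Real.pi := by
    rw [show (5 / 2 : ℝ) = (1 / 2 + 1) + 1 by norm_num, Real.Gamma_add_one (by norm_num),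
      Real.Gamma_add_one (by norm_num), Real.Gamma_one_half_eq]
    ring
  have hgam : Real.Gamma (γ + 1) = γ * ((γ - 1) * Real.Gamma (γ - 1)) := by
    have h := Real.Gamma_add_one hg.ne'
    rw [sub_add_cancel] at h
    rw [Real.Gamma_add_one (by linarith), h]
  refine hmain.trans (le_of_eq ?_)
  rw [ltClassical, hgam, hB, h52, ltConst, show α + 1 = γ - 1 by simp only [hαdef]; ring,
    show γ - 1 + 5 / 2 = γ + 3 / 2 by ring]
  have hsp : Real.sqrt Real.pi * Real.sqrt Real.pi = Real.pi := Real.mul_self_sqrt Real.pi_pos.le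
  have hGp : 0 < Real.Gamma (γ + 3 / 2) := Real.Gamma_pos_of_pos (by linarith)
  have hs3 : 0 < Real.sqrt 3 := Real.sqrt_pos.mpr (by norm_num)
  have hspi : 0 < Real.sqrt Real.pi := Real.sqrt_pos.mpr Real.pi_pos
  field_simp
  linear_combination (∫ x, trPowAt p (W x)) * hsp

/-- The lifted bound as a bound on the ratios. -/
theorem mLtRatiosAt_le (hK : MKineticBound m) {γ : ℝ} (hγ : 1 < γ) :
    ∀ r ∈ mLtRatiosAt γ m, r ≤ 2 / Real.sqrt 3 * ltClassical γ := by
  rintro r ⟨W, hW, hpos, N, lam, f, hlf, horth, rfl⟩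
  rw [div_le_iff₀ hpos]
  exact lifted_bound hK hγ hW lam f hlf horth

end Vale.Agent.P371
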