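import Mathlib

/-!
# P371: the calibration behind the sharp one-dimensional kinetic inequality (`γ = 1`)

For a Hermitian `M` with spectrum in `(0,1)` and a vector `u`, the calibration is
`S = (π/4) tr (Q · p(T_M) Q)`, with `Q = u u^*`, `T_M X = (π/2)(M X + X M)` and `p` a polynomial
approximating the cotangent.  Along `M' = Q`, `u' = v` one has
`|v|² - (π²/4)(1-η)|u|⁶ ≥ S'`.
-/

namespace Vale.Agent.P371

open Matrix Real Finset

variable {N : ℕ}

/-- `X ↦ (π/2)(M X + X M)`. -/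
noncomputable def Tm (M X : Matrix (Fin N) (Fin N) ℂ) : Matrix (Fin N) (Fin N) ℂ :=
  ((π / 2 : ℝ) : ℂ) • (M * X + X * M)

/-- The iterates of `Tm M` at `Q`. -/
noncomputable def Tk (M Q : Matrix (Fin N) (Fin N) ℂ) : ℕ → Matrix (Fin N) (Fin N) ℂ
  | 0 => Q
  | k + 1 => Tm M (Tk M Q k)

/-- The derivative of `Tk` along `M' = Q`, `Q' = Qd`. -/
noncomputable def dTk (M Q Qd : Matrix (Fin N) (Fin N) ℂ) : ℕ → Matrix (Fin N) (Fin N) ℂ
  | 0 => Qd
  | k + 1 => Tm Q (Tk M Q k) + Tm M (dTk M Q Qd k)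

/-- `u v^*`. -/
noncomputable def outer (u v : Fin N → ℂ) : Matrix (Fin N) (Fin N) ℂ := vecMulVec u (star v)

/-- `p(T_M) Q`. -/
noncomputable def PQ (d : ℕ) (c : ℕ → ℝ) (M : Matrix (Fin N) (Fin N) ℂ) (u : Fin N → ℂ) :
    Matrix (Fin N) (Fin N) ℂ :=
  ∑ k ∈ range d, (c k : ℂ) • Tk M (outer u u) k

/-- The derivative of `PQ`. -/
noncomputable def dPQ (d : ℕ) (c : ℕ → ℝ) (M : Matrix (Fin N) (Fin N) ℂ) (u v : Fin N → ℂ) :
    Matrix (Fin N) (Fin N) ℂ :=
  ∑ k ∈ range d, (c k : ℂ) • dTk M (outer u u) (outer v u + outer u v) k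

/-- The calibration. -/
noncomputable def Sval (d : ℕ) (c : ℕ → ℝ) (M : Matrix (Fin N) (Fin N) ℂ) (u : Fin N → ℂ) : ℝ :=
  π / 4 * (star u ⬝ᵥ (PQ d c M u *ᵥ u)).re

/-- Its derivative along `M' = u u^*`, `u' = v`. -/
noncomputable def dSval (d : ℕ) (c : ℕ → ℝ) (M : Matrix (Fin N) (Fin N) ℂ) (u v : Fin N → ℂ) : ℝ :=
  π / 4 * (star v ⬝ᵥ (PQ d c M u *ᵥ u) + star u ⬝ᵥ (dPQ d c M u v *ᵥ u)
    + star u ⬝ᵥ (PQ d c M u *ᵥ v)).re

/-! ### Covariance under a change of orthonormal basis -/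

theorem Tm_conj {U : Matrix (Fin N) (Fin N) ℂ} (hU : Uᴴ * U = 1)
    (A X : Matrix (Fin N) (Fin N) ℂ) :
    Tm (U * A * Uᴴ) (U * X * Uᴴ) = U * Tm A X * Uᴴ := by
  have h : ∀ A X : Matrix (Fin N) (Fin N) ℂ,
      U * A * Uᴴ * (U * X * Uᴴ) = U * (A * X) * Uᴴ := by
    intro A X
    rw [show U * A * Uᴴ * (U * X * Uᴴ) = U * A * (Uᴴ * U) * (X * Uᴴ) by
      simp only [Matrix.mul_assoc], hU, Matrix.mul_one]
    simp only [Matrix.mul_assoc]
  simp only [Tm, h, Matrix.mul_add, Matrix.add_mul, Matrix.mul_smul, Matrix.smul_mul, smul_add]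

theorem outer_conj (U : Matrix (Fin N) (Fin N) ℂ) (u v : Fin N → ℂ) :
    outer (U *ᵥ u) (U *ᵥ v) = U * outer u v * Uᴴ := by
  rw [outer, outer, mul_vecMulVec, vecMulVec_mul, ← star_mulVec]

theorem Tk_conj {U : Matrix (Fin N) (Fin N) ℂ} (hU : Uᴴ * U = 1)
    (M Q : Matrix (Fin N) (Fin N) ℂ) (k : ℕ) :
    Tk (U * M * Uᴴ) (U * Q * Uᴴ) k = U * Tk M Q k * Uᴴ := by
  induction k with
  | zero => rfl
  | succ k ih => simp only [Tk, ih, Tm_conj hU]

theorem dTk_conj {U : Matrix (Fin N) (Fin N) ℂ} (hU : Uᴴ * U = 1)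
    (M Q Qd : Matrix (Fin N) (Fin N) ℂ) (k : ℕ) :
    dTk (U * M * Uᴴ) (U * Q * Uᴴ) (U * Qd * Uᴴ) k = U * dTk M Q Qd k * Uᴴ := by
  induction k with
  | zero => rfl
  | succ k ih => simp only [dTk, ih, Tk_conj hU, Tm_conj hU, Matrix.mul_add, Matrix.add_mul]

theorem PQ_conj {U : Matrix (Fin N) (Fin N) ℂ} (hU : Uᴴ * U = 1) (d : ℕ) (c : ℕ → ℝ)
    (M : Matrix (Fin N) (Fin N) ℂ) (u : Fin N → ℂ) :
    PQ d c (U * M * Uᴴ) (U *ᵥ u) = U * PQ d c M u * Uᴴ := by
  simp only [PQ, outer_conj, Tk_conj hU, Matrix.mul_sum, Matrix.sum_mul, Matrix.mul_smul,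
    Matrix.smul_mul]

theorem dPQ_conj {U : Matrix (Fin N) (Fin N) ℂ} (hU : Uᴴ * U = 1) (d : ℕ) (c : ℕ → ℝ)
    (M : Matrix (Fin N) (Fin N) ℂ) (u v : Fin N → ℂ) :
    dPQ d c (U * M * Uᴴ) (U *ᵥ u) (U *ᵥ v) = U * dPQ d c M u v * Uᴴ := by
  simp only [dPQ, outer_conj, ← Matrix.add_mul, ← Matrix.mul_add, dTk_conj hU, Matrix.mul_sum,
    Matrix.sum_mul, Matrix.mul_smul, Matrix.smul_mul]

theorem star_dot_conj {U : Matrix (Fin N) (Fin N) ℂ} (hU : Uᴴ * U = 1)
    (A : Matrix (Fin N) (Fin N) ℂ) (a b : Fin N → ℂ) :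
    star (U *ᵥ a) ⬝ᵥ ((U * A * Uᴴ) *ᵥ (U *ᵥ b)) = star a ⬝ᵥ (A *ᵥ b) := by
  rw [mulVec_mulVec, Matrix.mul_assoc, hU, Matrix.mul_one, ← mulVec_mulVec, star_mulVec,
    dotProduct_mulVec (star a ᵥ* Uᴴ), vecMul_vecMul, hU, vecMul_one]

theorem Sval_conj {U : Matrix (Fin N) (Fin N) ℂ} (hU : Uᴴ * U = 1) (d : ℕ) (c : ℕ → ℝ)
    (M : Matrix (Fin N) (Fin N) ℂ) (u : Fin N → ℂ) :
    Sval d c (U * M * Uᴴ) (U *ᵥ u) = Sval d c M u := by
  simp only [Sval, PQ_conj hU, star_dot_conj hU]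

theorem dSval_conj {U : Matrix (Fin N) (Fin N) ℂ} (hU : Uᴴ * U = 1) (d : ℕ) (c : ℕ → ℝ)
    (M : Matrix (Fin N) (Fin N) ℂ) (u v : Fin N → ℂ) :
    dSval d c (U * M * Uᴴ) (U *ᵥ u) (U *ᵥ v) = dSval d c M u v := by
  simp only [dSval, PQ_conj hU, dPQ_conj hU, star_dot_conj hU]

/-! ### Evaluation at a diagonal matrix -/

/-- `∑_{a<k} s^a t^(k-1-a)`. -/
def geom : ℕ → ℝ → ℝ → ℝ
  | 0, _, _ => 0
  | k + 1, s, t => s ^ k + t * geom k s t

theorem geom_mul_sub (k : ℕ) (s t : ℝ) : geom k s t * (s - t) = s ^ k - t ^ k := by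
  induction k with
  | zero => simp [geom]
  | succ k ih => simp only [geom, pow_succ]; linear_combination t * ih

theorem geom_self (k : ℕ) (t : ℝ) : geom k t t = k * t ^ (k - 1) := by
  induction k with
  | zero => simp [geom]
  | succ k ih =>
    rw [geom, ih]
    rcases k with _ | k
    · simp
    · simp only [Nat.add_sub_cancel, Nat.cast_add, Nat.cast_one, pow_succ]; ring

/-- The polynomial. -/
def pol (d : ℕ) (c : ℕ → ℝ) (t : ℝ) : ℝ := ∑ k ∈ range d, c k * t ^ k

/-- Its divided difference. -/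
def dd (d : ℕ) (c : ℕ → ℝ) (s t : ℝ) : ℝ := ∑ k ∈ range d, c k * geom k s t

/-- The angle `π (m_i + m_j)/2`. -/
noncomputable def ang (m : Fin N → ℝ) (i j : Fin N) : ℝ := π / 2 * (m i + m j)

theorem ang_comm (m : Fin N → ℝ) (i j : Fin N) : ang m i j = ang m j i := by
  simp only [ang, add_comm]

theorem outer_apply (u v : Fin N → ℂ) (i j : Fin N) : outer u v i j = u i * star (v j) := rfl

theorem Tm_diag (m : Fin N → ℝ) (X : Matrix (Fin N) (Fin N) ℂ) (i j : Fin N) :
    Tm (diagonal fun i => (m i : ℂ)) X i j = (ang m i j : ℂ) * X i j := by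
  simp only [Tm, Matrix.smul_apply, Matrix.add_apply, diagonal_mul, mul_diagonal, smul_eq_mul, ang]
  push_cast; ring

theorem Tk_diag (m : Fin N → ℝ) (X : Matrix (Fin N) (Fin N) ℂ) (k : ℕ) (i j : Fin N) :
    Tk (diagonal fun i => (m i : ℂ)) X k i j = ((ang m i j ^ k : ℝ) : ℂ) * X i j := by
  induction k with
  | zero => simp [Tk]
  | succ k ih => rw [Tk, Tm_diag, ih]; push_cast; ring

theorem dTk_diag (m : Fin N → ℝ) (Q Qd : Matrix (Fin N) (Fin N) ℂ) (k : ℕ) (i j : Fin N) :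
    dTk (diagonal fun i => (m i : ℂ)) Q Qd k i j = ((ang m i j ^ k : ℝ) : ℂ) * Qd i j
      + ∑ l, (((π / 2 * (geom k (ang m l j) (ang m i j) + geom k (ang m i l) (ang m i j))) : ℝ) : ℂ)
          * (Q i l * Q l j) := by
  induction k with
  | zero => simp [dTk, geom]
  | succ k ih =>
    rw [dTk, Matrix.add_apply, Tm_diag, ih]
    simp only [Tm, Matrix.smul_apply, Matrix.add_apply, Matrix.mul_apply, smul_eq_mul,
      ← Finset.sum_add_distrib, Finset.mul_sum, mul_add, Tk_diag]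
    rw [add_comm, add_assoc, ← Finset.sum_add_distrib]
    congr 1
    · push_cast; ring
    · refine Finset.sum_congr rfl fun l _ => ?_
      simp only [geom]
      push_cast; ring

theorem PQ_diag (d : ℕ) (c : ℕ → ℝ) (m : Fin N → ℝ) (w : Fin N → ℂ) (i j : Fin N) :
    PQ d c (diagonal fun i => (m i : ℂ)) w i j = (pol d c (ang m i j) : ℂ) * (w i * star (w j)) := by
  simp only [PQ, Matrix.sum_apply, Matrix.smul_apply, Tk_diag, outer_apply, smul_eq_mul, pol]
  push_cast
  rw [Finset.sum_mul]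
  exact Finset.sum_congr rfl fun k _ => by ring

theorem dPQ_diag (d : ℕ) (c : ℕ → ℝ) (m : Fin N → ℝ) (w z : Fin N → ℂ) (i j : Fin N) :
    dPQ d c (diagonal fun i => (m i : ℂ)) w z i j
      = (pol d c (ang m i j) : ℂ) * (z i * star (w j) + w i * star (z j))
        + ∑ l, (((π / 2 * (dd d c (ang m l j) (ang m i j) + dd d c (ang m i l) (ang m i j))) : ℝ) : ℂ)
            * (w i * star (w l) * (w l * star (w j))) := by
  simp only [dPQ, Matrix.sum_apply, Matrix.smul_apply, dTk_diag, Matrix.add_apply, outer_apply,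
    smul_eq_mul, mul_add, Finset.sum_add_distrib, Finset.mul_sum, pol, dd]
  push_cast
  simp only [Finset.sum_mul, ← Finset.sum_add_distrib, mul_add, add_mul]
  rw [Finset.sum_comm (t := range d) (s := (Finset.univ : Finset (Fin N)))]
  simp only [← Finset.sum_add_distrib]
  refine Finset.sum_congr rfl fun k _ => ?_
  congr 1
  · ring
  · exact Finset.sum_congr rfl fun l _ => by ring

theorem star_dot_mulVec (A : Matrix (Fin N) (Fin N) ℂ) (a b : Fin N → ℂ) :
    star a ⬝ᵥ (A *ᵥ b) = ∑ i, ∑ j, star (a i) * (A i j * b j) := by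
  simp [dotProduct, Matrix.mulVec, Finset.mul_sum]

theorem star_mul_self_eq (z : ℂ) : star z * z = (Complex.normSq z : ℂ) := by
  rw [Complex.normSq_eq_conj_mul_self]; rfl

theorem Sval_diag (d : ℕ) (c : ℕ → ℝ) (m : Fin N → ℝ) (w : Fin N → ℂ) :
    Sval d c (diagonal fun i => (m i : ℂ)) w
      = π / 4 * ∑ i, ∑ j, Complex.normSq (w i) * Complex.normSq (w j) * pol d c (ang m i j) := by
  rw [Sval, star_dot_mulVec, Complex.re_sum]
  congr 1
  refine Finset.sum_congr rfl fun i _ => ?_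
  rw [Complex.re_sum]
  refine Finset.sum_congr rfl fun j _ => ?_
  rw [PQ_diag, show star (w i) * ((pol d c (ang m i j) : ℂ) * (w i * star (w j)) * w j)
    = (star (w i) * w i) * (star (w j) * w j) * (pol d c (ang m i j) : ℂ) by ring,
    star_mul_self_eq, star_mul_self_eq, ← Complex.ofReal_mul, ← Complex.ofReal_mul,
    Complex.ofReal_re]

theorem dSval_diag (d : ℕ) (c : ℕ → ℝ) (m : Fin N → ℝ) (w z : Fin N → ℂ) :
    dSval d c (diagonal fun i => (m i : ℂ)) w z
      = π * ∑ i, (∑ j, pol d c (ang m i j) * Complex.normSq (w j)) * (star (z i) * w i).re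
        + π ^ 2 / 4 * ∑ i, ∑ j, ∑ l, Complex.normSq (w i) * Complex.normSq (w j)
            * Complex.normSq (w l) * dd d c (ang m l j) (ang m i j) := by
  set W : Fin N → ℝ := fun i => Complex.normSq (w i) with hW
  set r : Fin N → ℝ := fun i => (star (z i) * w i).re with hr
  set P : Fin N → Fin N → ℝ := fun i j => pol d c (ang m i j) with hP
  set D : Fin N → Fin N → Fin N → ℝ := fun i j l => dd d c (ang m l j) (ang m i j) with hD
  have hP' : ∀ i j, P i j = P j i := fun i j => by simp only [hP, ang_comm m i j]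
  have hD' : ∀ i j l, dd d c (ang m i l) (ang m i j) = D j i l := fun i j l => by
    simp only [hD, ang_comm m i l, ang_comm m i j]
  have hre : ∀ x : ℂ, (star x).re = x.re := fun x => Complex.conj_re x
  have e1 : ∀ i j, (star (z i) * (PQ d c (diagonal fun i => (m i : ℂ)) w i j * w j)).re
      = P i j * W j * r i := by
    intro i j
    rw [PQ_diag, show star (z i) * ((pol d c (ang m i j) : ℂ) * (w i * star (w j)) * w j)
      = ((pol d c (ang m i j) : ℝ) : ℂ) * (star (w j) * w j) * (star (z i) * w i) by ring,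
      star_mul_self_eq, ← Complex.ofReal_mul, Complex.re_ofReal_mul]
  have e3 : ∀ i j, (star (w i) * (PQ d c (diagonal fun i => (m i : ℂ)) w i j * z j)).re
      = P i j * W i * r j := by
    intro i j
    rw [PQ_diag, show star (w i) * ((pol d c (ang m i j) : ℂ) * (w i * star (w j)) * z j)
      = ((pol d c (ang m i j) : ℝ) : ℂ) * (star (w i) * w i) * (star (w j) * z j) by ring,
      star_mul_self_eq, ← Complex.ofReal_mul, Complex.re_ofReal_mul,
      show star (w j) * z j = star (star (z j) * w j) by simp [mul_comm], hre]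
  have e2 : ∀ i j, (star (w i) * (dPQ d c (diagonal fun i => (m i : ℂ)) w z i j * w j)).re
      = (P i j * W j * r i + P i j * W i * r j)
        + π / 2 * ∑ l, W i * W j * W l * (D i j l + D j i l) := by
    intro i j
    rw [dPQ_diag, add_mul, mul_add, Complex.add_re]
    congr 1
    · rw [show star (w i) * ((pol d c (ang m i j) : ℂ) * (z i * star (w j) + w i * star (z j)) * w j)
        = ((pol d c (ang m i j) : ℝ) : ℂ) * (star (w j) * w j) * star (star (z i) * w i)
          + ((pol d c (ang m i j) : ℝ) : ℂ) * (star (w i) * w i) * (star (z j) * w j) by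
          simp only [star_mul', star_star]; ring,
        star_mul_self_eq, star_mul_self_eq, ← Complex.ofReal_mul, ← Complex.ofReal_mul,
        Complex.add_re, Complex.re_ofReal_mul, Complex.re_ofReal_mul, hre]
    · rw [Finset.sum_mul, Finset.mul_sum, Complex.re_sum, Finset.mul_sum]
      refine Finset.sum_congr rfl fun l _ => ?_
      rw [show ∀ a : ℂ, star (w i) * (a * (w i * star (w l) * (w l * star (w j))) * w j)
          = a * ((star (w i) * w i) * (star (w j) * w j) * (star (w l) * w l)) from fun a => by ring,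
        star_mul_self_eq, star_mul_self_eq, star_mul_self_eq, ← Complex.ofReal_mul,
        ← Complex.ofReal_mul, ← Complex.ofReal_mul, Complex.ofReal_re, hD' i j l]
      simp only [hW, hD]; ring
  simp only [dSval, Complex.add_re, star_dot_mulVec, Complex.re_sum, e1, e2, e3]
  have f1 : ∑ i, ∑ j, P i j * W j * r i = ∑ i, (∑ j, P i j * W j) * r i := by
    simp [Finset.sum_mul]
  have f2 : ∑ i, ∑ j, P i j * W i * r j = ∑ i, (∑ j, P i j * W j) * r i := by
    rw [Finset.sum_comm]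
    simp only [Finset.sum_mul]
    exact Finset.sum_congr rfl fun i _ => Finset.sum_congr rfl fun j _ => by rw [hP' j i]
  have f3 : ∑ i, ∑ j, ∑ l, W i * W j * W l * D j i l = ∑ i, ∑ j, ∑ l, W i * W j * W l * D i j l := by
    rw [Finset.sum_comm]
    exact Finset.sum_congr rfl fun i _ => Finset.sum_congr rfl fun j _ =>
      Finset.sum_congr rfl fun l _ => by ring
  simp only [mul_add, Finset.sum_add_distrib, ← Finset.mul_sum, f1, f2, f3]
  ring

/-! ### The pointwise inequality -/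

/-- The kernel inequality at a diagonal matrix gives the calibration inequality. -/
theorem dSval_diag_le (d : ℕ) (c : ℕ → ℝ) (η : ℝ) (m : Fin N → ℝ) (w z : Fin N → ℂ)
    (hker : ∀ i j l, dd d c (ang m l j) (ang m i j)
      + pol d c (ang m i j) * pol d c (ang m l j) + 1 ≤ η) :
    dSval d c (diagonal fun i => (m i : ℂ)) w z
      ≤ ∑ i, Complex.normSq (z i) - π ^ 2 / 4 * (1 - η) * (∑ i, Complex.normSq (w i)) ^ 3 := by
  rw [dSval_diag]
  set W : Fin N → ℝ := fun i => Complex.normSq (w i)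
  set P : Fin N → Fin N → ℝ := fun i j => pol d c (ang m i j)
  set a : Fin N → ℝ := fun i => ∑ j, P i j * W j
  have hW : ∀ i, 0 ≤ W i := fun i => Complex.normSq_nonneg _
  have hcs : ∀ i, π * (a i * (star (z i) * w i).re)
      ≤ Complex.normSq (z i) + π ^ 2 / 4 * (W i * a i ^ 2) := by
    intro i
    have h := Complex.normSq_nonneg (z i - ((π / 2 * a i : ℝ) : ℂ) * w i)
    simp only [Complex.normSq_apply, Complex.sub_re, Complex.sub_im, Complex.mul_re, Complex.mul_im,
      Complex.ofReal_re, Complex.ofReal_im, Complex.star_def, Complex.conj_re, Complex.conj_im,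
      W] at h ⊢
    nlinarith [h]
  have hsum := Finset.sum_le_sum fun i (_ : i ∈ (Finset.univ : Finset (Fin N))) => hcs i
  rw [Finset.sum_add_distrib, ← Finset.mul_sum, ← Finset.mul_sum] at hsum
  have hsq : ∑ i, W i * a i ^ 2 = ∑ i, ∑ j, ∑ l, W i * W j * W l * (P i j * P l j) := by
    simp only [a, pow_two, Finset.sum_mul, Finset.mul_sum]
    rw [Finset.sum_comm]
    refine Finset.sum_congr rfl fun i _ => Finset.sum_congr rfl fun j _ =>
      Finset.sum_congr rfl fun l _ => ?_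
    simp only [P, ang_comm m i j, ang_comm m l j]; ring
  have hcube : (∑ i, W i) ^ 3 = ∑ i, ∑ j, ∑ l, W i * W j * W l := by
    rw [show (∑ i, W i) ^ 3 = (∑ i, W i) * (∑ j, W j) * (∑ l, W l) by ring]
    simp only [Finset.sum_mul, Finset.mul_sum]
    rw [Finset.sum_comm]
    refine Eq.trans (Finset.sum_congr rfl fun j _ => ?_) Finset.sum_comm
    rw [Finset.sum_comm]
  have key : ∑ i, ∑ j, ∑ l, W i * W j * W l * dd d c (ang m l j) (ang m i j)
      + ∑ i, ∑ j, ∑ l, W i * W j * W l * (P i j * P l j) + (∑ i, W i) ^ 3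
      ≤ η * (∑ i, W i) ^ 3 := by
    rw [hcube, Finset.mul_sum]
    simp only [Finset.mul_sum, ← Finset.sum_add_distrib]
    refine Finset.sum_le_sum fun i _ => Finset.sum_le_sum fun j _ => Finset.sum_le_sum fun l _ => ?_
    calc _ = W i * W j * W l * (dd d c (ang m l j) (ang m i j) + P i j * P l j + 1) := by ring
      _ ≤ W i * W j * W l * η :=
          mul_le_mul_of_nonneg_left (hker i j l) (mul_nonneg (mul_nonneg (hW i) (hW j)) (hW l))
      _ = _ := by ring
  have hpi : 0 ≤ π ^ 2 / 4 := by positivity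
  have := mul_le_mul_of_nonneg_left key hpi
  rw [hsq] at hsum
  nlinarith [hsum, this]

/-- The bound on the calibration at a diagonal matrix. -/
theorem abs_Sval_diag_le (d : ℕ) (c : ℕ → ℝ) (B : ℝ) (m : Fin N → ℝ) (w : Fin N → ℂ)
    (hB : ∀ i j, |pol d c (ang m i j)| ≤ B) :
    |Sval d c (diagonal fun i => (m i : ℂ)) w| ≤ π / 4 * B * (∑ i, Complex.normSq (w i)) ^ 2 := by
  rw [Sval_diag, abs_mul, abs_of_pos (by positivity : (0 : ℝ) < π / 4), mul_assoc]
  refine mul_le_mul_of_nonneg_left ?_ (by positivity)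
  refine (Finset.abs_sum_le_sum_abs _ _).trans ?_
  rw [sq, Finset.sum_mul_sum, Finset.mul_sum]
  refine Finset.sum_le_sum fun i _ => (Finset.abs_sum_le_sum_abs _ _).trans ?_
  rw [Finset.mul_sum]
  refine Finset.sum_le_sum fun j _ => ?_
  have h0 : 0 ≤ Complex.normSq (w i) * Complex.normSq (w j) :=
    mul_nonneg (Complex.normSq_nonneg _) (Complex.normSq_nonneg _)
  rw [abs_mul, abs_of_nonneg h0, mul_comm B]
  exact mul_le_mul_of_nonneg_left (hB i j) h0

end Vale.Agent.P371
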