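import Mathlib

/-!
P371: the cubic inequality behind the calibration for matrix potentials.
-/

namespace Vale.Agent.P371.Cubic

open Matrix Finset Filter
open scoped ComplexOrder Topology ComplexConjugate

variable {ι : Type*} [Fintype ι]

/-- A real kernel that is positive semidefinite as a complex matrix. -/
def PK (K : ι → ι → ℝ) : Prop := (Matrix.of fun i j => (K i j : ℂ)).PosSemidef

lemma PK.congr {K L : ι → ι → ℝ} (h : PK K) (e : ∀ i j, K i j = L i j) : PK L := by
  rwa [show L = K from funext fun i => funext fun j => (e i j).symm]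

lemma pk_rankOne (f : ι → ℝ) : PK fun i j => f i * f j := by
  have h := posSemidef_vecMulVec_self_star (fun i => (f i : ℂ))
  rw [PK]
  convert h using 1
  ext i j; simp [vecMulVec_apply]

lemma PK.add {K L : ι → ι → ℝ} (hK : PK K) (hL : PK L) : PK fun i j => K i j + L i j := by
  have h := Matrix.PosSemidef.add hK hL
  rw [PK]
  convert h using 1
  ext i j; simp

lemma PK.mul {K L : ι → ι → ℝ} (hK : PK K) (hL : PK L) : PK fun i j => K i j * L i j := by
  have h := Matrix.PosSemidef.hadamard hK hL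
  rw [PK, show (Matrix.of fun i j => ((K i j * L i j : ℝ) : ℂ)) =
    (Matrix.of fun i j => (K i j : ℂ)) ⊙ (Matrix.of fun i j => (L i j : ℂ)) from by ext i j; simp]
  exact h

lemma pk_const {c : ℝ} (hc : 0 ≤ c) : PK (ι := ι) fun _ _ => c :=
  (pk_rankOne fun _ => Real.sqrt c).congr fun _ _ => Real.mul_self_sqrt hc

lemma pk_cos (c : ℝ) (u : ι → ℝ) : PK fun i j => Real.cos (c * (u i - u j)) :=
  ((pk_rankOne fun i => Real.cos (c * u i)).add (pk_rankOne fun i => Real.sin (c * u i))).congr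
    fun i j => by rw [mul_sub, Real.cos_sub]

lemma PK.tendsto {K : ℕ → ι → ι → ℝ} {L : ι → ι → ℝ} (h : ∀ n, PK (K n))
    (hlim : ∀ i j, Tendsto (fun n => K n i j) atTop (𝓝 (L i j))) : PK L := by
  have hsym : ∀ n i j, K n i j = K n j i := fun n i j => by
    have := (h n).isHermitian.apply i j
    simpa [eq_comm] using this
  refine PosSemidef.of_dotProduct_mulVec_nonneg ?_ fun x => ?_
  · ext i j
    have e : L j i = L i j := tendsto_nhds_unique
      ((hlim j i).congr fun n => hsym n j i) (hlim i j)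
    simp [e]
  · refine ge_of_tendsto (x := atTop)
      (f := fun n => star x ⬝ᵥ (Matrix.of fun i j => (K n i j : ℂ)) *ᵥ x) ?_
      (Eventually.of_forall fun n => (h n).dotProduct_mulVec_nonneg x)
    simp only [dotProduct, mulVec, of_apply]
    exact tendsto_finsetSum _ fun i _ => (tendsto_finsetSum _ fun j _ =>
      ((Complex.continuous_ofReal.tendsto _).comp (hlim i j)).mul_const _).const_mul _

lemma pk_prod {s : Finset ℕ} {K : ℕ → ι → ι → ℝ} (h : ∀ n ∈ s, PK (K n)) :
    PK fun i j => ∏ n ∈ s, K n i j := by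
  classical
  induction s using Finset.induction_on with
  | empty => exact (pk_const zero_le_one).congr fun i j => by simp
  | @insert a s ha ih =>
    exact ((h a (mem_insert_self a s)).mul (ih fun n hn => h n (mem_insert_of_mem hn))).congr
      fun i j => (prod_insert (f := fun n => K n i j) ha).symm

/-- The Cauchy kernel. -/
lemma pk_cauchy (r : ι → ℝ) (hr : ∀ i, 0 < r i) : PK fun i j => 1 / (r i + r j) := by
  set a : ι → ℝ := fun i => (r i - 1) / (r i + 1) with ha
  have habs : ∀ i, |a i| < 1 := fun i => by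
    have := hr i
    simp only [ha]
    rw [abs_div, abs_of_pos (by linarith : (0 : ℝ) < r i + 1), div_lt_one (by linarith), abs_lt]
    constructor <;> linarith
  set g : ι → ℝ := fun i => Real.sqrt 2 / (r i + 1) with hg
  refine PK.tendsto (K := fun N i j => g i * g j * ∑ n ∈ range N, (a i * a j) ^ n)
    (fun N => ?_) fun i j => ?_
  · induction N with
    | zero => exact (pk_const (le_refl (0 : ℝ))).congr fun i j => by simp
    | succ N ih =>
      exact (ih.add ((pk_rankOne fun i => g i * a i ^ N))).congr fun i j => by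
        rw [sum_range_succ, mul_pow]; ring
  · have hab : |a i * a j| < 1 := by
      rw [abs_mul]; exact mul_lt_one_of_nonneg_of_lt_one_left (abs_nonneg _) (habs i) (habs j).le
    have := ((hasSum_geometric_of_abs_lt_one hab).tendsto_sum_nat).const_mul (g i * g j)
    convert this using 2
    have hi := hr i
    have hj := hr j
    have h2 : Real.sqrt 2 * Real.sqrt 2 = 2 := Real.mul_self_sqrt (by norm_num)
    have e : 1 - a i * a j = 2 * (r i + r j) / ((r i + 1) * (r j + 1)) := by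
      simp only [ha]; field_simp; ring
    rw [e]
    simp only [hg]
    field_simp
    linear_combination -h2

/-- `sin (κ z) / sin z` is a positive kernel in `z = u i + u j`. -/
lemma pk_sinRatio {κ : ℝ} (h0 : 0 < κ) (h1 : κ ≤ 1) (u : ι → ℝ)
    (hu : ∀ i, u i ∈ Set.Ioo (0 : ℝ) (Real.pi / 2)) :
    PK fun i j => Real.sin (κ * (u i + u j)) / Real.sin (u i + u j) := by
  set c : ℕ → ℝ := fun n => Real.pi * ((n : ℝ) + 1) with hc
  have hcpi : ∀ n, Real.pi ≤ c n := fun n => le_mul_of_one_le_right Real.pi_pos.le (by simp)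
  set F : ℕ → ι → ι → ℝ := fun n i j => κ ^ 2 + (1 - κ ^ 2) / 2 * c n *
    (1 / ((c n / 2 - u i) + (c n / 2 - u j)) + 1 / ((c n / 2 + u i) + (c n / 2 + u j))) with hF
  have hFk : ∀ n, PK (F n) := fun n => by
    have hk : 0 ≤ (1 - κ ^ 2) / 2 * c n :=
      mul_nonneg (div_nonneg (by nlinarith) zero_le_two) (Real.pi_pos.le.trans (hcpi n))
    exact (pk_const (sq_nonneg κ)).add ((pk_const hk).mul
      ((pk_cauchy (fun i => c n / 2 - u i) fun i => by linarith [(hu i).2, hcpi n]).add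
       (pk_cauchy (fun i => c n / 2 + u i) fun i => by linarith [(hu i).1, hcpi n, Real.pi_pos])))
  refine PK.tendsto (K := fun N i j => κ * ∏ n ∈ range N, F n i j)
    (fun N => (pk_const h0.le).mul (pk_prod fun n _ => hFk n)) fun i j => ?_
  have hpi := Real.pi_pos
  set z := u i + u j with hz
  have hz0 : 0 < z := add_pos (hu i).1 (hu j).1
  have hzpi : z < Real.pi := by linarith [(hu i).2, (hu j).2]
  have hs : Real.sin (Real.pi * (z / Real.pi)) ≠ 0 := by
    rw [mul_div_cancel₀ _ hpi.ne']; exact (Real.sin_pos_of_pos_of_lt_pi hz0 hzpi).ne'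
  have h := (Real.tendsto_euler_sin_prod (κ * z / Real.pi)).div
    (Real.tendsto_euler_sin_prod (z / Real.pi)) hs
  rw [mul_div_cancel₀ _ hpi.ne', mul_div_cancel₀ _ hpi.ne'] at h
  refine h.congr fun N => ?_
  simp only [Pi.div_apply]
  rw [mul_div_mul_comm, ← prod_div_distrib]
  congr 1
  · field_simp
  · refine prod_congr rfl fun n _ => ?_
    have hn : (0 : ℝ) < (n : ℝ) + 1 := by positivity
    have hcn := hcpi n
    have e1 : (c n / 2 - u i) + (c n / 2 - u j) = c n - z := by rw [hz]; ring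
    have e2 : (c n / 2 + u i) + (c n / 2 + u j) = c n + z := by rw [hz]; ring
    simp only [hF]
    rw [e1, e2]
    have q1 : c n - z ≠ 0 := by intro; linarith
    have q2 : c n + z ≠ 0 := by intro; linarith
    have q3 : ∀ y : ℝ, (y / Real.pi) ^ 2 / ((n : ℝ) + 1) ^ 2 = y ^ 2 / c n ^ 2 := fun y => by
      simp only [hc]; field_simp
    rw [q3, q3]
    have q0 : c n ≠ 0 := by intro; linarith
    have q4 : 1 - z ^ 2 / c n ^ 2 = (c n - z) * (c n + z) / c n ^ 2 := by field_simp; ring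
    rw [q4]
    field_simp
    ring

/-- `sin (p + κ z) / sin z`, nonnegative on `[0, π]`, is a positive kernel in `z = u i + u j`. -/
lemma pk_sinShift {p κ : ℝ} (h0 : 0 < κ) (h1 : κ < 1) (hp : 0 ≤ p)
    (hp1 : p + κ * Real.pi ≤ Real.pi) (u : ι → ℝ)
    (hu : ∀ i, u i ∈ Set.Ioo (0 : ℝ) (Real.pi / 2)) :
    PK fun i j => Real.sin (p + κ * (u i + u j)) / Real.sin (u i + u j) := by
  have hpi := Real.pi_pos
  have hkp : 0 < κ * Real.pi := mul_pos h0 hpi
  have hs : 0 < Real.sin (κ * Real.pi) := Real.sin_pos_of_pos_of_lt_pi hkp (by nlinarith)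
  have hA : 0 ≤ Real.sin (p + κ * Real.pi) / Real.sin (κ * Real.pi) :=
    div_nonneg (Real.sin_nonneg_of_nonneg_of_le_pi (by linarith) hp1) hs.le
  have hB : 0 ≤ Real.sin p / Real.sin (κ * Real.pi) :=
    div_nonneg (Real.sin_nonneg_of_nonneg_of_le_pi hp (by linarith)) hs.le
  have hu' : ∀ i, Real.pi / 2 - u i ∈ Set.Ioo (0 : ℝ) (Real.pi / 2) := fun i =>
    ⟨by linarith [(hu i).2], by linarith [(hu i).1]⟩
  refine (((pk_const hA).mul (pk_sinRatio h0 h1.le u hu)).add
    ((pk_const hB).mul (pk_sinRatio h0 h1.le _ hu'))).congr fun i j => ?_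
  have hz : Real.sin (u i + u j) ≠ 0 := (Real.sin_pos_of_pos_of_lt_pi (add_pos (hu i).1 (hu j).1)
    (by linarith [(hu i).2, (hu j).2])).ne'
  set z := u i + u j with hzdef
  have e : Real.pi / 2 - u i + (Real.pi / 2 - u j) = Real.pi - z := by rw [hzdef]; ring
  rw [e, Real.sin_pi_sub]
  clear_value z
  have e2 : Real.sin (κ * (Real.pi - z))
      = Real.sin (κ * Real.pi) * Real.cos (κ * z) - Real.cos (κ * Real.pi) * Real.sin (κ * z) := by
    rw [mul_sub, Real.sin_sub]
  rw [e2, Real.sin_add, Real.sin_add]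
  field_simp
  ring

/-- The angular weight `cos (t (a - b)) sin (a + b)`. -/
noncomputable def kt (t a b : ℝ) : ℝ := Real.cos (t * (a - b)) * Real.sin (a + b)

lemma kt_symm (t a b : ℝ) : kt t a b = kt t b a := by
  unfold kt
  rw [show t * (a - b) = -(t * (b - a)) by ring, Real.cos_neg, add_comm]

lemma kt_add (t a u v : ℝ) :
    kt t a u + kt t a v =
      Real.sin ((1 + t) * a + (1 - t) / 2 * (u + v)) * Real.cos ((1 - t) / 2 * (u - v))
      + Real.sin ((1 - t) * a + (1 + t) / 2 * (u + v)) * Real.cos ((1 + t) / 2 * (u - v)) := by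
  have h : ∀ x y : ℝ, Real.sin x * Real.cos y = (Real.sin (x - y) + Real.sin (x + y)) / 2 :=
    fun x y => by rw [Real.sin_sub, Real.sin_add]; ring
  unfold kt
  rw [mul_comm (Real.cos _), mul_comm (Real.cos _), h, h, h, h]
  ring_nf

lemma pk_slice {t a : ℝ} (ht0 : 0 ≤ t) (ht1 : t < 1) (ha : a ∈ Set.Ioo (0 : ℝ) (Real.pi / 2))
    (u : ι → ℝ) (hu : ∀ i, u i ∈ Set.Ioo (0 : ℝ) (Real.pi / 2)) :
    PK fun i j => (kt t a (u i) + kt t a (u j)) / Real.sin (u i + u j) := by
  have h1 := (pk_sinShift (p := (1 + t) * a) (κ := (1 - t) / 2) (by linarith) (by linarith)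
    (mul_nonneg (by linarith) ha.1.le) (by nlinarith [ha.2]) u hu).mul (pk_cos ((1 - t) / 2) u)
  have h2 := (pk_sinShift (p := (1 - t) * a) (κ := (1 + t) / 2) (by linarith) (by linarith)
    (mul_nonneg (by linarith) ha.1.le) (by nlinarith [ha.2]) u hu).mul (pk_cos ((1 + t) / 2) u)
  exact (h1.add h2).congr fun i j => by rw [kt_add]; ring

/-- The inequality at a fixed frequency `t`. -/
lemma fixed_freq {t : ℝ} (ht0 : 0 ≤ t) (ht1 : t < 1) (θ : ι → ℝ)
    (hθ : ∀ i, θ i ∈ Set.Ioo (0 : ℝ) (Real.pi / 2)) (Q : Matrix ι ι ℂ) (hQ : Q.PosSemidef) :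
    let Y : ι → ι → ℂ := fun i j => Q i j / (Real.sin (θ i + θ j) : ℂ)
    0 ≤ ∑ a, ∑ c, ∑ b,
      Y a c * Y c b * Y b a * (((θ a - θ b) ^ 2 * kt t (θ a) (θ b) : ℝ) : ℂ) := by
  intro Y
  have hY : ∀ i j, Y i j = conj (Y j i) := fun i j => by
    show Q i j / _ = conj (Q j i / _)
    rw [map_div₀, Complex.conj_ofReal, add_comm (θ j), ← hQ.isHermitian.apply i j]
    rfl
  set R : ι → Matrix ι ι ℂ := fun a =>
    (Matrix.of fun c b => (((kt t (θ a) (θ c) + kt t (θ a) (θ b)) / Real.sin (θ c + θ b) : ℝ) : ℂ))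
      ⊙ Q with hR
  set v : ι → ι → ℂ := fun a c => ((θ a - θ c : ℝ) : ℂ) * Y a c with hv
  have hnn : ∀ a, 0 ≤ ∑ c, ∑ b, v a c * R a c b * conj (v a b) := fun a => by
    have h : (R a).PosSemidef := Matrix.PosSemidef.hadamard (pk_slice ht0 ht1 (hθ a) θ hθ) hQ
    have := h.dotProduct_mulVec_nonneg fun c => conj (v a c)
    simpa [dotProduct, mulVec, mul_sum, mul_assoc] using this
  refine le_of_le_of_eq (sum_nonneg (s := Finset.univ) fun a _ => hnn a) ?_
  set T : ι → ι → ι → ℂ := fun a c b => Y a c * Y c b * Y b a with hT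
  have hsplit : ∀ a c b, v a c * R a c b * conj (v a b)
      = T a c b * (((θ a - θ c) * (θ a - θ b) * kt t (θ a) (θ b) : ℝ) : ℂ)
        + T a c b * (((θ a - θ c) * (θ a - θ b) * kt t (θ a) (θ c) : ℝ) : ℂ) := fun a c b => by
    have hc : Y a b = conj (Y b a) := hY a b
    simp only [hv, hR, hT, Matrix.hadamard_apply, of_apply, map_mul, Complex.conj_ofReal]
    rw [hc, Complex.conj_conj]
    simp only [Y]
    push_cast
    ring
  simp only [hsplit, sum_add_distrib]
  have hswap : ∑ a, ∑ c, ∑ b,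
      T a c b * (((θ a - θ c) * (θ a - θ b) * kt t (θ a) (θ c) : ℝ) : ℂ)
      = ∑ a, ∑ c, ∑ b, T a c b * (((θ a - θ b) * (θ c - θ b) * kt t (θ a) (θ b) : ℝ) : ℂ) := by
    conv_rhs => arg 2; ext c; rw [sum_comm]
    conv_rhs => rw [sum_comm]
    refine sum_congr rfl fun a _ => sum_congr rfl fun c _ => sum_congr rfl fun b _ => ?_
    rw [kt_symm t (θ c) (θ a)]
    simp only [hT]
    push_cast
    ring
  rw [hswap, ← sum_add_distrib]
  refine sum_congr rfl fun a _ => ?_
  rw [← sum_add_distrib]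
  refine sum_congr rfl fun c _ => ?_
  rw [← sum_add_distrib]
  refine sum_congr rfl fun b _ => ?_
  simp only [hT]
  push_cast
  ring

lemma sinc_sub_cos_eq (x : ℝ) :
    Real.sinc x - Real.cos x = ∫ t in (0 : ℝ)..1, (1 - t ^ 2) / 2 * (x ^ 2 * Real.cos (t * x)) := by
  rcases eq_or_ne x 0 with rfl | hx
  · simp
  have hd : ∀ t : ℝ, HasDerivAt
      (fun t => (1 - t ^ 2) / 2 * x * Real.sin (t * x) - t * Real.cos (t * x) + Real.sin (t * x) / x)
      ((1 - t ^ 2) / 2 * (x ^ 2 * Real.cos (t * x))) t := fun t => by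
    have hm : HasDerivAt (fun s : ℝ => s * x) x t := by simpa using (hasDerivAt_id t).mul_const x
    have h := ((((((hasDerivAt_pow 2 t).const_sub 1).div_const 2).mul_const x).mul hm.sin).sub
      ((hasDerivAt_id t).mul hm.cos)).add (hm.sin.div_const x)
    refine h.congr_deriv ?_
    simp only [id]
    field_simp
    push_cast
    ring
  rw [intervalIntegral.integral_eq_sub_of_hasDerivAt (fun t _ => hd t)
    (by apply Continuous.intervalIntegrable; fun_prop), Real.sinc_of_ne_zero hx]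
  simp
  ring

/-- The cubic inequality: for positive semidefinite `Q` and angles in `(0, π/2)`. -/
theorem cubic_nonneg (θ : ι → ℝ) (hθ : ∀ i, θ i ∈ Set.Ioo (0 : ℝ) (Real.pi / 2))
    (Q : Matrix ι ι ℂ) (hQ : Q.PosSemidef) :
    0 ≤ (∑ i, ∑ j, ∑ k, Q i j * Q j k * Q k i *
      (((Real.sinc (θ i - θ k) - Real.cos (θ i - θ k)) /
        (Real.sin (θ i + θ j) * Real.sin (θ j + θ k)) : ℝ) : ℂ)).re := by
  set w : ι → ι → ι → ℂ := fun i j k =>
    Q i j * Q j k * Q k i / ((Real.sin (θ i + θ j) * Real.sin (θ j + θ k) : ℝ) : ℂ) with hw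
  have hterm : ∀ i j k, (Q i j * Q j k * Q k i *
      (((Real.sinc (θ i - θ k) - Real.cos (θ i - θ k)) /
        (Real.sin (θ i + θ j) * Real.sin (θ j + θ k)) : ℝ) : ℂ)).re
      = ∫ t in (0 : ℝ)..1,
          (w i j k).re * ((1 - t ^ 2) / 2 * ((θ i - θ k) ^ 2 * Real.cos (t * (θ i - θ k)))) := by
    intro i j k
    rw [intervalIntegral.integral_const_mul, ← sinc_sub_cos_eq, Complex.re_mul_ofReal, hw]
    simp only [Complex.div_ofReal_re]
    ring
  simp only [Complex.re_sum, hterm]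
  have hc : ∀ i j k, Continuous fun t : ℝ =>
      (w i j k).re * ((1 - t ^ 2) / 2 * ((θ i - θ k) ^ 2 * Real.cos (t * (θ i - θ k)))) :=
    fun i j k => by fun_prop
  rw [← (show ∫ t in (0 : ℝ)..1, ∑ i, ∑ j, ∑ k,
      (w i j k).re * ((1 - t ^ 2) / 2 * ((θ i - θ k) ^ 2 * Real.cos (t * (θ i - θ k))))
      = ∑ i, ∑ j, ∑ k, ∫ t in (0 : ℝ)..1,
      (w i j k).re * ((1 - t ^ 2) / 2 * ((θ i - θ k) ^ 2 * Real.cos (t * (θ i - θ k)))) from by
    rw [intervalIntegral.integral_finsetSum fun i _ => (continuous_finsetSum _ fun j _ =>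
      continuous_finsetSum _ fun k _ => hc i j k).intervalIntegrable _ _]
    refine sum_congr rfl fun i _ => ?_
    rw [intervalIntegral.integral_finsetSum fun j _ => (continuous_finsetSum _ fun k _ =>
      hc i j k).intervalIntegrable _ _]
    refine sum_congr rfl fun j _ => ?_
    rw [intervalIntegral.integral_finsetSum fun k _ => (hc i j k).intervalIntegrable _ _])]
  refine intervalIntegral.integral_nonneg zero_le_one fun t ht => ?_
  rcases lt_or_eq_of_le ht.2 with ht1 | ht1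
  swap
  · simp [ht1]
  have h := (Complex.le_def.1 (fixed_freq ht.1 ht1 θ hθ Q hQ)).1
  have hp : 0 ≤ (1 - t ^ 2) / 2 := by nlinarith [ht.1]
  refine le_of_le_of_eq (mul_nonneg hp h) ?_
  rw [Complex.re_sum, mul_sum]
  refine sum_congr rfl fun i _ => ?_
  rw [Complex.re_sum, mul_sum]
  refine sum_congr rfl fun j _ => ?_
  rw [Complex.re_sum, mul_sum]
  refine sum_congr rfl fun k _ => ?_
  have hne : ∀ p q, (Real.sin (θ p + θ q) : ℂ) ≠ 0 := fun p q =>
    Complex.ofReal_ne_zero.mpr (Real.sin_pos_of_pos_of_lt_pi (add_pos (hθ p).1 (hθ q).1)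
      (by linarith [(hθ p).2, (hθ q).2])).ne'
  have e : Q i j / (Real.sin (θ i + θ j) : ℂ) * (Q j k / (Real.sin (θ j + θ k) : ℂ)) *
      (Q k i / (Real.sin (θ k + θ i) : ℂ)) * (((θ i - θ k) ^ 2 * kt t (θ i) (θ k) : ℝ) : ℂ)
      = w i j k * (((θ i - θ k) ^ 2 * Real.cos (t * (θ i - θ k)) : ℝ) : ℂ) := by
    simp only [hw, kt]
    rw [add_comm (θ k) (θ i)]
    have := hne i k
    push_cast at this ⊢
    field_simp
  rw [e, Complex.re_mul_ofReal]
  ring

end Vale.Agent.P371.Cubic

namespace Vale.Agent.P371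

open scoped ComplexOrder

/-- The cubic inequality, in the namespace used by the calibration. -/
theorem cubic_nonneg {ι : Type*} [Fintype ι] (θ : ι → ℝ)
    (hθ : ∀ i, θ i ∈ Set.Ioo (0 : ℝ) (Real.pi / 2)) (Q : Matrix ι ι ℂ) (hQ : Q.PosSemidef) :
    0 ≤ (∑ i, ∑ j, ∑ k, Q i j * Q j k * Q k i *
      (((Real.sinc (θ i - θ k) - Real.cos (θ i - θ k)) /
        (Real.sin (θ i + θ j) * Real.sin (θ j + θ k)) : ℝ) : ℂ)).re :=
  Cubic.cubic_nonneg θ hθ Q hQ

end Vale.Agent.P371
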