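import Mathlib

/-!
P371: negative eigenvalues of `-d²/dx² - W` and the one-dimensional Lieb-Thirring ratio.
-/

namespace Vale.Agent.P371

open MeasureTheory
open scoped ComplexConjugate

/-- A continuously differentiable square-integrable function with square-integrable derivative
`f'`. -/
def IsH1 (f f' : ℝ → ℂ) : Prop :=
  (∀ x, HasDerivAt f (f' x) x) ∧ Continuous f' ∧ MemLp f 2 volume ∧ MemLp f' 2 volume

/-- A scalar potential for the exponent `γ = 1`. -/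
def IsPotential (W : ℝ → ℝ) : Prop :=
  Measurable W ∧ (∀ x, 0 ≤ W x) ∧ Integrable (fun x => W x ^ (3 / 2 : ℝ)) volume

/-- `f` solves `-f'' - W f = lam f` in the sense of the quadratic form. -/
def IsEigenfunction (W : ℝ → ℝ) (lam : ℝ) (f : ℝ → ℂ) : Prop :=
  ∃ f' : ℝ → ℂ, IsH1 f f' ∧ ∀ g g' : ℝ → ℂ, IsH1 g g' →
    (∫ x, conj (g' x) * f' x) - (∫ x, (W x : ℂ) * (conj (g x) * f x))
      = (lam : ℂ) * ∫ x, conj (g x) * f x

/-- Sums `∑ |λ_j|` over `N` orthonormal eigenfunctions with negative eigenvalues. -/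
def negEigenSums (W : ℝ → ℝ) (N : ℕ) : Set ℝ :=
  {r | ∃ (lam : Fin N → ℝ) (f : Fin N → ℝ → ℂ),
    (∀ i, lam i < 0 ∧ IsEigenfunction W (lam i) (f i)) ∧
    (∀ i j, ∫ x, conj (f i x) * f j x = if i = j then 1 else 0) ∧
    r = ∑ i, |lam i|}

/-- Lieb-Thirring ratios at `γ = 1`, using any finite number of eigenvalues. -/
def ltRatios : Set ℝ :=
  {r | ∃ W, IsPotential W ∧ 0 < (∫ x, W x ^ (3 / 2 : ℝ)) ∧ ∃ N, ∃ s ∈ negEigenSums W N,
    r = s / ∫ x, W x ^ (3 / 2 : ℝ)}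

/-- Lieb-Thirring ratios at `γ = 1`, using a single eigenvalue. -/
def oneStateRatios : Set ℝ :=
  {r | ∃ W, IsPotential W ∧ 0 < (∫ x, W x ^ (3 / 2 : ℝ)) ∧ ∃ s ∈ negEigenSums W 1,
    r = s / ∫ x, W x ^ (3 / 2 : ℝ)}

/-- The sharp constant `4/(3√3π)`. -/
noncomputable def ltConst : ℝ := 4 / (3 * Real.sqrt 3 * Real.pi)

end Vale.Agent.P371
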