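import Vale.Agent.P371.Defs

/-!
P371: from the kinetic inequality to the bound on sums of negative eigenvalues.
-/

namespace Vale.Agent.P371

open MeasureTheory
open scoped ComplexConjugate

/-- The kinetic inequality for orthonormal families. -/
def KineticBound : Prop :=
  ∀ (N : ℕ) (u v : ℝ → Fin N → ℂ),
    (∀ x i, HasDerivAt (fun y => u y i) (v x i) x) → (∀ i, Continuous fun x => v x i) →
    (∀ i, MemLp (fun x => u x i) 2 volume) → (∀ i, MemLp (fun x => v x i) 2 volume) →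
    (∀ i j, (∫ x, conj (u x i) * u x j) = if i = j then 1 else 0) →
    Integrable (fun x => (∑ i, Complex.normSq (u x i)) ^ 3) volume ∧
      Real.pi ^ 2 / 4 * (∫ x, (∑ i, Complex.normSq (u x i)) ^ 3)
        ≤ ∑ i, ∫ x, Complex.normSq (v x i)

lemma young {w r : ℝ} (hw : 0 ≤ w) (hr : 0 ≤ r) :
    w * r ≤ Real.pi ^ 2 / 4 * r ^ 3 + ltConst * w ^ (3 / 2 : ℝ) := by
  have h3 : Real.sqrt 3 * Real.sqrt 3 = 3 := Real.mul_self_sqrt (by norm_num)
  have hs : 0 < Real.sqrt 3 := Real.sqrt_pos.mpr (by norm_num)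
  obtain ⟨t, ht, rfl⟩ : ∃ t : ℝ, 0 ≤ t ∧ w = t ^ 2 :=
    ⟨Real.sqrt w, Real.sqrt_nonneg w, (Real.sq_sqrt hw).symm⟩
  have hpow : (t ^ 2) ^ (3 / 2 : ℝ) = t ^ 3 := by
    rw [← Real.rpow_natCast t 2, ← Real.rpow_mul ht, ← Real.rpow_natCast t 3]
    norm_num
  rw [hpow]
  obtain ⟨y, hy, rfl⟩ : ∃ y : ℝ, 0 ≤ y ∧ r = 2 / (Real.sqrt 3 * Real.pi) * y :=
    ⟨r * (Real.sqrt 3 * Real.pi) / 2, by positivity, by field_simp⟩
  have key : 0 ≤ (y - t) ^ 2 * (y + 2 * t) := by positivity
  have hp := Real.pi_pos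
  have e : Real.pi ^ 2 / 4 * (2 / (Real.sqrt 3 * Real.pi) * y) ^ 3 + ltConst * t ^ 3
      - t ^ 2 * (2 / (Real.sqrt 3 * Real.pi) * y)
      = 2 * ((y - t) ^ 2 * (y + 2 * t)) / (3 * Real.sqrt 3 * Real.pi) := by
    unfold ltConst
    field_simp
    linear_combination (-8 * y ^ 3) * h3
  have : 0 ≤ 2 * ((y - t) ^ 2 * (y + 2 * t)) / (3 * Real.sqrt 3 * Real.pi) := by positivity
  linarith

lemma integrable_normSq {f : ℝ → ℂ} (hf : MemLp f 2 volume) :
    Integrable (fun x => Complex.normSq (f x)) volume := by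
  have := hf.integrable_norm_pow (by norm_num : (2 : ℕ) ≠ 0)
  simpa [Complex.normSq_eq_norm_sq] using this

/-- The variational bound on a finite orthonormal family. -/
theorem variational_bound (hK : KineticBound) {W : ℝ → ℝ} (hW : IsPotential W) {N : ℕ}
    (f f' : Fin N → ℝ → ℂ) (hf : ∀ i, IsH1 (f i) (f' i))
    (horth : ∀ i j, ∫ x, conj (f i x) * f j x = if i = j then 1 else 0) :
    (∀ i, Integrable (fun x => W x * Complex.normSq (f i x)) volume) ∧
    ∑ i, ((∫ x, W x * Complex.normSq (f i x)) - ∫ x, Complex.normSq (f' i x))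
      ≤ ltConst * ∫ x, W x ^ (3 / 2 : ℝ) := by
  obtain ⟨hWm, hW0, hWi⟩ := hW
  obtain ⟨hint, hkin⟩ := hK N (fun x i => f i x) (fun x i => f' i x)
    (fun x i => (hf i).1 x) (fun i => (hf i).2.1) (fun i => (hf i).2.2.1)
    (fun i => (hf i).2.2.2) horth
  set ρ : ℝ → ℝ := fun x => ∑ i, Complex.normSq (f i x) with hρ
  have hρ0 : ∀ x, 0 ≤ ρ x := fun x => Finset.sum_nonneg fun i _ => Complex.normSq_nonneg _
  have hdom : Integrable (fun x => Real.pi ^ 2 / 4 * ρ x ^ 3 + ltConst * W x ^ (3 / 2 : ℝ))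
      volume := (hint.const_mul _).add (hWi.const_mul _)
  have hWint : ∀ i, Integrable (fun x => W x * Complex.normSq (f i x)) volume := by
    intro i
    refine hdom.mono' (hWm.aestronglyMeasurable.mul ?_) (Filter.Eventually.of_forall fun x => ?_)
    · exact (Complex.continuous_normSq.comp_aestronglyMeasurable (hf i).2.2.1.1)
    · rw [Real.norm_of_nonneg (mul_nonneg (hW0 x) (Complex.normSq_nonneg _))]
      exact (mul_le_mul_of_nonneg_left (Finset.single_le_sum
        (f := fun j => Complex.normSq (f j x)) (fun j _ => Complex.normSq_nonneg _)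
        (Finset.mem_univ i)) (hW0 x)).trans (young (hW0 x) (hρ0 x))
  refine ⟨hWint, ?_⟩
  have h1 : ∑ i, (∫ x, W x * Complex.normSq (f i x))
      ≤ Real.pi ^ 2 / 4 * (∫ x, ρ x ^ 3) + ltConst * ∫ x, W x ^ (3 / 2 : ℝ) := by
    rw [← integral_const_mul, ← integral_const_mul, ← integral_add (hint.const_mul _)
      (hWi.const_mul _), ← integral_finsetSum _ fun i _ => hWint i]
    refine integral_mono (integrable_finsetSum _ fun i _ => hWint i) hdom fun x => ?_
    simp only [← Finset.mul_sum]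
    exact young (hW0 x) (hρ0 x)
  rw [Finset.sum_sub_distrib]
  linarith

/-- The bound on every sum of negative eigenvalues. -/
theorem negEigenSums_le (hK : KineticBound) {W : ℝ → ℝ} (hW : IsPotential W) {N : ℕ} {r : ℝ}
    (hr : r ∈ negEigenSums W N) : r ≤ ltConst * ∫ x, W x ^ (3 / 2 : ℝ) := by
  obtain ⟨lam, f, hlf, horth, rfl⟩ := hr
  choose f' hH1 hweak using fun i => (hlf i).2
  obtain ⟨hint, hb⟩ := variational_bound hK hW f f' hH1 horth
  refine le_trans (le_of_eq ?_) hb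
  refine Finset.sum_congr rfl fun i _ => ?_
  have h := hweak i (f i) (f' i) (hH1 i)
  have e1 : ∀ z : ℂ, conj z * z = (Complex.normSq z : ℂ) := fun z =>
    (Complex.normSq_eq_conj_mul_self).symm
  have hn : ∫ x, conj (f i x) * f i x = 1 := by simpa using horth i i
  rw [hn, mul_one] at h
  simp only [e1, ← Complex.ofReal_mul] at h
  rw [integral_complex_ofReal, integral_complex_ofReal, ← Complex.ofReal_sub,
    Complex.ofReal_inj] at h
  rw [abs_of_neg (hlf i).1]
  linarith

end Vale.Agent.P371
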