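import Vale.Agent.P371.GLemma1

/-!
# P371, general exponent: integrated form of Lemma 1

The layer integral, and the commutator hypothesis from optimality under rotations fixing `F`.
-/

namespace Vale.Agent.P371.General

open Matrix Finset MeasureTheory Filter Set Real
open scoped ComplexOrder Topology

variable {ι : Type*} [Fintype ι] [DecidableEq ι]

set_option linter.unusedSectionVars false

/-- The scalar layer constant. -/
noncomputable def lcoef (ν : ℝ) : ℝ :=
  ∫ t in Ioi (0 : ℝ), t ^ (ν - 1 / 2) * (1 / Real.sqrt t - 1 / Real.sqrt (1 + t))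

/-- The layered form of `Q` (without normalisation). -/
noncomputable def gQ (ν : ℝ) (W F : Matrix ι ι ℂ) (u : ι → ℂ) : ℝ :=
  ∫ l in Ioi (0 : ℝ), l ^ (ν - 1 / 2) * (π * nsq u / Real.sqrt l - gres W F l u)

lemma inv_sqrt_gap_nonneg {x t : ℝ} (hx : 0 ≤ x) (ht : 0 < t) :
    0 ≤ 1 / Real.sqrt t - 1 / Real.sqrt (x + t) :=
  sub_nonneg.2 (one_div_le_one_div_of_le (Real.sqrt_pos.2 ht) (Real.sqrt_le_sqrt (by linarith)))

lemma inv_sqrt_gap_le {x t : ℝ} (hx : 0 ≤ x) (ht : 0 < t) :
    1 / Real.sqrt t - 1 / Real.sqrt (x + t) ≤ x * t ^ (-(3 / 2) : ℝ) := by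
  have hs : 0 < Real.sqrt t := Real.sqrt_pos.2 ht
  have hr : 0 < Real.sqrt (x + t) := Real.sqrt_pos.2 (by linarith)
  have h1 := Real.mul_self_sqrt ht.le
  have h2 := Real.mul_self_sqrt (show (0 : ℝ) ≤ x + t by linarith)
  have hle : Real.sqrt t ≤ Real.sqrt (x + t) := Real.sqrt_le_sqrt (by linarith)
  have e : t ^ (-(3 / 2) : ℝ) = 1 / (t * Real.sqrt t) := by
    rw [Real.sqrt_eq_rpow, Real.rpow_neg ht.le, show (3 / 2 : ℝ) = 1 + 1 / 2 by norm_num,
      Real.rpow_add ht, Real.rpow_one, one_div, inv_eq_one_div]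
  rw [e, div_sub_div _ _ hs.ne' hr.ne', mul_one_div, div_le_div_iff₀ (by positivity) (by positivity)]
  have hk : 0 ≤ (Real.sqrt (x + t) + Real.sqrt t) * Real.sqrt (x + t) - t := by nlinarith
  nlinarith [mul_nonneg (mul_nonneg (sub_nonneg.2 hle) hs.le) hk]

lemma integrableOn_layer {ν x : ℝ} (h0 : 0 < ν) (h1 : ν < 1) (hx : 0 ≤ x) :
    IntegrableOn (fun t : ℝ => t ^ (ν - 1 / 2) * (1 / Real.sqrt t - 1 / Real.sqrt (x + t)))
      (Ioi 0) := by
  have hmeas : AEStronglyMeasurable
      (fun t : ℝ => t ^ (ν - 1 / 2) * (1 / Real.sqrt t - 1 / Real.sqrt (x + t)))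
      (volume.restrict (Ioi (0 : ℝ))) := Measurable.aestronglyMeasurable (by fun_prop)
  rw [← Ioc_union_Ioi_eq_Ioi zero_le_one]
  refine IntegrableOn.union ?_ ?_
  · have hint : IntegrableOn (fun t : ℝ => t ^ (ν - 1)) (Ioc 0 1) :=
      (intervalIntegrable_iff_integrableOn_Ioc_of_le zero_le_one).1
        (intervalIntegral.intervalIntegrable_rpow' (by linarith))
    refine Integrable.mono' hint (hmeas.mono_set Ioc_subset_Ioi_self) ?_
    filter_upwards [self_mem_ae_restrict measurableSet_Ioc] with t ht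
    have hg := inv_sqrt_gap_nonneg hx ht.1
    rw [Real.norm_eq_abs, abs_of_nonneg (mul_nonneg (Real.rpow_nonneg ht.1.le _) hg)]
    have hle : 1 / Real.sqrt t - 1 / Real.sqrt (x + t) ≤ 1 / Real.sqrt t :=
      sub_le_self _ (by positivity)
    refine (mul_le_mul_of_nonneg_left hle (Real.rpow_nonneg ht.1.le _)).trans_eq ?_
    rw [Real.sqrt_eq_rpow, one_div, one_div, ← Real.rpow_neg ht.1.le, ← Real.rpow_add ht.1]
    norm_num
    ring_nf
  · have hint : IntegrableOn (fun t : ℝ => x * t ^ (ν - 2)) (Ioi 1) :=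
      ((integrableOn_Ioi_rpow_of_lt (by linarith) zero_lt_one).const_mul x)
    refine Integrable.mono' hint (hmeas.mono_set (Ioi_subset_Ioi zero_le_one)) ?_
    filter_upwards [self_mem_ae_restrict measurableSet_Ioi] with t ht
    have ht0 : 0 < t := zero_lt_one.trans ht
    have hg := inv_sqrt_gap_nonneg hx ht0
    rw [Real.norm_eq_abs, abs_of_nonneg (mul_nonneg (Real.rpow_nonneg ht0.le _) hg)]
    refine (mul_le_mul_of_nonneg_left (inv_sqrt_gap_le hx ht0) (Real.rpow_nonneg ht0.le _)).trans_eq ?_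
    rw [mul_left_comm, ← Real.rpow_add ht0]
    ring_nf

lemma integral_layer {ν x : ℝ} (hx : 0 < x) :
    ∫ t in Ioi (0 : ℝ), t ^ (ν - 1 / 2) * (1 / Real.sqrt t - 1 / Real.sqrt (x + t))
      = x ^ ν * lcoef ν := by
  set g : ℝ → ℝ := fun t => t ^ (ν - 1 / 2) * (1 / Real.sqrt t - 1 / Real.sqrt (x + t)) with hg
  have h := integral_comp_mul_left_Ioi g 0 hx
  rw [mul_zero, smul_eq_mul] at h
  have e : ∀ t ∈ Ioi (0 : ℝ), g (x * t)
      = x ^ (ν - 1) * (t ^ (ν - 1 / 2) * (1 / Real.sqrt t - 1 / Real.sqrt (1 + t))) := by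
    intro t ht
    have ht0 : (0 : ℝ) < t := ht
    simp only [hg]
    rw [Real.mul_rpow hx.le ht0.le, show x + x * t = x * (1 + t) by ring, Real.sqrt_mul hx.le,
      Real.sqrt_mul hx.le, show ν - 1 = (ν - 1 / 2) + -(1 / 2) by ring, Real.rpow_add hx,
      Real.rpow_neg hx.le, ← Real.sqrt_eq_rpow]
    ring
  rw [setIntegral_congr_fun measurableSet_Ioi e, integral_const_mul] at h
  have hxν : x ^ ν = x * x ^ (ν - 1) := by
    rw [show ν = 1 + (ν - 1) by ring, Real.rpow_add hx, Real.rpow_one]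
    ring_nf
  have hl : lcoef ν = ∫ t in Ioi (0 : ℝ),
      t ^ (ν - 1 / 2) * (1 / Real.sqrt t - 1 / Real.sqrt (1 + t)) := rfl
  rw [hxν, hl, mul_assoc, h, ← mul_assoc, mul_inv_cancel₀ hx.ne', one_mul]

/-- **Lemma 1, integrated**: `⟪u, Q u⟫ ≤ |u|² x ^ ν`, up to the common normalisation. -/
theorem gQ_le {ν x : ℝ} (h0 : 0 < ν) (h1 : ν < 1) {W F : Matrix ι ι ℂ} (hW : W.IsHermitian)
    (hF : F.IsHermitian) (hdom : ∀ k v, 0 ≤ qf (pencil W F k 0) v) (hx : 0 < x) (u : ι → ℂ)
    (hint : IntegrableOn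
      (fun l => l ^ (ν - 1 / 2) * (π * nsq u / Real.sqrt l - gres W F l u)) (Ioi 0))
    (hM : ∀ G : Matrix ι ι ℂ, G.IsHermitian → Commute G F →
      0 ≤ qf (G * (G * W - W * G) - (G * W - W * G) * G) u)
    (hX : qf (W - F * F) u ≤ x * nsq u) :
    gQ ν W F u ≤ π * lcoef ν * nsq u * x ^ ν := by
  have hub := (integrableOn_layer h0 h1 hx.le).const_mul (π * nsq u)
  refine (setIntegral_mono_on hint hub measurableSet_Ioi fun l hl => ?_).trans_eq ?_
  · have hl0 : (0 : ℝ) < l := hl
    have hg := gres_lower hW hF hdom hl0 hx u hM hX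
    calc l ^ (ν - 1 / 2) * (π * nsq u / Real.sqrt l - gres W F l u)
        ≤ l ^ (ν - 1 / 2) * (π * nsq u / Real.sqrt l - π * nsq u / Real.sqrt (x + l)) :=
          mul_le_mul_of_nonneg_left (by linarith) (Real.rpow_nonneg hl0.le _)
      _ = π * nsq u * (l ^ (ν - 1 / 2) * (1 / Real.sqrt l - 1 / Real.sqrt (x + l))) := by ring
  · rw [integral_const_mul, integral_layer hx]
    ring

/-- The commutator hypothesis follows from optimality under rotations fixing `F`. -/
theorem comm_cond_of_rotation {W F : Matrix ι ι ℂ} (u : ι → ℂ)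
    (h : ∀ U : Matrix ι ι ℂ, U * Uᴴ = 1 → Commute U F →
      qf (U * W * Uᴴ) u + qf (Uᴴ * W * U) u ≤ 2 * qf W u)
    (G : Matrix ι ι ℂ) (hG : G.IsHermitian) (hGF : Commute G F) :
    0 ≤ qf (G * (G * W - W * G) - (G * W - W * G) * G) u := by
  set D : ℝ → Matrix ι ι ℂ := fun e => 1 + ((e ^ 2 : ℝ) : ℂ) • (G * G) with hD
  set cm : Matrix ι ι ℂ → Matrix ι ι ℂ := fun a => a * (a * W - W * a) - (a * W - W * a) * a
    with hcm
  set Φ : ℝ → ℝ := fun e => qf (cm (((-2 * e : ℝ) : ℂ) • (G * G * (D e)⁻¹))) u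
    + qf (cm (((-2 : ℝ) : ℂ) • (G * (D e)⁻¹))) u with hΦ
  have hdet : ∀ e, IsUnit (D e) := fun e => by
    refine (Matrix.PosDef.one.add_posSemidef ?_).isUnit
    rw [show ((e ^ 2 : ℝ) : ℂ) • (G * G) = ((e : ℂ) • G)ᴴ * ((e : ℂ) • G) by
      rw [conjTranspose_smul, hG.eq, Matrix.smul_mul, Matrix.mul_smul, smul_smul]
      simp [sq]]
    exact posSemidef_conjTranspose_mul_self _
  have hcont : Continuous Φ := by
    have hi : Continuous fun e => (D e)⁻¹ := by
      simp only [Matrix.inv_def, Ring.inverse_eq_inv']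
      have hc : Continuous D := by simp only [hD]; fun_prop
      exact (hc.matrix_det.inv₀ fun e => ((Matrix.isUnit_iff_isUnit_det _).1 (hdet e)).ne_zero).smul
        hc.matrix_adjugate
    simp only [hΦ, hcm, qf]
    fun_prop
  have hpos : ∀ e : ℝ, e ≠ 0 → 0 ≤ Φ e := fun e he => by
    have hDe := (hdet e).invertible
    set N := (D e)⁻¹ with hN
    have hNh : Nᴴ = N := by
      rw [hN, conjTranspose_nonsing_inv]
      simp only [hD, conjTranspose_add, conjTranspose_one, conjTranspose_smul, conjTranspose_mul,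
        hG.eq, RCLike.star_def, Complex.conj_ofReal]
    have hGD : Commute G (D e) := by
      simp only [hD]
      exact (Commute.one_right G).add_right ((((Commute.refl G).mul_right (Commute.refl G))).smul_right _)
    have hNof : ∀ B : Matrix ι ι ℂ, Commute B (D e) → Commute B N := fun B hB => by
      have : N * (D e * B) * N = N * (B * D e) * N := by rw [hB.eq]
      rw [hN, ← Matrix.mul_assoc, Matrix.inv_mul_of_invertible, one_mul, Matrix.mul_assoc,
        Matrix.mul_assoc, Matrix.mul_inv_of_invertible, Matrix.mul_one] at this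
      exact this
    have hGN : Commute G N := hNof G hGD
    have hFD : Commute F (D e) := by
      simp only [hD]
      exact (Commute.one_right F).add_right ((hGF.symm.mul_right hGF.symm).smul_right _)
    have hFN : Commute F N := hNof F hFD
    set a := (1 - ((e ^ 2 : ℝ) : ℂ) • (G * G)) * N with ha
    set b := ((-2 * e : ℝ) : ℂ) • (G * N) with hb
    have hah : aᴴ = a := by
      rw [ha, conjTranspose_mul, hNh, conjTranspose_sub, conjTranspose_one, conjTranspose_smul,
        conjTranspose_mul, hG.eq, RCLike.star_def, Complex.conj_ofReal]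
      exact ((Commute.one_right N).sub_right (((hGN.symm.mul_right hGN.symm)).smul_right _)).eq
    have hbh : bᴴ = b := by
      rw [hb, conjTranspose_smul, conjTranspose_mul, hNh, hG.eq, RCLike.star_def,
        Complex.conj_ofReal, hGN.symm.eq]
    have hab : Commute a b := by
      have h1 : Commute (1 - ((e ^ 2 : ℝ) : ℂ) • (G * G)) G :=
        (Commute.one_left G).sub_left (((Commute.refl G).mul_left (Commute.refl G)).smul_left _)
      have h2 : Commute (1 - ((e ^ 2 : ℝ) : ℂ) • (G * G)) N :=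
        (Commute.one_left N).sub_left ((hGN.mul_left hGN).smul_left _)
      exact (((h1.mul_right h2)).mul_left (hGN.symm.mul_right (Commute.refl N))).smul_right _
    have hFa : Commute a F :=
      ((Commute.one_left F).sub_left ((hGF.mul_left hGF).smul_left _)).mul_left hFN.symm
    have hFb : Commute b F := (hGF.mul_left hFN.symm).smul_left _
    have hDN : D e * N = 1 := Matrix.mul_inv_of_invertible _
    have hsq : a * a + b * b = 1 := by
      have hcm2 : N * (1 - ((e ^ 2 : ℝ) : ℂ) • (G * G)) = (1 - ((e ^ 2 : ℝ) : ℂ) • (G * G)) * N :=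
        ((Commute.one_right N).sub_right (((hGN.symm.mul_right hGN.symm)).smul_right _)).eq
      have e1 : a * a = (1 - ((e ^ 2 : ℝ) : ℂ) • (G * G)) * (1 - ((e ^ 2 : ℝ) : ℂ) • (G * G))
          * (N * N) := by
        rw [ha, Matrix.mul_assoc, ← Matrix.mul_assoc N, hcm2]
        simp only [Matrix.mul_assoc]
      have e2 : b * b = ((4 * e ^ 2 : ℝ) : ℂ) • (G * G * (N * N)) := by
        rw [hb, Matrix.smul_mul, Matrix.mul_smul, smul_smul, Matrix.mul_assoc, ← Matrix.mul_assoc N,
          hGN.symm.eq]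
        simp only [Matrix.mul_assoc]
        congr 1
        push_cast
        ring
      have e3 : (1 - ((e ^ 2 : ℝ) : ℂ) • (G * G)) * (1 - ((e ^ 2 : ℝ) : ℂ) • (G * G))
          + ((4 * e ^ 2 : ℝ) : ℂ) • (G * G) = D e * D e := by
        simp only [hD, Matrix.mul_add, Matrix.add_mul, Matrix.mul_sub, Matrix.sub_mul,
          Matrix.one_mul, Matrix.mul_one, Matrix.smul_mul, Matrix.mul_smul]
        match_scalars <;> push_cast <;> ring
      rw [e1, e2, ← Matrix.smul_mul ((4 * e ^ 2 : ℝ) : ℂ) (G * G) (N * N), ← Matrix.add_mul, e3, Matrix.mul_assoc,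
        ← Matrix.mul_assoc (D e) N, hDN, Matrix.one_mul, hDN]
    set U := a + Complex.I • b with hU
    have hUs : Uᴴ = a - Complex.I • b := by
      rw [hU, conjTranspose_add, conjTranspose_smul, hah, hbh, RCLike.star_def, Complex.conj_I,
        neg_smul, sub_eq_add_neg]
    have hU1 : U * Uᴴ = 1 := by
      rw [hUs, hU, ← hsq]
      simp only [Matrix.add_mul, Matrix.mul_sub, Matrix.smul_mul, Matrix.mul_smul,
        hab.eq]
      match_scalars <;> simp
    have hU2 : Commute U F := hFa.add_left (hFb.smul_left _)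
    have hh := h U hU1 hU2
    have hid : U * W * Uᴴ + Uᴴ * W * U = ((2 : ℝ) : ℂ) • W - (cm a + cm b) := by
      have hsW : a * a * W + b * b * W = W := by rw [← Matrix.add_mul, hsq, Matrix.one_mul]
      have hWs : W * (a * a) + W * (b * b) = W := by rw [← Matrix.mul_add, hsq, Matrix.mul_one]
      rw [hUs, hU]
      simp only [hcm, Matrix.add_mul, Matrix.mul_add, Matrix.sub_mul, Matrix.mul_sub,
        Matrix.smul_mul, Matrix.mul_smul, Matrix.mul_assoc]
      rw [show ((2 : ℝ) : ℂ) • W = (a * a * W + b * b * W) + (W * (a * a) + W * (b * b)) by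
        rw [hsW, hWs]; push_cast; rw [two_smul]]
      simp only [Matrix.mul_assoc]
      match_scalars <;> simp
    rw [← qf_add, hid, qf_sub, qf_smul, qf_add] at hh
    have hsh : cm a = cm (a - 1) := by
      simp only [hcm, Matrix.mul_sub, Matrix.sub_mul, Matrix.one_mul, Matrix.mul_one]
      abel
    have ha1 : a - 1 = (e : ℂ) • (((-2 * e : ℝ) : ℂ) • (G * G * N)) := by
      rw [ha]
      conv_lhs => arg 2; rw [← hDN]
      simp only [hD, Matrix.add_mul, Matrix.sub_mul, Matrix.smul_mul, smul_smul]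
      match_scalars <;> push_cast <;> ring
    have hb1 : b = (e : ℂ) • (((-2 : ℝ) : ℂ) • (G * N)) := by
      rw [hb, smul_smul]; congr 1; push_cast; ring
    have hscale : ∀ A : Matrix ι ι ℂ, qf (cm ((e : ℂ) • A)) u = e ^ 2 * qf (cm A) u := fun A => by
      rw [← qf_smul]
      congr 1
      simp only [hcm, Matrix.mul_sub, Matrix.sub_mul, Matrix.smul_mul, Matrix.mul_smul, smul_smul,
        smul_sub]
      push_cast
      simp only [sq]
    rw [hsh, ha1, hb1, hscale, hscale] at hh
    have he2 : 0 < e ^ 2 := by positivity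
    have : 0 ≤ e ^ 2 * Φ e := by simp only [hΦ, ← hN]; linarith
    exact nonneg_of_mul_nonneg_right this he2
  have hlim : Tendsto Φ (𝓝[≠] (0 : ℝ)) (𝓝 (Φ 0)) := (hcont.tendsto 0).mono_left nhdsWithin_le_nhds
  have hnn : 0 ≤ Φ 0 := ge_of_tendsto hlim (eventually_nhdsWithin_of_forall fun e he => hpos e he)
  have hD0 : D 0 = 1 := by simp [hD]
  have h4 : cm (((-2 : ℝ) : ℂ) • G) = ((4 : ℝ) : ℂ) • cm G := by
    simp only [hcm, Matrix.mul_sub, Matrix.sub_mul, Matrix.smul_mul, Matrix.mul_smul, smul_smul,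
      smul_sub]
    norm_num
  have h0 : qf (cm (0 : Matrix ι ι ℂ)) u = 0 := by simp [hcm, qf]
  simp only [hΦ, hD0, inv_one, Matrix.mul_one, mul_zero, Complex.ofReal_zero, zero_smul, h4,
    qf_smul, h0, zero_add] at hnn
  simp only [hcm] at hnn
  linarith

end Vale.Agent.P371.General
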