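import Mathlib

/-!
# P371, general exponent: the key inequality (Lemma 1)

`pencil W F k l = W - 2kF + k² + l`.  For a vector `u` with the commutator property
`0 ≤ ⟪u, [G,[G,W]] u⟫` for all Hermitian `G` commuting with `F`, the resolvent integral
`gres W F l u = ∫ k, ⟪u, (pencil W F k l)⁻¹ u⟫` is bounded below by its scalar value at
`x = ⟪u, (W - F²) u⟫ / |u|²`.
-/

namespace Vale.Agent.P371.General

open Matrix Finset MeasureTheory Filter
open scoped ComplexOrder Topology ComplexConjugate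

variable {ι : Type*} [Fintype ι] [DecidableEq ι]

set_option linter.unusedSectionVars false

/-- The quadratic pencil `W - 2kF + (k² + l)`. -/
noncomputable def pencil (W F : Matrix ι ι ℂ) (k l : ℝ) : Matrix ι ι ℂ :=
  W - ((2 * k : ℝ) : ℂ) • F + ((k ^ 2 + l : ℝ) : ℂ) • (1 : Matrix ι ι ℂ)

/-- The quadratic form of a matrix. -/
noncomputable def qf (A : Matrix ι ι ℂ) (u : ι → ℂ) : ℝ := (star u ⬝ᵥ A *ᵥ u).re

/-- `|u|²`. -/
noncomputable def nsq (u : ι → ℂ) : ℝ := ∑ i, Complex.normSq (u i)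

/-- The resolvent integral at layer `l`. -/
noncomputable def gres (W F : Matrix ι ι ℂ) (l : ℝ) (u : ι → ℂ) : ℝ :=
  ∫ k : ℝ, qf (pencil W F k l)⁻¹ u

lemma qf_add (A B : Matrix ι ι ℂ) (u : ι → ℂ) : qf (A + B) u = qf A u + qf B u := by
  simp [qf, add_mulVec, dotProduct_add]

lemma qf_sub (A B : Matrix ι ι ℂ) (u : ι → ℂ) : qf (A - B) u = qf A u - qf B u := by
  simp [qf, sub_mulVec, dotProduct_sub]

lemma qf_smul (c : ℝ) (A : Matrix ι ι ℂ) (u : ι → ℂ) : qf ((c : ℂ) • A) u = c * qf A u := by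
  simp [qf, smul_mulVec, dotProduct_smul]

lemma qf_one (u : ι → ℂ) : qf (1 : Matrix ι ι ℂ) u = nsq u := by
  simp [qf, nsq, dotProduct, Complex.re_sum, Complex.normSq_apply]

lemma nsq_nonneg (u : ι → ℂ) : 0 ≤ nsq u := Finset.sum_nonneg fun _ _ => Complex.normSq_nonneg _

lemma qf_pencil (W F : Matrix ι ι ℂ) (k l : ℝ) (u : ι → ℂ) :
    qf (pencil W F k l) u = qf W u - 2 * k * qf F u + (k ^ 2 + l) * nsq u := by
  rw [pencil, qf_add, qf_sub, qf_smul, qf_smul, qf_one]

lemma qf_eq_sum (A : Matrix ι ι ℂ) (u : ι → ℂ) :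
    qf A u = ∑ i, ∑ j, (conj (u i) * A i j * u j).re := by
  simp [qf, dotProduct, mulVec, Finset.mul_sum, Complex.re_sum, mul_assoc]

lemma qf_diagonal (d : ι → ℝ) (u : ι → ℂ) :
    qf (diagonal fun i => (d i : ℂ)) u = ∑ i, d i * Complex.normSq (u i) := by
  simp only [qf, dotProduct, mulVec_diagonal, Complex.re_sum]
  refine Finset.sum_congr rfl fun i _ => ?_
  simp [Complex.normSq_apply]
  ring

/-- The Hermitian matrix with a real form bound is bounded by a multiple of `|v|²`. -/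
lemma exists_qf_bound (A : Matrix ι ι ℂ) : ∃ C, 0 ≤ C ∧ ∀ v, |qf A v| ≤ C * nsq v := by
  refine ⟨∑ i, ∑ j, ‖A i j‖, by positivity, fun v => ?_⟩
  rw [qf_eq_sum]
  refine (Finset.abs_sum_le_sum_abs _ _).trans ?_
  rw [Finset.sum_mul]
  refine Finset.sum_le_sum fun i _ => ?_
  refine (Finset.abs_sum_le_sum_abs _ _).trans ?_
  rw [Finset.sum_mul]
  refine Finset.sum_le_sum fun j _ => ?_
  refine (Complex.abs_re_le_norm _).trans ?_
  have hle : ∀ i, ‖v i‖ ^ 2 ≤ nsq v := fun i => by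
    rw [← Complex.normSq_eq_norm_sq]
    exact Finset.single_le_sum (f := fun i => Complex.normSq (v i))
      (fun i _ => Complex.normSq_nonneg _) (Finset.mem_univ i)
  rw [norm_mul, norm_mul, Complex.norm_conj]
  have h1 : ‖v i‖ * ‖v j‖ ≤ nsq v := by
    nlinarith [sq_nonneg (‖v i‖ - ‖v j‖), hle i, hle j]
  calc ‖v i‖ * ‖A i j‖ * ‖v j‖ = ‖A i j‖ * (‖v i‖ * ‖v j‖) := by ring
    _ ≤ ‖A i j‖ * nsq v := mul_le_mul_of_nonneg_left h1 (norm_nonneg _)

/-- On the domain the pencil dominates `ε (1 + k²)`. -/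
lemma pencil_coercive {W F : Matrix ι ι ℂ} (hdom : ∀ k v, 0 ≤ qf (pencil W F k 0) v)
    {l : ℝ} (hl : 0 < l) : ∃ ε, 0 < ε ∧ ∀ k v, ε * (1 + k ^ 2) * nsq v ≤ qf (pencil W F k l) v := by
  obtain ⟨C, hC, hCb⟩ := exists_qf_bound W
  obtain ⟨D, hD, hDb⟩ := exists_qf_bound F
  set c := C + 2 * D ^ 2 with hc
  set θ := l / (1 + c + l) with hθ
  have hden : 0 < 1 + c + l := by positivity
  have hθ0 : 0 < θ := div_pos hl hden
  have hθ1 : θ ≤ 1 := (div_le_one hden).2 (by linarith [show 0 ≤ c by positivity])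
  refine ⟨θ / 2, by positivity, fun k v => ?_⟩
  have hW := abs_le.1 (hCb v)
  have hF := abs_le.1 (hDb v)
  have hn := nsq_nonneg v
  have h0 := hdom k v
  rw [qf_pencil, add_zero] at h0
  rw [qf_pencil]
  have hkF : 2 * k * qf F v ≤ (k ^ 2 / 2 + 2 * D ^ 2) * nsq v := by
    rcases le_total 0 k with hk | hk
    · nlinarith [mul_le_mul_of_nonneg_left hF.2 hk, mul_nonneg hn (sq_nonneg (k / 2 - D))]
    · nlinarith [mul_le_mul_of_nonpos_left hF.1 hk, mul_nonneg hn (sq_nonneg (k / 2 + D))]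
  have hA : (k ^ 2 / 2 - c) * nsq v ≤ qf W v - 2 * k * qf F v + k ^ 2 * nsq v := by
    nlinarith
  have hB : θ * ((k ^ 2 / 2 - c) * nsq v) ≤ qf W v - 2 * k * qf F v + k ^ 2 * nsq v := by
    nlinarith [mul_nonneg (sub_nonneg.2 hθ1) h0, mul_le_mul_of_nonneg_left hA hθ0.le]
  have hθl : θ * (1 + c) ≤ l := by
    rw [hθ, div_mul_eq_mul_div, div_le_iff₀ hden]
    nlinarith
  nlinarith [mul_le_mul_of_nonneg_right hθl hn, mul_nonneg hθ0.le hn]

/-- A tangent bound for the form of the inverse. -/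
lemma qf_inv_ge {A : Matrix ι ι ℂ} (hA : A.PosDef) (u y : ι → ℂ) :
    2 * (star u ⬝ᵥ y).re - qf A y ≤ qf A⁻¹ u := by
  have hu : IsUnit A := hA.isUnit
  have : Invertible A := hu.invertible
  set z := A⁻¹ *ᵥ u with hz
  have hAz : A *ᵥ z = u := by rw [hz, mulVec_mulVec, Matrix.mul_inv_of_invertible, one_mulVec]
  have h := hA.posSemidef.dotProduct_mulVec_nonneg (y - z)
  have h' : 0 ≤ (star (y - z) ⬝ᵥ A *ᵥ (y - z)).re := (Complex.le_def.1 h).1
  rw [mulVec_sub, hAz, star_sub, sub_dotProduct, dotProduct_sub, dotProduct_sub] at h'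
  have e2 : star z ⬝ᵥ A *ᵥ y = star u ⬝ᵥ y := by
    conv_rhs => rw [← hAz]
    rw [star_mulVec A z, hA.isHermitian.eq, dotProduct_mulVec]
  have e3 : (star y ⬝ᵥ u).re = (star u ⬝ᵥ y).re := by
    rw [show star y ⬝ᵥ u = star (star u ⬝ᵥ y) by rw [star_dotProduct]]
    simp
  have e4 : (star z ⬝ᵥ u).re = (star u ⬝ᵥ z).re := by
    rw [show star z ⬝ᵥ u = star (star u ⬝ᵥ z) by rw [star_dotProduct]]
    simp
  simp only [Complex.sub_re, e2, e3, e4] at h'
  show _ ≤ (star u ⬝ᵥ z).re
  unfold qf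
  linarith

/-- The form of the inverse pencil is bounded by an integrable function. -/
lemma qf_inv_bound {A : Matrix ι ι ℂ} {c : ℝ} (hc : 0 < c) (hA : A.IsHermitian)
    (h : ∀ v, c * nsq v ≤ qf A v) (u : ι → ℂ) :
    0 ≤ qf A⁻¹ u ∧ qf A⁻¹ u ≤ nsq u / c := by
  have hpd : A.PosDef := by
    refine PosDef.of_dotProduct_mulVec_pos hA fun v hv => ?_
    have hn : 0 < nsq v := by
      obtain ⟨i, hi⟩ := Function.ne_iff.1 hv
      exact lt_of_lt_of_le (Complex.normSq_pos.2 hi) (Finset.single_le_sum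
        (f := fun i => Complex.normSq (v i)) (fun i _ => Complex.normSq_nonneg _) (Finset.mem_univ i))
    have hp : 0 < (star v ⬝ᵥ A *ᵥ v).re := lt_of_lt_of_le (mul_pos hc hn) (h v)
    refine Complex.lt_def.2 ⟨hp, ?_⟩
    have him : RCLike.im (star v ⬝ᵥ A *ᵥ v) = 0 := hA.im_star_dotProduct_mulVec_self v
    simpa using him.symm
  have : Invertible A := hpd.isUnit.invertible
  set z := A⁻¹ *ᵥ u with hz
  have hAz : A *ᵥ z = u := by rw [hz, mulVec_mulVec, Matrix.mul_inv_of_invertible, one_mulVec]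
  have hq : qf A⁻¹ u = qf A z := by
    show (star u ⬝ᵥ z).re = (star z ⬝ᵥ A *ᵥ z).re
    rw [hAz, show star z ⬝ᵥ u = star (star u ⬝ᵥ z) by rw [star_dotProduct]]
    simp
  have hzz := h z
  refine ⟨hq ▸ le_trans (mul_nonneg hc.le (nsq_nonneg z)) hzz, ?_⟩
  have hcs : 2 * (star u ⬝ᵥ z).re ≤ nsq u / c + c * nsq z := by
    simp only [dotProduct, Complex.re_sum, nsq, Finset.mul_sum, Finset.sum_div, ← Finset.sum_add_distrib]
    refine Finset.sum_le_sum fun i _ => ?_
    simp only [Pi.star_apply, Complex.mul_re, Complex.normSq_apply, RCLike.star_def,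
      Complex.conj_re, Complex.conj_im]
    rw [div_add' _ _ _ hc.ne', le_div_iff₀ hc]
    nlinarith [sq_nonneg ((u i).re - c * (z i).re), sq_nonneg ((u i).im - c * (z i).im)]
  have : qf A⁻¹ u = (star u ⬝ᵥ z).re := rfl
  linarith

lemma continuous_pencil (W F : Matrix ι ι ℂ) (l : ℝ) : Continuous fun k => pencil W F k l := by
  unfold pencil
  fun_prop

lemma pencil_isHermitian {W F : Matrix ι ι ℂ} (hW : W.IsHermitian) (hF : F.IsHermitian)
    (k l : ℝ) : (pencil W F k l).IsHermitian := by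
  unfold pencil Matrix.IsHermitian
  simp only [conjTranspose_add, conjTranspose_sub, conjTranspose_smul, hW.eq, hF.eq,
    conjTranspose_one, RCLike.star_def, Complex.conj_ofReal]

lemma gres_integrable {W F : Matrix ι ι ℂ} (hW : W.IsHermitian) (hF : F.IsHermitian)
    (hdom : ∀ k v, 0 ≤ qf (pencil W F k 0) v) {l : ℝ} (hl : 0 < l) (u : ι → ℂ) :
    Integrable fun k => qf (pencil W F k l)⁻¹ u := by
  obtain ⟨ε, hε, hco⟩ := pencil_coercive hdom hl
  have hb : ∀ k, 0 ≤ qf (pencil W F k l)⁻¹ u ∧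
      qf (pencil W F k l)⁻¹ u ≤ nsq u / (ε * (1 + k ^ 2)) := fun k =>
    qf_inv_bound (by positivity) (pencil_isHermitian hW hF k l) (hco k) u
  have hcont : Continuous fun k => qf (pencil W F k l)⁻¹ u := by
    have hdet : ∀ k, (pencil W F k l).det ≠ 0 := fun k => by
      intro h0
      obtain ⟨v, hv, hv0⟩ := Matrix.exists_mulVec_eq_zero_iff.2 h0
      have := hco k v
      have hn : 0 < nsq v := by
        obtain ⟨i, hi⟩ := Function.ne_iff.1 hv
        exact lt_of_lt_of_le (Complex.normSq_pos.2 hi) (Finset.single_le_sum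
          (f := fun i => Complex.normSq (v i)) (fun i _ => Complex.normSq_nonneg _)
          (Finset.mem_univ i))
      simp only [qf, hv0, dotProduct_zero, Complex.zero_re] at this
      nlinarith [mul_pos (mul_pos hε (show (0 : ℝ) < 1 + k ^ 2 by positivity)) hn]
    have hc := continuous_pencil W F l
    have : Continuous fun k => (pencil W F k l)⁻¹ := by
      simp only [Matrix.inv_def, Ring.inverse_eq_inv']
      exact (hc.matrix_det.inv₀ hdet).smul hc.matrix_adjugate
    unfold qf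
    fun_prop
  refine (integrable_inv_one_add_sq.const_mul (nsq u / ε)).mono' hcont.aestronglyMeasurable
    (Eventually.of_forall fun k => ?_)
  rw [Real.norm_eq_abs, abs_of_nonneg (hb k).1]
  refine (hb k).2.trans_eq ?_
  field_simp

lemma integrable_lor (f : ℝ) {r : ℝ} (hr : 0 < r) :
    Integrable (fun k : ℝ => 1 / ((k - f) ^ 2 + r ^ 2)) ∧
      ∫ k : ℝ, 1 / ((k - f) ^ 2 + r ^ 2) = Real.pi / r := by
  set g : ℝ → ℝ := fun k => (1 + (k / r) ^ 2)⁻¹ / r ^ 2 with hg
  have he : (fun k : ℝ => 1 / ((k - f) ^ 2 + r ^ 2)) = fun k => g (k - f) := by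
    funext k; simp only [hg]; field_simp; ring
  rw [he]
  refine ⟨((integrable_inv_one_add_sq.comp_div hr.ne').div_const _).comp_sub_right f, ?_⟩
  rw [integral_sub_right_eq_self g f, hg, integral_div,
    Measure.integral_comp_div (fun x : ℝ => (1 + x ^ 2)⁻¹) r, integral_univ_inv_one_add_sq,
    abs_of_pos hr, smul_eq_mul]
  field_simp

lemma integrable_lor_sq (f : ℝ) {r : ℝ} (hr : 0 < r) :
    Integrable (fun k : ℝ => (1 / ((k - f) ^ 2 + r ^ 2)) ^ 2) ∧
      ∫ k : ℝ, (1 / ((k - f) ^ 2 + r ^ 2)) ^ 2 = Real.pi / (2 * r ^ 3) := by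
  have hi : Integrable (fun k : ℝ => (1 / ((k - f) ^ 2 + r ^ 2)) ^ 2) := by
    refine ((integrable_lor f hr).1.const_mul (1 / r ^ 2)).mono' (Measurable.aestronglyMeasurable (by fun_prop))
      (Eventually.of_forall fun k => ?_)
    rw [Real.norm_eq_abs, abs_of_nonneg (by positivity), sq]
    refine mul_le_mul_of_nonneg_right ?_ (by positivity)
    exact one_div_le_one_div_of_le (by positivity) (by nlinarith [sq_nonneg (k - f)])
  refine ⟨hi, ?_⟩
  set G : ℝ → ℝ := fun k => (k - f) / (2 * r ^ 2 * ((k - f) ^ 2 + r ^ 2))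
    + Real.arctan ((k - f) / r) / (2 * r ^ 3) with hG
  have hd : ∀ k, HasDerivAt G ((1 / ((k - f) ^ 2 + r ^ 2)) ^ 2) k := fun k => by
    have hp : 0 < (k - f) ^ 2 + r ^ 2 := by positivity
    have h1 : HasDerivAt (fun k : ℝ => k - f) 1 k := (hasDerivAt_id k).sub_const f
    have h := (h1.div (((h1.pow 2).add_const (r ^ 2)).const_mul (2 * r ^ 2))
      (by positivity)).add (((h1.div_const r).arctan).div_const (2 * r ^ 3))
    refine h.congr_deriv ?_
    simp only [Pi.pow_apply]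
    field_simp
    ring
  have hlim : ∀ F : Filter ℝ, ∀ c : ℝ, Tendsto (fun k => |k - f|) F atTop →
      Tendsto (fun k => Real.arctan ((k - f) / r)) F (𝓝 c) → Tendsto G F (𝓝 (c / (2 * r ^ 3))) := by
    intro F c hF hc
    have h0 : Tendsto (fun k => (k - f) / (2 * r ^ 2 * ((k - f) ^ 2 + r ^ 2))) F (𝓝 0) := by
      refine squeeze_zero_norm' ?_ ((tendsto_inv_atTop_zero.comp hF).div_const (2 * r ^ 2)
        |>.trans_eq (by simp))
      filter_upwards [hF.eventually_gt_atTop 0] with k hk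
      simp only [Function.comp_apply]
      rw [Real.norm_eq_abs, abs_div, abs_of_pos (show (0:ℝ) < 2 * r ^ 2 * ((k - f) ^ 2 + r ^ 2) by
        positivity), inv_eq_one_div, div_div, div_le_div_iff₀ (by positivity) (by positivity),
        ← sq_abs (k - f)]
      nlinarith [sq_nonneg r, pow_pos hr 4]
    simpa [hG] using h0.add (hc.div_const (2 * r ^ 3))
  have hat : Tendsto (fun k : ℝ => (k - f) / r) atTop atTop :=
    (tendsto_atTop_add_const_right _ (-f) tendsto_id).atTop_div_const hr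
  have hab : Tendsto (fun k : ℝ => (k - f) / r) atBot atBot :=
    (tendsto_atBot_add_const_right _ (-f) tendsto_id).atBot_div_const hr
  rw [integral_of_hasDerivAt_of_tendsto hd hi
    (hlim atBot _ (tendsto_abs_atBot_atTop.comp (tendsto_atBot_add_const_right _ (-f) tendsto_id))
      ((tendsto_nhds_of_tendsto_nhdsWithin Real.tendsto_arctan_atBot).comp hab))
    (hlim atTop _ (tendsto_abs_atTop_atTop.comp (tendsto_atTop_add_const_right _ (-f) tendsto_id))
      ((tendsto_nhds_of_tendsto_nhdsWithin Real.tendsto_arctan_atTop).comp hat))]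
  ring

/-- **Lemma 1**, in an eigenbasis of `F`. -/
theorem gres_lower_diag {W : Matrix ι ι ℂ} {f : ι → ℝ} (hW : W.IsHermitian)
    (hdom : ∀ k v, 0 ≤ qf (pencil W (diagonal fun i => (f i : ℂ)) k 0) v)
    {l x : ℝ} (hl : 0 < l) (hx : 0 < x) (u : ι → ℂ)
    (hM : ∀ g : ι → ℝ, 0 ≤ ∑ i, ∑ j, (g i - g j) ^ 2 * (conj (u i) * W i j * u j).re)
    (hX : qf W u - ∑ i, f i ^ 2 * Complex.normSq (u i) ≤ x * nsq u) :
    Real.pi * nsq u / Real.sqrt (x + l) ≤ gres W (diagonal fun i => (f i : ℂ)) l u := by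
  set F : Matrix ι ι ℂ := diagonal fun i => (f i : ℂ) with hFdef
  have hF : F.IsHermitian := isHermitian_diagonal_of_self_adjoint _ (by
    ext i; simp [Complex.conj_ofReal])
  set r := Real.sqrt (x + l) with hr
  have hr0 : 0 < r := Real.sqrt_pos.2 (by linarith)
  have hr2 : r ^ 2 = x + l := Real.sq_sqrt (by linarith)
  set a : ι → ℝ → ℝ := fun i k => (k - f i) ^ 2 + r ^ 2 with ha
  set M : ι → ι → ℝ := fun i j => (conj (u i) * W i j * u j).re with hMdef
  set m : ι → ℝ := fun i => ∑ j, M i j with hmdef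
  set n : ι → ℝ := fun i => Complex.normSq (u i) with hn
  have hMsymm : ∀ i j, M i j = M j i := fun i j => by
    have hw : conj (W i j) = W j i := hW.apply j i
    simp only [hMdef]
    rw [← Complex.conj_re (conj (u i) * W i j * u j)]
    simp only [map_mul, Complex.conj_conj, hw]
    ring_nf
  set h : ℝ → ℝ := fun k => ∑ i, (n i * (1 / a i k)
    + (n i * (x + f i ^ 2) - m i) * (1 / a i k) ^ 2) with hhdef
  obtain ⟨ε, hε, hco⟩ := pencil_coercive hdom hl
  have hapos : ∀ i k, 0 < a i k := fun i k => by simp only [ha]; positivity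
  have hpd : ∀ k, (pencil W F k l).PosDef := fun k => by
    refine PosDef.of_dotProduct_mulVec_pos (pencil_isHermitian hW hF k l) fun v hv => ?_
    have hv0 : 0 < nsq v := by
      obtain ⟨i, hi⟩ := Function.ne_iff.1 hv
      exact lt_of_lt_of_le (Complex.normSq_pos.2 hi) (Finset.single_le_sum
        (f := fun i => Complex.normSq (v i)) (fun i _ => Complex.normSq_nonneg _) (Finset.mem_univ i))
    refine Complex.lt_def.2 ⟨lt_of_lt_of_le
      (mul_pos (mul_pos hε (show (0:ℝ) < 1 + k ^ 2 by positivity)) hv0) (hco k v), ?_⟩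
    have him : RCLike.im (star v ⬝ᵥ (pencil W F k l) *ᵥ v) = 0 :=
      (pencil_isHermitian hW hF k l).im_star_dotProduct_mulVec_self v
    simpa using him.symm
  have hpt : ∀ k, h k ≤ qf (pencil W F k l)⁻¹ u := fun k => by
    set y : ι → ℂ := fun i => ((1 / a i k : ℝ) : ℂ) * u i with hy
    refine le_trans ?_ (qf_inv_ge (hpd k) u y)
    have e1 : (star u ⬝ᵥ y).re = ∑ i, n i * (1 / a i k) := by
      simp only [dotProduct, Complex.re_sum, hy, hn]
      refine Finset.sum_congr rfl fun i _ => ?_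
      simp [Complex.normSq_apply]
      ring
    have e2 : qf W y = ∑ i, ∑ j, (1 / a i k) * (1 / a j k) * M i j := by
      rw [qf_eq_sum]
      refine Finset.sum_congr rfl fun i _ => Finset.sum_congr rfl fun j _ => ?_
      simp only [hy, map_mul, Complex.conj_ofReal, hMdef]
      rw [show ((1 / a i k : ℝ) : ℂ) * conj (u i) * W i j * (((1 / a j k : ℝ) : ℂ) * u j)
        = ((1 / a i k * (1 / a j k) : ℝ) : ℂ) * (conj (u i) * W i j * u j) by push_cast; ring,
        Complex.re_ofReal_mul]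
    have e3 : nsq y = ∑ i, (1 / a i k) ^ 2 * n i := by
      simp only [nsq, hy, hn, map_mul, Complex.normSq_ofReal, sq]
    have e4 : qf F y = ∑ i, f i * ((1 / a i k) ^ 2 * n i) := by
      rw [hFdef, qf_diagonal]
      simp only [hy, hn, map_mul, Complex.normSq_ofReal, sq]
    have e5 : ∑ i, ∑ j, (1 / a i k) * (1 / a j k) * M i j ≤ ∑ i, m i * (1 / a i k) ^ 2 := by
      have h0 := hM fun i => 1 / a i k
      have hsw : ∑ i, ∑ j, (1 / a j k) ^ 2 * M i j = ∑ i, ∑ j, (1 / a i k) ^ 2 * M i j := by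
        rw [Finset.sum_comm]
        exact Finset.sum_congr rfl fun i _ => Finset.sum_congr rfl fun j _ => by rw [hMsymm]
      have hexp : ∑ i, ∑ j, (1 / a i k - 1 / a j k) ^ 2 * M i j
          = ∑ i, ∑ j, (1 / a i k) ^ 2 * M i j + ∑ i, ∑ j, (1 / a j k) ^ 2 * M i j
            - 2 * ∑ i, ∑ j, (1 / a i k) * (1 / a j k) * M i j := by
        simp only [Finset.mul_sum, ← Finset.sum_add_distrib, ← Finset.sum_sub_distrib]
        exact Finset.sum_congr rfl fun i _ => Finset.sum_congr rfl fun j _ => by ring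
      have hm : ∑ i, ∑ j, (1 / a i k) ^ 2 * M i j = ∑ i, m i * (1 / a i k) ^ 2 := by
        simp only [hmdef, Finset.sum_mul]
        exact Finset.sum_congr rfl fun i _ => Finset.sum_congr rfl fun j _ => by ring
      change 0 ≤ ∑ i, ∑ j, (1 / a i k - 1 / a j k) ^ 2 * M i j at h0
      rw [hexp, hsw, hm] at h0
      linarith
    rw [qf_pencil, e1, e2, e3, e4, Finset.mul_sum, Finset.mul_sum, Finset.mul_sum]
    have e6 : h k = ∑ i, 2 * (n i * (1 / a i k)) + (∑ i, 2 * k * (f i * ((1 / a i k) ^ 2 * n i))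
        - ∑ i, (k ^ 2 + l) * ((1 / a i k) ^ 2 * n i)) - ∑ i, m i * (1 / a i k) ^ 2 := by
      simp only [hhdef, ← Finset.sum_sub_distrib, ← Finset.sum_add_distrib]
      refine Finset.sum_congr rfl fun i _ => ?_
      have hane := (hapos i k).ne'
      have : k ^ 2 + l = a i k - x - f i ^ 2 + 2 * k * f i := by simp only [ha]; rw [hr2]; ring
      rw [this]
      field_simp
      ring
    linarith
  have hi1 := fun i => (integrable_lor (f i) hr0).1
  have hi2 := fun i => (integrable_lor_sq (f i) hr0).1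
  have hterm : ∀ i, Integrable fun k => n i * (1 / a i k)
      + (n i * (x + f i ^ 2) - m i) * (1 / a i k) ^ 2 := fun i =>
    ((hi1 i).const_mul _).add ((hi2 i).const_mul _)
  have hint : ∫ k, h k = ∑ i, (n i * (Real.pi / r)
      + (n i * (x + f i ^ 2) - m i) * (Real.pi / (2 * r ^ 3))) := by
    simp only [hhdef]
    rw [integral_finsetSum _ fun i _ => hterm i]
    refine Finset.sum_congr rfl fun i _ => ?_
    rw [integral_add ((hi1 i).const_mul _) ((hi2 i).const_mul _), integral_const_mul,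
      integral_const_mul]
    exact congrArg₂ (fun p q => n i * p + (n i * (x + f i ^ 2) - m i) * q)
      (integrable_lor (f i) hr0).2 (integrable_lor_sq (f i) hr0).2
  refine le_trans ?_ (integral_mono (integrable_finsetSum _ fun i _ => hterm i)
    (gres_integrable hW hF hdom hl u) hpt)
  rw [hint, Finset.sum_add_distrib, ← Finset.sum_mul, ← Finset.sum_mul, Finset.sum_sub_distrib]
  have hqW : qf W u = ∑ i, m i := qf_eq_sum W u
  have hx' : ∑ i, n i * (x + f i ^ 2) = x * nsq u + ∑ i, f i ^ 2 * n i := by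
    simp only [nsq, Finset.mul_sum, hn, ← Finset.sum_add_distrib]
    exact Finset.sum_congr rfl fun i _ => by ring
  rw [hx']
  have hpos : 0 ≤ Real.pi / (2 * r ^ 3) := by positivity
  have : 0 ≤ x * nsq u + ∑ i, f i ^ 2 * n i - ∑ i, m i := by
    simp only [hn] at *
    linarith
  have h2 := mul_nonneg this hpos
  have h3 : Real.pi * nsq u / r = (∑ i, n i) * (Real.pi / r) := by
    simp only [nsq, hn]; ring
  linarith

/-- **Lemma 1**: the hypothesis is the second-order optimality of `W` under rotations fixing `F`. -/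
theorem gres_lower {W F : Matrix ι ι ℂ} (hW : W.IsHermitian) (hF : F.IsHermitian)
    (hdom : ∀ k v, 0 ≤ qf (pencil W F k 0) v) {l x : ℝ} (hl : 0 < l) (hx : 0 < x) (u : ι → ℂ)
    (hM : ∀ G : Matrix ι ι ℂ, G.IsHermitian → Commute G F →
      0 ≤ qf (G * (G * W - W * G) - (G * W - W * G) * G) u)
    (hX : qf (W - F * F) u ≤ x * nsq u) :
    Real.pi * nsq u / Real.sqrt (x + l) ≤ gres W F l u := by
  set V : Matrix ι ι ℂ := (hF.eigenvectorUnitary : Matrix ι ι ℂ) with hVdef
  set f : ι → ℝ := hF.eigenvalues with hfdef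
  have hV1 : Vᴴ * V = 1 := Unitary.coe_star_mul_self hF.eigenvectorUnitary
  have hV2 : V * Vᴴ = 1 := Unitary.coe_mul_star_self hF.eigenvectorUnitary
  have hFd : F = V * diagonal (fun i => (f i : ℂ)) * Vᴴ := by
    simpa [hVdef, hfdef, Unitary.conjStarAlgAut_apply, Function.comp_def,
      Matrix.star_eq_conjTranspose] using hF.spectral_theorem
  set W' := Vᴴ * W * V with hW'
  set u' := Vᴴ *ᵥ u with hu'
  have hv2 : ∀ v : ι → ℂ, V *ᵥ Vᴴ *ᵥ v = v := fun v => by rw [mulVec_mulVec, hV2, one_mulVec]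
  have hv1 : ∀ v : ι → ℂ, Vᴴ *ᵥ V *ᵥ v = v := fun v => by rw [mulVec_mulVec, hV1, one_mulVec]
  have hq : ∀ A : Matrix ι ι ℂ, qf (Vᴴ * A * V) u' = qf A u := fun A => by
    simp only [qf, hu', star_mulVec, conjTranspose_conjTranspose, ← mulVec_mulVec, hv2,
      ← dotProduct_mulVec]
  have hn : nsq u' = nsq u := by
    rw [← qf_one, ← qf_one, ← hq 1, Matrix.mul_one, hV1]
  have hWV : W = V * W' * Vᴴ := by
    simp only [hW', Matrix.mul_assoc]
    rw [hV2, Matrix.mul_one, ← Matrix.mul_assoc, hV2, Matrix.one_mul]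
  have hpen : ∀ k l', pencil W F k l'
      = V * pencil W' (diagonal fun i => (f i : ℂ)) k l' * Vᴴ := fun k l' => by
    conv_lhs => rw [pencil, hWV, hFd]
    simp only [pencil, Matrix.mul_add, Matrix.add_mul, Matrix.mul_sub, Matrix.sub_mul,
      Matrix.mul_smul, Matrix.smul_mul, Matrix.mul_one, hV2]
  have hinv : ∀ B : Matrix ι ι ℂ, (V * B * Vᴴ)⁻¹ = V * B⁻¹ * Vᴴ := fun B => by
    rw [Matrix.mul_inv_rev, Matrix.mul_inv_rev, inv_eq_right_inv hV2, inv_eq_right_inv hV1,
      Matrix.mul_assoc]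
  have hconj : ∀ B : Matrix ι ι ℂ, Vᴴ * (V * B * Vᴴ) * V = B := fun B => by
    simp only [Matrix.mul_assoc]
    rw [hV1, Matrix.mul_one, ← Matrix.mul_assoc, hV1, Matrix.one_mul]
  have hres : gres W F l u = gres W' (diagonal fun i => (f i : ℂ)) l u' := by
    refine integral_congr_ae (Eventually.of_forall fun k => ?_)
    simp only
    rw [hpen, hinv, ← hq (V * _ * Vᴴ), hconj]
  rw [hres, ← hn]
  refine gres_lower_diag (isHermitian_conjTranspose_mul_mul V hW) ?_ hl hx u' ?_ ?_
  · intro k v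
    have := hdom k (V *ᵥ v)
    rw [hpen] at this
    simpa only [qf, star_mulVec, ← mulVec_mulVec, hv1, ← dotProduct_mulVec] using this
  · intro g
    set G := V * diagonal (fun i => (g i : ℂ)) * Vᴴ with hG
    have hGh : G.IsHermitian := by
      simpa [hG] using isHermitian_mul_mul_conjTranspose V (isHermitian_diagonal_of_self_adjoint
        (fun i => (g i : ℂ)) (by ext i; simp [Complex.conj_ofReal]))
    have hm : ∀ A B : Matrix ι ι ℂ, (V * A * Vᴴ) * (V * B * Vᴴ) = V * (A * B) * Vᴴ := fun A B => by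
      simp only [Matrix.mul_assoc]
      rw [← Matrix.mul_assoc Vᴴ V, hV1, Matrix.one_mul]
    have hGF : Commute G F := by
      rw [Commute, SemiconjBy, hFd, hG, hm, hm]
      congr 2
      simp only [diagonal_mul_diagonal]
      ext i j
      simp [diagonal_apply, mul_comm]
    have h := hM G hGh hGF
    set d := diagonal (fun i => (g i : ℂ)) with hd
    rw [hWV, hG, hm, hm, ← Matrix.sub_mul, ← Matrix.mul_sub, hm, hm, ← Matrix.sub_mul,
      ← Matrix.mul_sub, ← hq, hconj, qf_eq_sum] at h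
    refine h.trans_eq (Finset.sum_congr rfl fun i _ => Finset.sum_congr rfl fun j _ => ?_)
    simp only [hd, Matrix.sub_apply, diagonal_mul, mul_diagonal]
    rw [show conj (u' i) * ((g i : ℂ) * ((g i : ℂ) * W' i j - W' i j * (g j : ℂ))
        - ((g i : ℂ) * W' i j - W' i j * (g j : ℂ)) * (g j : ℂ)) * u' j
      = (((g i - g j) ^ 2 : ℝ) : ℂ) * (conj (u' i) * W' i j * u' j) by push_cast; ring,
      Complex.re_ofReal_mul]
  · have hFF : Vᴴ * (W - F * F) * V
        = W' - diagonal (fun i => ((f i ^ 2 : ℝ) : ℂ)) := by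
      rw [Matrix.mul_sub, Matrix.sub_mul, hFd]
      congr 1
      simp only [Matrix.mul_assoc]
      rw [hV1, Matrix.mul_one, ← Matrix.mul_assoc Vᴴ V, hV1, Matrix.one_mul, ← Matrix.mul_assoc Vᴴ V,
        hV1, Matrix.one_mul, diagonal_mul_diagonal]
      congr 1
      ext i
      push_cast
      ring
    rw [← hq, hFF, qf_sub, qf_diagonal, ← hn] at hX
    exact hX

end Vale.Agent.P371.General
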