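import Vale.Agent.P371.Calib

/-!
# P371: the kernel inequality for a polynomial approximation of the cotangent
-/

namespace Vale.Agent.P371

open Real Finset

/-- `x cos x ≤ sin x` on `[0, π]`. -/
theorem mul_cos_le_sin' {x : ℝ} (h0 : 0 ≤ x) (h1 : x ≤ π) : x * cos x ≤ sin x := by
  have hd : ∀ y, HasDerivAt (fun y => sin y - y * cos y) (y * sin y) y := by
    intro y
    have := (Real.hasDerivAt_sin y).fun_sub ((hasDerivAt_id y).fun_mul (Real.hasDerivAt_cos y))
    exact this.congr_deriv (by simp)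
  have hmono : MonotoneOn (fun y => sin y - y * cos y) (Set.Icc 0 π) := by
    refine monotoneOn_of_hasDerivWithinAt_nonneg (convex_Icc 0 π)
      (fun y _ => (hd y).continuousAt.continuousWithinAt) (fun y _ => (hd y).hasDerivWithinAt) ?_
    intro y hy
    rw [interior_Icc] at hy
    exact mul_nonneg hy.1.le (Real.sin_nonneg_of_nonneg_of_le_pi hy.1.le hy.2.le)
  have := hmono (Set.left_mem_Icc.2 Real.pi_pos.le) ⟨h0, h1⟩ h0
  simpa using this

/-- `cos x ≤ sin x / x` on `[-π, π] \ {0}`. -/
theorem cos_le_sin_div {x : ℝ} (hx : x ≠ 0) (h : |x| ≤ π) : cos x ≤ sin x / x := by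
  rcases lt_or_gt_of_ne hx with hn | hp
  · have h' := mul_cos_le_sin' (x := -x) (by linarith) (by rwa [← abs_of_neg hn])
    rw [cos_neg, sin_neg] at h'
    rw [le_div_iff_of_neg hn]
    linarith
  · rw [le_div_iff₀ hp, mul_comm]
    exact mul_cos_le_sin' hp.le (by rwa [← abs_of_pos hp])

/-- The exact kernel inequality for the cotangent. -/
theorem cot_kernel {s t : ℝ} (hs : s ∈ Set.Ioo 0 π) (ht : t ∈ Set.Ioo 0 π) (hne : s ≠ t) :
    (cos s / sin s - cos t / sin t) / (s - t) + cos s / sin s * (cos t / sin t) + 1 ≤ 0 := by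
  have h1 := Real.sin_pos_of_pos_of_lt_pi hs.1 hs.2
  have h2 := Real.sin_pos_of_pos_of_lt_pi ht.1 ht.2
  have hd : s - t ≠ 0 := sub_ne_zero.2 hne
  have hc := cos_le_sin_div hd (abs_le.2 ⟨by linarith [hs.1, ht.2], by linarith [hs.2, ht.1]⟩)
  have e : (cos s / sin s - cos t / sin t) / (s - t) + cos s / sin s * (cos t / sin t) + 1
      = (cos (s - t) - sin (s - t) / (s - t)) / (sin s * sin t) := by
    rw [cos_sub, sin_sub]
    field_simp
    ring
  rw [e]
  exact div_nonpos_of_nonpos_of_nonneg (by linarith) (by positivity)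

/-- The derivative of `pol`. -/
theorem hasDerivAt_pol (d : ℕ) (c : ℕ → ℝ) (t : ℝ) :
    HasDerivAt (pol d c) (∑ k ∈ range d, c k * (k * t ^ (k - 1))) t := by
  unfold pol
  exact HasDerivAt.fun_sum fun k _ => (hasDerivAt_pow k t).const_mul (c k)

theorem dd_self (d : ℕ) (c : ℕ → ℝ) (t : ℝ) :
    dd d c t t = ∑ k ∈ range d, c k * (k * t ^ (k - 1)) := by
  simp only [dd, geom_self]

theorem dd_mul_sub (d : ℕ) (c : ℕ → ℝ) (s t : ℝ) :
    dd d c s t * (s - t) = pol d c s - pol d c t := by
  simp only [dd, pol, Finset.sum_mul, ← Finset.sum_sub_distrib]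
  exact Finset.sum_congr rfl fun k _ => by rw [mul_assoc, geom_mul_sub]; ring

/-- A polynomial whose kernel approximates that of the cotangent. -/
theorem exists_kernel_approx {δ η : ℝ} (hδ : 0 < δ) (hδ' : δ ≤ π / 2) (hη : 0 < η) :
    ∃ (d : ℕ) (c : ℕ → ℝ) (B : ℝ), (∀ t ∈ Set.Icc δ (π - δ), |pol d c t| ≤ B) ∧
      ∀ s ∈ Set.Icc δ (π - δ), ∀ t ∈ Set.Icc δ (π - δ),
        |dd d c s t + pol d c t * pol d c s + 1
          - (cos (s - t) - sinc (s - t)) / (sin s * sin t)| ≤ η := by
  set I : Set ℝ := Set.Icc δ (π - δ) with hI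
  have hmem : ∀ t ∈ I, t ∈ Set.Ioo 0 π := fun t ht => ⟨by linarith [ht.1], by linarith [ht.2]⟩
  have hpos : ∀ t ∈ I, 0 < sin t := fun t ht =>
    Real.sin_pos_of_pos_of_lt_pi (hmem t ht).1 (hmem t ht).2
  have hsd : 0 < sin δ := Real.sin_pos_of_pos_of_lt_pi hδ (by linarith [Real.pi_pos])
  have hge : ∀ t ∈ I, sin δ ≤ sin t := by
    intro t ht
    rcases le_total t (π / 2) with h | h
    · exact Real.sin_le_sin_of_le_of_le_pi_div_two (by linarith [Real.pi_pos]) h ht.1
    · rw [← Real.sin_pi_sub t]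
      exact Real.sin_le_sin_of_le_of_le_pi_div_two (by linarith [Real.pi_pos]) (by linarith)
        (by linarith [ht.2])
  set B0 : ℝ := 1 / sin δ with hB0def
  have hB0p : 0 < B0 := by positivity
  have hB0 : ∀ t ∈ I, |cos t / sin t| ≤ B0 := by
    intro t ht
    rw [abs_div, abs_of_pos (hpos t ht), hB0def]
    exact div_le_div₀ zero_le_one (abs_cos_le_one t) hsd (hge t ht)
  set K : ℝ := 1 + 2 * B0 * π + π ^ 2 with hK
  have hKp : 0 < K := by positivity
  set e : ℝ := min 1 (η / K) with he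
  have hep : 0 < e := lt_min one_pos (div_pos hη hKp)
  have hcont : ContinuousOn (fun t : ℝ => -1 / sin t ^ 2) I :=
    continuousOn_const.div (by fun_prop) fun t ht => (pow_pos (hpos t ht) 2).ne'
  obtain ⟨q, hq⟩ := exists_polynomial_near_of_continuousOn δ (π - δ) _ hcont e hep
  set d : ℕ := q.natDegree + 2
  set c0 : ℕ → ℝ := fun k => if k = 0 then 0 else q.coeff (k - 1) / k with hc0
  set c : ℕ → ℝ := fun k => if k = 0 then -pol d c0 (π / 2) else q.coeff (k - 1) / k with hc
  have hderiv : ∀ t, (∑ k ∈ range d, c k * (k * t ^ (k - 1))) = q.eval t := by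
    intro t
    rw [Finset.sum_range_succ', Polynomial.eval_eq_sum_range]
    simp only [hc, Nat.succ_ne_zero, if_false, Nat.add_sub_cancel, Nat.cast_zero, zero_mul,
      mul_zero, add_zero]
    refine Finset.sum_congr rfl fun k _ => ?_
    have : ((k + 1 : ℕ) : ℝ) ≠ 0 := by positivity
    field_simp
  have hmid : pol d c (π / 2) = 0 := by
    simp only [pol, d, Finset.sum_range_succ', hc, hc0]
    simp
  set f : ℝ → ℝ := fun t => pol d c t - cos t / sin t with hf
  have hfd : ∀ t ∈ I, HasDerivWithinAt f (q.eval t - -1 / sin t ^ 2) I t := by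
    intro t ht
    have h1 := ((Real.hasDerivAt_cos t).fun_div (Real.hasDerivAt_sin t) (hpos t ht).ne')
    have h2 := (hderiv t) ▸ hasDerivAt_pol d c t
    refine ((h2.fun_sub h1).congr_deriv ?_).hasDerivWithinAt
    congr 1
    rw [show -sin t * sin t - cos t * cos t = -1 by nlinarith [Real.sin_sq_add_cos_sq t]]
  have hlip : ∀ s ∈ I, ∀ t ∈ I, |f s - f t| ≤ e * |s - t| := by
    intro s hs t ht
    have := (convex_Icc δ (π - δ)).norm_image_sub_le_of_norm_hasDerivWithin_le hfd
      (fun x hx => by rw [Real.norm_eq_abs]; exact (hq x hx).le) ht hs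
    simpa [Real.norm_eq_abs] using this
  have hmidI : π / 2 ∈ I := ⟨hδ', by linarith⟩
  have hfb : ∀ t ∈ I, |f t| ≤ e * π := by
    intro t ht
    have h := hlip t ht _ hmidI
    have h0 : f (π / 2) = 0 := by simp [hf, hmid]
    rw [h0, sub_zero] at h
    exact h.trans (mul_le_mul_of_nonneg_left
      (abs_le.2 ⟨by linarith [(hmem t ht).1, Real.pi_pos], by linarith [(hmem t ht).2, Real.pi_pos]⟩)
      hep.le)
  refine ⟨d, c, B0 + π, fun t ht => ?_, fun s hs t ht => ?_⟩
  · have h1 := hfb t ht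
    have h2 := hB0 t ht
    have h3 : e * π ≤ π := mul_le_of_le_one_left Real.pi_pos.le (min_le_left _ _)
    have h4 := abs_add_le (f t) (cos t / sin t)
    simp only [hf, sub_add_cancel] at h4
    simp only [hf] at h1
    linarith
  · set a := cos s / sin s
    set b := cos t / sin t
    have hps : pol d c s = f s + a := by simp [hf, a]
    have hpt : pol d c t = f t + b := by simp [hf, b]
    have hexact : ∃ D : ℝ, |dd d c s t - D| ≤ e ∧
        D + a * b + 1 = (cos (s - t) - sinc (s - t)) / (sin s * sin t) := by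
      rcases eq_or_ne s t with hst | hst
      · subst hst
        refine ⟨-1 / sin s ^ 2, by rw [dd_self, hderiv]; exact (hq s hs).le, ?_⟩
        have := (hpos s hs).ne'
        simp only [a, b, sub_self, cos_zero, sinc_zero, zero_div]
        field_simp
        linarith [Real.sin_sq_add_cos_sq s]
      · have hd0 : s - t ≠ 0 := sub_ne_zero.2 hst
        refine ⟨(a - b) / (s - t), ?_, ?_⟩
        rotate_left
        · have h1 := (hpos s hs).ne'
          have h2 := (hpos t ht).ne'
          simp only [a, b]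
          rw [sinc_of_ne_zero hd0, cos_sub, sin_sub]
          field_simp
          ring
        have h1 : dd d c s t - (a - b) / (s - t) = (f s - f t) / (s - t) := by
          rw [eq_div_iff hd0, sub_mul, div_mul_cancel₀ _ hd0, dd_mul_sub, hps, hpt]
          ring
        rw [h1, abs_div, div_le_iff₀ (abs_pos.2 hd0)]
        exact hlip s hs t ht
    obtain ⟨D, hD, hDle⟩ := hexact
    have ha : |a| ≤ B0 := hB0 s hs
    have hb : |b| ≤ B0 := hB0 t ht
    have he1 : e ≤ 1 := min_le_left _ _
    have hprod : |pol d c t * pol d c s - a * b| ≤ e * (2 * B0 * π + π ^ 2) := by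
      rw [hps, hpt, show (f t + b) * (f s + a) - a * b = f t * a + b * f s + f t * f s by ring]
      refine (abs_add_three _ _ _).trans ?_
      simp only [abs_mul]
      have x1 := mul_le_mul (hfb t ht) ha (abs_nonneg _) (by positivity)
      have x2 := mul_le_mul hb (hfb s hs) (abs_nonneg _) hB0p.le
      have x3 := mul_le_mul (hfb t ht) (hfb s hs) (abs_nonneg _) (by positivity)
      have x4 : e * π * (e * π) ≤ e * π ^ 2 := by
        nlinarith [mul_le_mul_of_nonneg_right he1 (by positivity : (0 : ℝ) ≤ e * π ^ 2)]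
      nlinarith
    have hK' : e * K ≤ η := by
      have := min_le_right 1 (η / K)
      rw [← he, le_div_iff₀ hKp] at this
      exact this
    have := abs_le.1 hD
    have := abs_le.1 hprod
    rw [hK] at hK'
    rw [abs_le, ← hDle]
    constructor <;> nlinarith

/-- A polynomial with approximately the calibration property of the cotangent. -/
theorem exists_kernel_poly {δ η : ℝ} (hδ : 0 < δ) (hδ' : δ ≤ π / 2) (hη : 0 < η) :
    ∃ (d : ℕ) (c : ℕ → ℝ) (B : ℝ), (∀ t ∈ Set.Icc δ (π - δ), |pol d c t| ≤ B) ∧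
      ∀ s ∈ Set.Icc δ (π - δ), ∀ t ∈ Set.Icc δ (π - δ),
        dd d c s t + pol d c t * pol d c s + 1 ≤ η := by
  obtain ⟨d, c, B, hB, h⟩ := exists_kernel_approx hδ hδ' hη
  refine ⟨d, c, B, hB, fun s hs t ht => ?_⟩
  have h1 := (abs_le.1 (h s hs t ht)).2
  have hs0 : 0 < sin s := Real.sin_pos_of_pos_of_lt_pi (by linarith [hs.1]) (by linarith [hs.2])
  have ht0 : 0 < sin t := Real.sin_pos_of_pos_of_lt_pi (by linarith [ht.1]) (by linarith [ht.2])
  have h2 : (cos (s - t) - sinc (s - t)) / (sin s * sin t) ≤ 0 := by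
    refine div_nonpos_of_nonpos_of_nonneg (sub_nonpos.2 ?_) (by positivity)
    rcases eq_or_ne (s - t) 0 with hz | hz
    · simp [hz]
    · rw [sinc_of_ne_zero hz]
      exact cos_le_sin_div hz (abs_le.2 ⟨by linarith [hs.1, ht.2], by linarith [hs.2, ht.1]⟩)
  linarith

end Vale.Agent.P371
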