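import Vale.Agent.P371.Kernel

/-!
# P371: the sharp kinetic inequality for orthonormal functions on the line (`γ = 1`)

For functions `u_1,…,u_N` on `ℝ`, orthonormal in `L²`, with `C¹` regularity and derivatives in
`L²`:  `(π²/4) ∫ (∑ |u_i|²)³ ≤ ∑ ∫ |u_i'|²`.
-/

namespace Vale.Agent.P371

open Matrix Real Finset MeasureTheory Filter Topology
open scoped ComplexConjugate

variable {N : ℕ}

/-- The pointwise calibration inequality for a Hermitian `M` with spectrum in `[δ, 1-δ]`. -/
theorem dSval_le {d : ℕ} {c : ℕ → ℝ} {δ η : ℝ}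
    (hker : ∀ s ∈ Set.Icc (π * δ) (π - π * δ), ∀ t ∈ Set.Icc (π * δ) (π - π * δ),
      dd d c s t + pol d c t * pol d c s + 1 ≤ η)
    {M : Matrix (Fin N) (Fin N) ℂ} (hM : M.IsHermitian)
    (hspec : ∀ i, hM.eigenvalues i ∈ Set.Icc δ (1 - δ)) (u v : Fin N → ℂ) :
    dSval d c M u v
      ≤ ∑ i, Complex.normSq (v i) - π ^ 2 / 4 * (1 - η) * (∑ i, Complex.normSq (u i)) ^ 3 := by
  obtain ⟨U, hU, hU', hMU⟩ : ∃ U : Matrix (Fin N) (Fin N) ℂ, Uᴴ * U = 1 ∧ U * Uᴴ = 1 ∧
      M = U * diagonal (fun i => (hM.eigenvalues i : ℂ)) * Uᴴ := by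
    refine ⟨(hM.eigenvectorUnitary : Matrix _ _ ℂ), ?_, ?_, ?_⟩
    · exact Matrix.mem_unitaryGroup_iff'.1 hM.eigenvectorUnitary.2
    · exact Matrix.mem_unitaryGroup_iff.1 hM.eigenvectorUnitary.2
    · conv_lhs => rw [hM.spectral_theorem, Unitary.conjStarAlgAut_apply, star_eq_conjTranspose]
      rfl
  have hns : ∀ a : Fin N → ℂ,
      ∑ i, Complex.normSq ((Uᴴ *ᵥ a) i) = ∑ i, Complex.normSq (a i) := by
    intro a
    have h : star (Uᴴ *ᵥ a) ⬝ᵥ (Uᴴ *ᵥ a) = star a ⬝ᵥ a := by
      rw [star_mulVec, conjTranspose_conjTranspose, dotProduct_mulVec, vecMul_vecMul, hU',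
        vecMul_one]
    have h' := congrArg Complex.re h
    simpa [dotProduct, Complex.normSq_apply, Complex.re_sum, Complex.mul_re] using h'
  have hback : ∀ a : Fin N → ℂ, U *ᵥ (Uᴴ *ᵥ a) = a := fun a => by
    rw [mulVec_mulVec, hU', one_mulVec]
  have e : dSval d c M u v
      = dSval d c (diagonal fun i => (hM.eigenvalues i : ℂ)) (Uᴴ *ᵥ u) (Uᴴ *ᵥ v) := by
    conv_rhs => rw [← dSval_conj hU, hback, hback, ← hMU]
  rw [e, ← hns u, ← hns v]
  refine dSval_diag_le d c η _ _ _ fun i j l => hker _ ?_ _ ?_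
  · constructor <;> simp only [ang] <;>
      nlinarith [(hspec l).1, (hspec l).2, (hspec j).1, (hspec j).2, Real.pi_pos]
  · constructor <;> simp only [ang] <;>
      nlinarith [(hspec i).1, (hspec i).2, (hspec j).1, (hspec j).2, Real.pi_pos]

/-- The bound on the calibration. -/
theorem abs_Sval_le {d : ℕ} {c : ℕ → ℝ} {δ B : ℝ}
    (hB : ∀ t ∈ Set.Icc (π * δ) (π - π * δ), |pol d c t| ≤ B)
    {M : Matrix (Fin N) (Fin N) ℂ} (hM : M.IsHermitian)
    (hspec : ∀ i, hM.eigenvalues i ∈ Set.Icc δ (1 - δ)) (u : Fin N → ℂ) :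
    |Sval d c M u| ≤ π / 4 * B * (∑ i, Complex.normSq (u i)) ^ 2 := by
  obtain ⟨U, hU, hU', hMU⟩ : ∃ U : Matrix (Fin N) (Fin N) ℂ, Uᴴ * U = 1 ∧ U * Uᴴ = 1 ∧
      M = U * diagonal (fun i => (hM.eigenvalues i : ℂ)) * Uᴴ := by
    refine ⟨(hM.eigenvectorUnitary : Matrix _ _ ℂ), ?_, ?_, ?_⟩
    · exact Matrix.mem_unitaryGroup_iff'.1 hM.eigenvectorUnitary.2
    · exact Matrix.mem_unitaryGroup_iff.1 hM.eigenvectorUnitary.2
    · conv_lhs => rw [hM.spectral_theorem, Unitary.conjStarAlgAut_apply, star_eq_conjTranspose]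
      rfl
  have hns : ∑ i, Complex.normSq ((Uᴴ *ᵥ u) i) = ∑ i, Complex.normSq (u i) := by
    have h : star (Uᴴ *ᵥ u) ⬝ᵥ (Uᴴ *ᵥ u) = star u ⬝ᵥ u := by
      rw [star_mulVec, conjTranspose_conjTranspose, dotProduct_mulVec, vecMul_vecMul, hU',
        vecMul_one]
    have h' := congrArg Complex.re h
    simpa [dotProduct, Complex.normSq_apply, Complex.re_sum, Complex.mul_re] using h'
  have e : Sval d c M u = Sval d c (diagonal fun i => (hM.eigenvalues i : ℂ)) (Uᴴ *ᵥ u) := by
    conv_rhs => rw [← Sval_conj hU, mulVec_mulVec, hU', one_mulVec, ← hMU]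
  rw [e, ← hns]
  refine abs_Sval_diag_le d c B _ _ fun i j => hB _ ?_
  constructor <;> simp only [ang] <;>
    nlinarith [(hspec i).1, (hspec i).2, (hspec j).1, (hspec j).2, Real.pi_pos]

/-! ### Derivatives along a curve -/

/-- Entrywise derivative of a matrix-valued curve. -/
def HasEDeriv (A : ℝ → Matrix (Fin N) (Fin N) ℂ) (A' : Matrix (Fin N) (Fin N) ℂ) (x : ℝ) : Prop :=
  ∀ i j, HasDerivAt (fun y => A y i j) (A' i j) x

theorem HasEDeriv.Tm {A X : ℝ → Matrix (Fin N) (Fin N) ℂ} {A' X' : Matrix (Fin N) (Fin N) ℂ}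
    {x : ℝ} (hA : HasEDeriv A A' x) (hX : HasEDeriv X X' x) :
    HasEDeriv (fun y => P371.Tm (A y) (X y)) (P371.Tm A' (X x) + P371.Tm (A x) X') x := by
  intro i j
  simp only [P371.Tm, Matrix.smul_apply, Matrix.add_apply, Matrix.mul_apply, smul_eq_mul]
  refine (((HasDerivAt.fun_sum fun l _ => (hA i l).fun_mul (hX l j)).fun_add
    (HasDerivAt.fun_sum fun l _ => (hX i l).fun_mul (hA l j))).const_mul _).congr_deriv ?_
  simp only [Finset.sum_add_distrib]
  ring

theorem hasEDeriv_Tk {A Q : ℝ → Matrix (Fin N) (Fin N) ℂ} {Qd : Matrix (Fin N) (Fin N) ℂ} {x : ℝ}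
    (hA : HasEDeriv A (Q x) x) (hQ : HasEDeriv Q Qd x) (k : ℕ) :
    HasEDeriv (fun y => Tk (A y) (Q y) k) (dTk (A x) (Q x) Qd k) x := by
  induction k with
  | zero => exact hQ
  | succ k ih => exact hA.Tm ih

theorem hasDerivAt_Sval {d : ℕ} {c : ℕ → ℝ} {A : ℝ → Matrix (Fin N) (Fin N) ℂ}
    {u : ℝ → Fin N → ℂ} {v : Fin N → ℂ} {x : ℝ}
    (hA : HasEDeriv A (outer (u x) (u x)) x)
    (hu : ∀ i, HasDerivAt (fun y => u y i) (v i) x) :
    HasDerivAt (fun y => Sval d c (A y) (u y)) (dSval d c (A x) (u x) v) x := by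
  have hQ : HasEDeriv (fun y => outer (u y) (u y)) (outer v (u x) + outer (u x) v) x := by
    intro i j
    simp only [Matrix.add_apply, outer_apply]
    exact ((hu i).fun_mul (hu j).star).congr_deriv (by ring)
  have hP : ∀ i j, HasDerivAt (fun y => PQ d c (A y) (u y) i j) (dPQ d c (A x) (u x) v i j) x := by
    intro i j
    simp only [PQ, dPQ, Matrix.sum_apply, Matrix.smul_apply, smul_eq_mul]
    exact HasDerivAt.fun_sum fun k _ => (hasEDeriv_Tk hA hQ k i j).const_mul (c k : ℂ)
  unfold Sval dSval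
  simp only [star_dot_mulVec, ← Finset.sum_add_distrib]
  refine HasDerivAt.const_mul _ ?_
  have h : HasDerivAt (fun y => ∑ i, ∑ j, star (u y i) * (PQ d c (A y) (u y) i j * u y j))
      (∑ i, ∑ j, (star (v i) * (PQ d c (A x) (u x) i j * u x j)
        + star (u x i) * (dPQ d c (A x) (u x) v i j * u x j)
        + star (u x i) * (PQ d c (A x) (u x) i j * v j))) x := by
    refine HasDerivAt.fun_sum fun i _ => HasDerivAt.fun_sum fun j _ => ?_
    exact ((hu i).star.fun_mul ((hP i j).fun_mul (hu j))).congr_deriv (by ring)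
  exact Complex.reCLM.hasFDerivAt.comp_hasDerivAt x h

/-! ### The inequality -/

/-- `normSq` of an `L²` function is integrable. -/
theorem integrable_normSq {f : ℝ → ℂ} (hf : MemLp f 2 volume) :
    Integrable (fun x => Complex.normSq (f x)) := by
  simpa [Complex.normSq_eq_norm_sq] using hf.integrable_norm_pow (p := 2) (by norm_num)

/-- A product of two `L²` functions is integrable. -/
theorem integrable_mul_conj {f g : ℝ → ℂ} (hf : MemLp f 2 volume) (hg : MemLp g 2 volume) :
    Integrable (fun x => f x * conj (g x)) :=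
  hf.integrable_mul hg.star

theorem hasDerivAt_Iic_integral {f : ℝ → ℂ} (hf : Continuous f) (hi : Integrable f) (x : ℝ) :
    HasDerivAt (fun y => ∫ t in Set.Iic y, f t) (f x) x := by
  have he : (fun y => ∫ t in Set.Iic y, f t)
      = fun y => (∫ t in Set.Iic (0 : ℝ), f t) + ∫ t in (0 : ℝ)..y, f t := by
    funext y
    rw [← intervalIntegral.integral_Iic_sub_Iic hi.integrableOn hi.integrableOn]
    abel
  rw [he]
  exact (intervalIntegral.integral_hasDerivAt_right hi.intervalIntegrable
    hf.aestronglyMeasurable.stronglyMeasurableAtFilter hf.continuousAt).const_add _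

/-- The sharp kinetic inequality. -/
theorem kinetic {N : ℕ} (u v : ℝ → Fin N → ℂ)
    (hu : ∀ x i, HasDerivAt (fun y => u y i) (v x i) x)
    (hv : ∀ i, Continuous fun x => v x i)
    (hu2 : ∀ i, MemLp (fun x => u x i) 2 volume) (hv2 : ∀ i, MemLp (fun x => v x i) 2 volume)
    (horth : ∀ i j, ∫ x, conj (u x i) * u x j = if i = j then 1 else 0) :
    Integrable (fun x => (∑ i, Complex.normSq (u x i)) ^ 3) ∧
      π ^ 2 / 4 * ∫ x, (∑ i, Complex.normSq (u x i)) ^ 3
        ≤ ∑ i, ∫ x, Complex.normSq (v x i) := by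
  have _ := hv
  have huc : ∀ i, Continuous fun x => u x i := fun i =>
    continuous_iff_continuousAt.2 fun x => (hu x i).continuousAt
  set R : ℝ → ℝ := fun x => ∑ i, Complex.normSq (u x i) with hR
  have hR0 : ∀ x, 0 ≤ R x := fun x => Finset.sum_nonneg fun i _ => Complex.normSq_nonneg _
  have hRc : Continuous R :=
    continuous_finsetSum _ fun i _ => Complex.continuous_normSq.comp (huc i)
  have hRi : Integrable R := integrable_finsetSum _ fun i _ => integrable_normSq (hu2 i)
  -- the derivative of `R`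
  set R' : ℝ → ℝ := fun x => ∑ i, (2 * (v x i * conj (u x i)).re) with hR'
  have hRd : ∀ x, HasDerivAt R (R' x) x := by
    intro x
    refine HasDerivAt.fun_sum fun i _ => ?_
    have h := Complex.reCLM.hasFDerivAt.comp_hasDerivAt x ((hu x i).fun_mul (hu x i).star)
    have e : (fun y => Complex.normSq (u y i)) = Complex.reCLM ∘ fun y => u y i * star (u y i) := by
      funext y; simp [Complex.normSq_apply, Complex.mul_re]
    rw [e]
    refine h.congr_deriv ?_
    simp [Complex.mul_re]; ring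
  have hR'i : Integrable R' :=
    integrable_finsetSum _ fun i _ => (integrable_mul_conj (hv2 i) (hu2 i)).re.const_mul 2
  have htop : Tendsto R atTop (𝓝 0) :=
    tendsto_zero_of_hasDerivAt_of_integrableOn_Ioi (a := 0) (fun x _ => hRd x) hR'i.integrableOn
      hRi.integrableOn
  have hbot : Tendsto R atBot (𝓝 0) :=
    tendsto_zero_of_hasDerivAt_of_integrableOn_Iic (a := 0) (fun x _ => hRd x) hR'i.integrableOn
      hRi.integrableOn
  obtain ⟨C, hC⟩ : ∃ C, ∀ x, R x ≤ C := by
    obtain ⟨a, ha⟩ := (hbot.eventually_le_const zero_lt_one).exists_forall_of_atBot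
    obtain ⟨b, hb⟩ := (htop.eventually_le_const zero_lt_one).exists_forall_of_atTop
    obtain ⟨C, hC⟩ := (isCompact_Icc (a := a) (b := b)).exists_bound_of_continuousOn hRc.continuousOn
    refine ⟨max 1 C, fun x => ?_⟩
    by_cases h1 : x ≤ a
    · exact (ha x h1).trans (le_max_left _ _)
    by_cases h2 : b ≤ x
    · exact (hb x h2).trans (le_max_left _ _)
    · have := hC x ⟨(not_le.1 h1).le, (not_le.1 h2).le⟩
      exact ((le_abs_self _).trans this).trans (le_max_right _ _)
  have hR3 : Integrable fun x => R x ^ 3 := by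
    refine (hRi.const_mul (C ^ 2)).mono' (hRc.pow 3).aestronglyMeasurable
      (Eventually.of_forall fun x => ?_)
    rw [Real.norm_eq_abs, abs_of_nonneg (pow_nonneg (hR0 x) 3)]
    calc R x ^ 3 = R x ^ 2 * R x := by ring
      _ ≤ C ^ 2 * R x := mul_le_mul_of_nonneg_right (pow_le_pow_left₀ (hR0 x) (hC x) 2) (hR0 x)
  refine ⟨hR3, ?_⟩
  -- the Gram matrix of the tails
  set G : ℝ → Matrix (Fin N) (Fin N) ℂ :=
    fun x => Matrix.of fun i j => ∫ t in Set.Iic x, u t i * conj (u t j) with hG
  have hint : ∀ i j, Integrable fun t => u t i * conj (u t j) := fun i j =>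
    integrable_mul_conj (hu2 i) (hu2 j)
  have hGd : ∀ x i j, HasDerivAt (fun y => G y i j) (u x i * conj (u x j)) x := fun x i j =>
    hasDerivAt_Iic_integral ((huc i).mul (Complex.continuous_conj.comp (huc j))) (hint i j) x
  have hGh : ∀ x, (G x).IsHermitian := by
    intro x
    refine Matrix.IsHermitian.ext fun i j => ?_
    simp only [hG, Matrix.of_apply]
    rw [Complex.star_def, ← integral_conj]
    refine integral_congr_ae (Eventually.of_forall fun t => ?_)
    simp [mul_comm]
  -- quadratic form of `G`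
  have hquad : ∀ x (a : Fin N → ℂ), 0 ≤ (star a ⬝ᵥ (G x *ᵥ a)).re ∧
      (star a ⬝ᵥ (G x *ᵥ a)).re ≤ ∑ i, Complex.normSq (a i) := by
    intro x a
    set φ : ℝ → ℂ := fun t => ∑ i, star (a i) * u t i with hφ
    have hφ2 : ∀ t, φ t * conj (φ t) = ∑ i, ∑ j, star (a i) * (u t i * conj (u t j) * a j) := by
      intro t
      simp only [hφ, map_sum, map_mul, Finset.sum_mul_sum, Complex.star_def, Complex.conj_conj]
      exact Finset.sum_congr rfl fun i _ => Finset.sum_congr rfl fun j _ => by ring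
    have hterm : ∀ i j, Integrable fun t => star (a i) * (u t i * conj (u t j) * a j) := fun i j =>
      ((hint i j).mul_const (a j)).const_mul _
    have hφi : Integrable fun t => φ t * conj (φ t) := by
      simp only [hφ2]
      exact integrable_finsetSum _ fun i _ => integrable_finsetSum _ fun j _ => hterm i j
    have e : ∀ s : Set ℝ, ∫ t in s, φ t * conj (φ t)
        = ∑ i, ∑ j, star (a i) * ((∫ t in s, u t i * conj (u t j)) * a j) := by
      intro s
      simp only [hφ2]
      rw [integral_finsetSum _ fun i _ =>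
        integrable_finsetSum _ fun j _ => (hterm i j).integrableOn]
      refine Finset.sum_congr rfl fun i _ => ?_
      rw [integral_finsetSum _ fun j _ => (hterm i j).integrableOn]
      refine Finset.sum_congr rfl fun j _ => ?_
      rw [integral_const_mul, integral_mul_const]
    have hre : ∀ s : Set ℝ, (∫ t in s, φ t * conj (φ t)).re = ∫ t in s, Complex.normSq (φ t) := by
      intro s
      simp only [Complex.mul_conj]
      rw [integral_complex_ofReal, Complex.ofReal_re]
    have hni : Integrable fun t => Complex.normSq (φ t) := by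
      have := hφi.re
      simpa [Complex.mul_conj] using this
    have hx : star a ⬝ᵥ (G x *ᵥ a) = ∫ t in Set.Iic x, φ t * conj (φ t) := by
      rw [star_dot_mulVec, e]; rfl
    refine ⟨?_, ?_⟩
    · rw [hx, hre]
      exact setIntegral_nonneg measurableSet_Iic fun t _ => Complex.normSq_nonneg _
    · rw [hx, hre]
      refine (setIntegral_le_integral hni (Eventually.of_forall fun t => Complex.normSq_nonneg _)).trans ?_
      rw [← setIntegral_univ, ← hre, e]
      simp only [setIntegral_univ]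
      have horth' : ∀ i j, ∫ t, u t i * conj (u t j) = if i = j then 1 else 0 := by
        intro i j
        rw [show (if i = j then (1 : ℂ) else 0) = if j = i then 1 else 0 by simp [eq_comm],
          ← horth j i]
        simp only [mul_comm]
      simp only [horth', ite_mul, one_mul, zero_mul, mul_ite, mul_zero, Finset.sum_ite_eq,
        Finset.mem_univ, if_true, star_mul_self_eq, Complex.re_sum, Complex.ofReal_re, le_refl]
  -- for each `δ`, `η`
  have key : ∀ δ ∈ Set.Ioo (0 : ℝ) (1 / 2), ∀ η > (0 : ℝ),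
      π ^ 2 / 4 * (1 - η) * (1 - 2 * δ) ^ 2 * ∫ x, R x ^ 3
        ≤ ∑ i, ∫ x, Complex.normSq (v x i) := by
    intro δ hδ η hη
    obtain ⟨d, c, B, hB, hker⟩ := exists_kernel_poly (δ := π * δ) (η := η)
      (mul_pos Real.pi_pos hδ.1) (by nlinarith [hδ.2, Real.pi_pos]) hη
    set κ : ℝ := 1 - 2 * δ with hκ
    have hκ0 : 0 < κ := by linarith [hδ.2]
    set r : ℝ := Real.sqrt κ
    have hrr : r * r = κ := Real.mul_self_sqrt hκ0.le
    have hrC : (r : ℂ) * r = (κ : ℂ) := by rw [← Complex.ofReal_mul, hrr]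
    set U : ℝ → Fin N → ℂ := fun x i => (r : ℂ) * u x i with hU
    set A : ℝ → Matrix (Fin N) (Fin N) ℂ :=
      fun x => (κ : ℂ) • G x + (δ : ℂ) • 1 with hA
    have hAh : ∀ x, (A x).IsHermitian := by
      intro x
      refine IsHermitian.add ?_ ?_
      · unfold Matrix.IsHermitian
        rw [conjTranspose_smul, (hGh x).eq]; simp
      · unfold Matrix.IsHermitian
        rw [conjTranspose_smul, conjTranspose_one]; simp
    have hspec : ∀ x i, (hAh x).eigenvalues i ∈ Set.Icc δ (1 - δ) := by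
      intro x i
      set a : Fin N → ℂ := ⇑((hAh x).eigenvectorBasis i)
      have hn : ∑ k, Complex.normSq (a k) = 1 := by
        have h := (hAh x).eigenvectorBasis.orthonormal.1 i
        have h2 : ‖(hAh x).eigenvectorBasis i‖ ^ 2 = 1 := by rw [h, one_pow]
        rw [EuclideanSpace.norm_sq_eq] at h2
        simpa [Complex.normSq_eq_norm_sq] using h2
      have he := (hAh x).eigenvalues_eq i
      have hq : (star a ⬝ᵥ (A x *ᵥ a)).re = κ * (star a ⬝ᵥ (G x *ᵥ a)).re + δ := by
        simp only [hA, Matrix.add_mulVec, Matrix.smul_mulVec, Matrix.one_mulVec, dotProduct_add,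
          dotProduct_smul, Complex.add_re, smul_eq_mul, Complex.re_ofReal_mul]
        congr 1
        rw [show (star a ⬝ᵥ a).re = ∑ k, Complex.normSq (a k) by
          simp [dotProduct, Complex.re_sum, Complex.normSq_apply, Complex.mul_re], hn, mul_one]
      have hg := hquad x a
      rw [hn] at hg
      rw [show (hAh x).eigenvalues i = (star a ⬝ᵥ (A x *ᵥ a)).re from he, hq]
      constructor <;> nlinarith [hg.1, hg.2]
    have hNS : ∀ (w : ℝ → Fin N → ℂ) x,
        ∑ i, Complex.normSq ((r : ℂ) * w x i) = κ * ∑ i, Complex.normSq (w x i) := by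
      intro w x
      simp [Complex.normSq_mul, Complex.normSq_ofReal, hrr, Finset.mul_sum]
    set V : ℝ → ℝ := fun x => ∑ i, Complex.normSq (v x i) with hV
    set g : ℝ → ℝ := fun x => κ * V x - π ^ 2 / 4 * (1 - η) * κ ^ 3 * R x ^ 3 with hg
    set S : ℝ → ℝ := fun x => Sval d c (A x) (U x) with hS
    have hSd : ∀ x, HasDerivAt S (dSval d c (A x) (U x) fun i => (r : ℂ) * v x i) x := by
      intro x
      refine hasDerivAt_Sval (fun i j => ?_) fun i => (hu x i).const_mul (r : ℂ)
      simp only [hA, Matrix.add_apply, Matrix.smul_apply, smul_eq_mul, outer_apply, hU,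
        Complex.star_def, map_mul, Complex.conj_ofReal]
      refine (((hGd x i j).const_mul (κ : ℂ)).add_const _).congr_deriv ?_
      rw [← hrC]; ring
    have hSle : ∀ x, dSval d c (A x) (U x) (fun i => (r : ℂ) * v x i) ≤ g x := by
      intro x
      refine (dSval_le hker (hAh x) (hspec x) _ _).trans (le_of_eq ?_)
      rw [hNS v x, hNS u x]
      simp only [hg, hV, hR]; ring
    have hSb : ∀ x, |S x| ≤ π / 4 * B * κ ^ 2 * R x ^ 2 := by
      intro x
      refine (abs_Sval_le hB (hAh x) (hspec x) _).trans (le_of_eq ?_)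
      rw [hNS u x]
      simp only [hR]; ring
    have hVi : Integrable V := integrable_finsetSum _ fun i _ => integrable_normSq (hv2 i)
    have hgi : Integrable g := (hVi.const_mul κ).sub (hR3.const_mul _)
    have hVc : Continuous V :=
      continuous_finsetSum _ fun i _ => Complex.continuous_normSq.comp (hv i)
    have hgc : Continuous g := (continuous_const.mul hVc).sub (continuous_const.mul (hRc.pow 3))
    set F : ℝ → ℝ := fun x => (∫ t in (0 : ℝ)..x, g t) - S x with hF
    have hFd : ∀ x, HasDerivAt F (g x - dSval d c (A x) (U x) fun i => (r : ℂ) * v x i) x :=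
      fun x => (intervalIntegral.integral_hasDerivAt_right (hgc.intervalIntegrable _ _)
        hgc.aestronglyMeasurable.stronglyMeasurableAtFilter hgc.continuousAt).fun_sub (hSd x)
    have hmono : Monotone F :=
      monotone_of_hasDerivAt_nonneg hFd fun x => sub_nonneg.2 (hSle x)
    have hS0 : ∀ l : Filter ℝ, Tendsto R l (𝓝 0) → Tendsto S l (𝓝 0) := by
      intro l hl
      refine squeeze_zero_norm (a := fun x => π / 4 * B * κ ^ 2 * R x ^ 2)
        (fun x => by rw [Real.norm_eq_abs]; exact hSb x) ?_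
      simpa using (hl.pow 2).const_mul (π / 4 * B * κ ^ 2)
    have hlim : Tendsto (fun T : ℝ => F T - F (-T)) atTop (𝓝 (∫ x, g x)) := by
      have h1 := intervalIntegral_tendsto_integral hgi tendsto_neg_atTop_atBot tendsto_id
      have h2 : Tendsto (fun T : ℝ => S T - S (-T)) atTop (𝓝 0) := by
        simpa using (hS0 _ htop).sub ((hS0 _ hbot).comp tendsto_neg_atTop_atBot)
      have h3 := h1.sub h2
      rw [sub_zero] at h3
      refine h3.congr fun T => ?_
      simp only [hF, id]
      rw [← intervalIntegral.integral_interval_sub_left (a := (0 : ℝ))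
        (hgc.intervalIntegrable _ _) (hgc.intervalIntegrable _ _)]
      ring
    have hnn : 0 ≤ ∫ x, g x := ge_of_tendsto hlim
      ((eventually_ge_atTop (0 : ℝ)).mono fun T hT => sub_nonneg.2 (hmono (by linarith)))
    rw [hg, integral_sub (hVi.const_mul κ) (hR3.const_mul _), integral_const_mul, integral_const_mul,
      hV, integral_finsetSum _ fun i _ => integrable_normSq (hv2 i)] at hnn
    have h4 : κ * (π ^ 2 / 4 * (1 - η) * κ ^ 2 * ∫ x, R x ^ 3)
        ≤ κ * ∑ i, ∫ x, Complex.normSq (v x i) := by nlinarith [hnn]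
    exact le_of_mul_le_mul_left h4 hκ0
  -- let `δ, η → 0`
  have hlim : Tendsto (fun e : ℝ => π ^ 2 / 4 * (1 - e) * (1 - 2 * e) ^ 2 * ∫ x, R x ^ 3)
      (𝓝[>] 0) (𝓝 (π ^ 2 / 4 * ∫ x, R x ^ 3)) := by
    have : Continuous fun e : ℝ => π ^ 2 / 4 * (1 - e) * (1 - 2 * e) ^ 2 * ∫ x, R x ^ 3 := by
      fun_prop
    simpa using (this.tendsto 0).mono_left nhdsWithin_le_nhds
  refine le_of_tendsto hlim ?_
  filter_upwards [Ioo_mem_nhdsGT (by norm_num : (0 : ℝ) < 1 / 2)] with e he
  exact key e he e he.1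

end Vale.Agent.P371
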