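import Vale.Agent.P371.Calib

/-!
# P371: the calibration for matrix potentials

`U` is `N × m`, `Q = U Uᴴ`, `M' = Q`; the calibration is `(π/4) tr (Q · p(T_M) Q)`.
-/

namespace Vale.Agent.P371

open Matrix Real Finset

variable {N m : ℕ}

/-- `p(T_M) Q`. -/
noncomputable def mP (d : ℕ) (c : ℕ → ℝ) (M Q : Matrix (Fin N) (Fin N) ℂ) :
    Matrix (Fin N) (Fin N) ℂ :=
  ∑ k ∈ range d, (c k : ℂ) • Tk M Q k

/-- The derivative of `mP`. -/
noncomputable def mdP (d : ℕ) (c : ℕ → ℝ) (M Q Qd : Matrix (Fin N) (Fin N) ℂ) :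
    Matrix (Fin N) (Fin N) ℂ :=
  ∑ k ∈ range d, (c k : ℂ) • dTk M Q Qd k

/-- The derivative of `U Uᴴ` along `U' = V`. -/
noncomputable def mQd (U V : Matrix (Fin N) (Fin m) ℂ) : Matrix (Fin N) (Fin N) ℂ :=
  V * Uᴴ + U * Vᴴ

/-- The matrix calibration. -/
noncomputable def mS (d : ℕ) (c : ℕ → ℝ) (M : Matrix (Fin N) (Fin N) ℂ)
    (U : Matrix (Fin N) (Fin m) ℂ) : ℝ :=
  π / 4 * (U * Uᴴ * mP d c M (U * Uᴴ)).trace.re

/-- Its derivative along `M' = U Uᴴ`, `U' = V`. -/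
noncomputable def mdS (d : ℕ) (c : ℕ → ℝ) (M : Matrix (Fin N) (Fin N) ℂ)
    (U V : Matrix (Fin N) (Fin m) ℂ) : ℝ :=
  π / 4 * (mQd U V * mP d c M (U * Uᴴ)
    + U * Uᴴ * mdP d c M (U * Uᴴ) (mQd U V)).trace.re

/-- `∑ |U_ia|²`. -/
def mfrob (U : Matrix (Fin N) (Fin m) ℂ) : ℝ := ∑ i, ∑ a, Complex.normSq (U i a)

theorem mfrob_nonneg (U : Matrix (Fin N) (Fin m) ℂ) : 0 ≤ mfrob U :=
  Finset.sum_nonneg fun _ _ => Finset.sum_nonneg fun _ _ => Complex.normSq_nonneg _

theorem mfrob_eq_trace (U : Matrix (Fin N) (Fin m) ℂ) : mfrob U = (Uᴴ * U).trace.re := by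
  simp only [mfrob, Matrix.trace, Matrix.diag, Matrix.mul_apply, Complex.re_sum, conjTranspose_apply]
  rw [Finset.sum_comm]
  exact Finset.sum_congr rfl fun a _ => Finset.sum_congr rfl fun i _ => by
    rw [star_mul_self_eq, Complex.ofReal_re]

theorem norm_gram_le (U : Matrix (Fin N) (Fin m) ℂ) (i j : Fin N) :
    ‖(U * Uᴴ) i j‖ ≤ mfrob U := by
  have hrow : ∀ i, ∑ a, ‖U i a‖ ^ 2 ≤ mfrob U := fun i => by
    simp only [mfrob, Complex.normSq_eq_norm_sq]
    exact Finset.single_le_sum (f := fun i => ∑ a, ‖U i a‖ ^ 2)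
      (fun i _ => Finset.sum_nonneg fun _ _ => by positivity) (Finset.mem_univ i)
  rw [Matrix.mul_apply]
  refine (norm_sum_le _ _).trans ?_
  calc ∑ a, ‖U i a * (Uᴴ) a j‖ ≤ ∑ a, (‖U i a‖ ^ 2 + ‖U j a‖ ^ 2) / 2 := by
        refine Finset.sum_le_sum fun a _ => ?_
        rw [norm_mul, conjTranspose_apply, norm_star]
        nlinarith [sq_nonneg (‖U i a‖ - ‖U j a‖)]
    _ ≤ mfrob U := by
        rw [← Finset.sum_div, Finset.sum_add_distrib]
        linarith [hrow i, hrow j]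

/-! ### Covariance -/

theorem mP_conj {R : Matrix (Fin N) (Fin N) ℂ} (hR : Rᴴ * R = 1) (d : ℕ) (c : ℕ → ℝ)
    (M Q : Matrix (Fin N) (Fin N) ℂ) :
    mP d c (R * M * Rᴴ) (R * Q * Rᴴ) = R * mP d c M Q * Rᴴ := by
  simp only [mP, Tk_conj hR, Matrix.mul_sum, Matrix.sum_mul, Matrix.mul_smul, Matrix.smul_mul]

theorem mdP_conj {R : Matrix (Fin N) (Fin N) ℂ} (hR : Rᴴ * R = 1) (d : ℕ) (c : ℕ → ℝ)
    (M Q Qd : Matrix (Fin N) (Fin N) ℂ) :
    mdP d c (R * M * Rᴴ) (R * Q * Rᴴ) (R * Qd * Rᴴ) = R * mdP d c M Q Qd * Rᴴ := by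
  simp only [mdP, dTk_conj hR, Matrix.mul_sum, Matrix.sum_mul, Matrix.mul_smul, Matrix.smul_mul]

theorem gram_conj (R : Matrix (Fin N) (Fin N) ℂ) (U V : Matrix (Fin N) (Fin m) ℂ) :
    R * U * (R * V)ᴴ = R * (U * Vᴴ) * Rᴴ := by
  simp only [conjTranspose_mul, Matrix.mul_assoc]

theorem mQd_conj (R : Matrix (Fin N) (Fin N) ℂ) (U V : Matrix (Fin N) (Fin m) ℂ) :
    mQd (R * U) (R * V) = R * mQd U V * Rᴴ := by
  simp only [mQd, gram_conj, Matrix.mul_add, Matrix.add_mul]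

theorem trace_conj_two {R : Matrix (Fin N) (Fin N) ℂ} (hR : Rᴴ * R = 1)
    (A B : Matrix (Fin N) (Fin N) ℂ) :
    (R * A * Rᴴ * (R * B * Rᴴ)).trace = (A * B).trace := by
  rw [show R * A * Rᴴ * (R * B * Rᴴ) = R * A * (Rᴴ * R) * (B * Rᴴ) by simp only [Matrix.mul_assoc],
    hR, Matrix.mul_one, Matrix.mul_assoc, Matrix.trace_mul_comm, Matrix.mul_assoc,
    Matrix.mul_assoc, hR, Matrix.mul_one]

theorem mS_conj {R : Matrix (Fin N) (Fin N) ℂ} (hR : Rᴴ * R = 1) (d : ℕ) (c : ℕ → ℝ)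
    (M : Matrix (Fin N) (Fin N) ℂ) (U : Matrix (Fin N) (Fin m) ℂ) :
    mS d c (R * M * Rᴴ) (R * U) = mS d c M U := by
  simp only [mS, gram_conj, mP_conj hR, trace_conj_two hR]

theorem mdS_conj {R : Matrix (Fin N) (Fin N) ℂ} (hR : Rᴴ * R = 1) (d : ℕ) (c : ℕ → ℝ)
    (M : Matrix (Fin N) (Fin N) ℂ) (U V : Matrix (Fin N) (Fin m) ℂ) :
    mdS d c (R * M * Rᴴ) (R * U) (R * V) = mdS d c M U V := by
  simp only [mdS, gram_conj, mQd_conj, mP_conj hR, mdP_conj hR, Matrix.trace_add,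
    trace_conj_two hR]

/-! ### Evaluation at a diagonal matrix -/

theorem mP_diag (d : ℕ) (c : ℕ → ℝ) (μ : Fin N → ℝ) (Q : Matrix (Fin N) (Fin N) ℂ) (i j : Fin N) :
    mP d c (diagonal fun i => (μ i : ℂ)) Q i j = (pol d c (ang μ i j) : ℂ) * Q i j := by
  simp only [mP, Matrix.sum_apply, Matrix.smul_apply, Tk_diag, smul_eq_mul, pol]
  push_cast
  rw [Finset.sum_mul]
  exact Finset.sum_congr rfl fun k _ => by ring

theorem mdP_diag (d : ℕ) (c : ℕ → ℝ) (μ : Fin N → ℝ) (Q Qd : Matrix (Fin N) (Fin N) ℂ)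
    (i j : Fin N) :
    mdP d c (diagonal fun i => (μ i : ℂ)) Q Qd i j
      = (pol d c (ang μ i j) : ℂ) * Qd i j
        + ∑ l, (((π / 2 * (dd d c (ang μ l j) (ang μ i j) + dd d c (ang μ i l) (ang μ i j))) : ℝ) : ℂ)
            * (Q i l * Q l j) := by
  simp only [mdP, Matrix.sum_apply, Matrix.smul_apply, dTk_diag, smul_eq_mul, mul_add,
    Finset.sum_add_distrib, Finset.mul_sum, pol, dd]
  push_cast
  simp only [Finset.sum_mul, ← Finset.sum_add_distrib, mul_add, add_mul]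
  rw [Finset.sum_comm (t := range d) (s := (Finset.univ : Finset (Fin N)))]
  simp only [← Finset.sum_add_distrib]
  refine Finset.sum_congr rfl fun k _ => ?_
  congr 1
  · ring
  · exact Finset.sum_congr rfl fun l _ => by ring

theorem gram_star (U : Matrix (Fin N) (Fin m) ℂ) (i j : Fin N) :
    star ((U * Uᴴ) i j) = (U * Uᴴ) j i :=
  (isHermitian_mul_conjTranspose_self U).apply j i

/-- The triangle `Q_il Q_lj Q_ji`. -/
def tri (Q : Matrix (Fin N) (Fin N) ℂ) (i l j : Fin N) : ℂ := Q i l * Q l j * Q j i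

theorem mdS_diag (d : ℕ) (c : ℕ → ℝ) (μ : Fin N → ℝ) (U V : Matrix (Fin N) (Fin m) ℂ) :
    mdS d c (diagonal fun i => (μ i : ℂ)) U V
      = π * (Vᴴ * (mP d c (diagonal fun i => (μ i : ℂ)) (U * Uᴴ) * U)).trace.re
        + π ^ 2 / 4 * ∑ i, ∑ l, ∑ j,
            (tri (U * Uᴴ) i l j).re * dd d c (ang μ l j) (ang μ i j) := by
  set D : Matrix (Fin N) (Fin N) ℂ := diagonal fun i => (μ i : ℂ) with hD
  set Q : Matrix (Fin N) (Fin N) ℂ := U * Uᴴ with hQ
  set A : Matrix (Fin N) (Fin N) ℂ := mP d c D Q with hA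
  have hAh : Aᴴ = A := by
    ext i j
    rw [conjTranspose_apply, hA, hD, mP_diag, mP_diag, star_mul', hQ, gram_star, ang_comm μ j i]
    simp
  have h1 : (mQd U V * A).trace.re = 2 * (Vᴴ * (A * U)).trace.re := by
    have ha : (U * Vᴴ * A).trace = (Vᴴ * (A * U)).trace := by
      rw [Matrix.mul_assoc, Matrix.trace_mul_comm, Matrix.mul_assoc]
    have hb : (V * Uᴴ * A).trace = star (Vᴴ * (A * U)).trace := by
      rw [← Matrix.trace_conjTranspose, conjTranspose_mul, conjTranspose_mul,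
        conjTranspose_conjTranspose, hAh, Matrix.mul_assoc, Matrix.trace_mul_comm]
    rw [mQd, Matrix.add_mul, Matrix.trace_add, ha, hb, Complex.add_re, Complex.star_def,
      Complex.conj_re]
    ring
  have h2 : (Q * mdP d c D Q (mQd U V)).trace
      = (mQd U V * A).trace + ∑ i, ∑ j, ∑ l,
          (((π / 2 * (dd d c (ang μ l j) (ang μ i j) + dd d c (ang μ i l) (ang μ i j))) : ℝ) : ℂ)
            * tri Q i l j := by
    simp only [Matrix.trace, Matrix.diag, Matrix.mul_apply, hA, hD, mdP_diag, mP_diag, mul_add,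
      Finset.sum_add_distrib, Finset.mul_sum, tri]
    congr 1
    · rw [Finset.sum_comm]
      exact Finset.sum_congr rfl fun i _ => Finset.sum_congr rfl fun j _ => by
        rw [ang_comm μ j i]; ring
    · rw [Finset.sum_comm]
      exact Finset.sum_congr rfl fun i _ => Finset.sum_congr rfl fun j _ =>
        Finset.sum_congr rfl fun l _ => by ring
  have h3 : ∑ i, ∑ j, ∑ l, (tri Q i l j).re * dd d c (ang μ i l) (ang μ i j)
      = ∑ i, ∑ l, ∑ j, (tri Q i l j).re * dd d c (ang μ l j) (ang μ i j) := by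
    rw [Finset.sum_comm]
    refine Finset.sum_congr rfl fun a _ => ?_
    rw [Finset.sum_comm]
    refine Finset.sum_congr rfl fun b _ => Finset.sum_congr rfl fun e _ => ?_
    have : (tri Q e b a).re = (tri Q a b e).re := by
      rw [← Complex.conj_re, tri, tri, map_mul, map_mul, ← Complex.star_def, hQ, gram_star,
        gram_star, gram_star]
      ring_nf
    rw [this, ang_comm μ e b, ang_comm μ e a]
  have h4 : ∑ i, ∑ j, ∑ l, (tri Q i l j).re * dd d c (ang μ l j) (ang μ i j)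
      = ∑ i, ∑ l, ∑ j, (tri Q i l j).re * dd d c (ang μ l j) (ang μ i j) :=
    Finset.sum_congr rfl fun i _ => Finset.sum_comm
  rw [mdS, Matrix.trace_add, h2, Complex.add_re, Complex.add_re, h1]
  simp only [Complex.re_sum, Complex.re_ofReal_mul, mul_add, add_mul, Finset.sum_add_distrib,
    mul_assoc, mul_comm (dd d c _ _), ← Finset.mul_sum]
  rw [h3, h4]
  ring

/-- The calibration inequality at a diagonal matrix. -/
theorem mdS_diag_le (d : ℕ) (c : ℕ → ℝ) (E : ℝ) (μ : Fin N → ℝ) (U V : Matrix (Fin N) (Fin m) ℂ)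
    (hker : ∑ i, ∑ l, ∑ j, (tri (U * Uᴴ) i l j).re
        * (dd d c (ang μ l j) (ang μ i j) + pol d c (ang μ i j) * pol d c (ang μ l j) + 1) ≤ E) :
    mdS d c (diagonal fun i => (μ i : ℂ)) U V
      ≤ mfrob V - π ^ 2 / 4 * ((U * Uᴴ * (U * Uᴴ) * (U * Uᴴ)).trace.re - E) := by
  rw [mdS_diag]
  set D : Matrix (Fin N) (Fin N) ℂ := diagonal fun i => (μ i : ℂ) with hD
  set Q : Matrix (Fin N) (Fin N) ℂ := U * Uᴴ with hQ
  set A : Matrix (Fin N) (Fin N) ℂ := mP d c D Q with hA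
  have hAh : Aᴴ = A := by
    ext i j
    rw [conjTranspose_apply, hA, hD, mP_diag, mP_diag, star_mul', hQ, gram_star, ang_comm μ j i]
    simp
  have hsq : π * (Vᴴ * (A * U)).trace.re
      ≤ mfrob V + π ^ 2 / 4 * (Q * A * A).trace.re := by
    have h := mfrob_nonneg (V - ((π / 2 : ℝ) : ℂ) • (A * U))
    rw [mfrob_eq_trace, conjTranspose_sub, conjTranspose_smul, Complex.star_def,
      Complex.conj_ofReal, Matrix.mul_sub, Matrix.sub_mul, Matrix.sub_mul] at h
    simp only [Matrix.smul_mul, Matrix.mul_smul, Matrix.trace_sub, Matrix.trace_smul, smul_eq_mul,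
      Complex.sub_re, Complex.re_ofReal_mul] at h
    have e1 : ((A * U)ᴴ * V).trace.re = (Vᴴ * (A * U)).trace.re := by
      rw [show (A * U)ᴴ * V = (Vᴴ * (A * U))ᴴ by rw [conjTranspose_mul (Vᴴ),
        conjTranspose_conjTranspose], Matrix.trace_conjTranspose, Complex.star_def, Complex.conj_re]
    have e2 : ((A * U)ᴴ * (A * U)).trace = (Q * A * A).trace := by
      rw [conjTranspose_mul, hAh, hQ,
        show Uᴴ * A * (A * U) = Uᴴ * (A * A * U) by simp only [Matrix.mul_assoc],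
        Matrix.trace_mul_comm, Matrix.mul_assoc (A * A), Matrix.trace_mul_comm, ← Matrix.mul_assoc]
    rw [e1, e2, ← mfrob_eq_trace V] at h
    nlinarith [h]
  have hAA : (Q * A * A).trace.re
      = ∑ i, ∑ l, ∑ j, (tri Q i l j).re * (pol d c (ang μ i j) * pol d c (ang μ l j)) := by
    simp only [Matrix.trace, Matrix.diag, Matrix.mul_apply, hA, hD, mP_diag, Finset.sum_mul,
      Complex.re_sum]
    refine Finset.sum_congr rfl fun i _ => ?_
    rw [Finset.sum_comm]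
    refine Finset.sum_congr rfl fun l _ => Finset.sum_congr rfl fun j _ => ?_
    rw [ang_comm μ j i, show Q i l * ((pol d c (ang μ l j) : ℂ) * Q l j)
        * ((pol d c (ang μ i j) : ℂ) * Q j i)
      = ((pol d c (ang μ i j) * pol d c (ang μ l j) : ℝ) : ℂ) * tri Q i l j by
        rw [tri]; push_cast; ring, Complex.re_ofReal_mul]
    ring
  have hQQ : (Q * Q * Q).trace.re = ∑ i, ∑ l, ∑ j, (tri Q i l j).re := by
    simp only [Matrix.trace, Matrix.diag, Matrix.mul_apply, Finset.sum_mul, Complex.re_sum, tri]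
    exact Finset.sum_congr rfl fun i _ => Finset.sum_comm
  simp only [mul_add, mul_one, Finset.sum_add_distrib] at hker
  rw [← hAA, ← hQQ] at hker
  have := mul_le_mul_of_nonneg_left hker (by positivity : (0 : ℝ) ≤ π ^ 2 / 4)
  nlinarith [hsq, this]

/-- The bound on the calibration at a diagonal matrix. -/
theorem abs_mS_diag_le (d : ℕ) (c : ℕ → ℝ) (B : ℝ) (μ : Fin N → ℝ) (U : Matrix (Fin N) (Fin m) ℂ)
    (hB : ∀ i j, |pol d c (ang μ i j)| ≤ B) :
    |mS d c (diagonal fun i => (μ i : ℂ)) U| ≤ π / 4 * ((N : ℝ) ^ 2 * B) * mfrob U ^ 2 := by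
  rw [mS, abs_mul, abs_of_pos (by positivity : (0 : ℝ) < π / 4), mul_assoc (π / 4)]
  refine mul_le_mul_of_nonneg_left ?_ (by positivity)
  refine (Complex.abs_re_le_norm _).trans ?_
  simp only [Matrix.trace, Matrix.diag, Matrix.mul_apply]
  refine (norm_sum_le _ _).trans ?_
  calc ∑ i, ‖∑ j, (U * Uᴴ) i j * mP d c (diagonal fun i => (μ i : ℂ)) (U * Uᴴ) j i‖
      ≤ ∑ _i : Fin N, ∑ _j : Fin N, mfrob U * (B * mfrob U) := by
        refine Finset.sum_le_sum fun i _ => (norm_sum_le _ _).trans ?_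
        refine Finset.sum_le_sum fun j _ => ?_
        rw [norm_mul, mP_diag, norm_mul, Complex.norm_real, Real.norm_eq_abs]
        exact mul_le_mul (norm_gram_le U i j)
          (mul_le_mul (hB j i) (norm_gram_le U j i) (norm_nonneg _) ((abs_nonneg _).trans (hB j i)))
          (by positivity) (mfrob_nonneg U)
    _ = _ := by
        simp only [Finset.sum_const, Finset.card_univ, Fintype.card_fin, nsmul_eq_mul]; ring

end Vale.Agent.P371
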