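import Vale.Agent.P371.Defs

/-!
P371: negative eigenvalues of `-d²/dx² - W` for matrix potentials `W`.
-/

namespace Vale.Agent.P371

open MeasureTheory Matrix
open scoped ComplexConjugate ComplexOrder

/-- `tr A^(3/2)`: the sum of the `3/2` powers of the eigenvalues of a Hermitian matrix. -/
noncomputable def trPow {m : ℕ} (A : Matrix (Fin m) (Fin m) ℂ) : ℝ :=
  if h : A.IsHermitian then ∑ i, h.eigenvalues i ^ (3 / 2 : ℝ) else 0

/-- A vector function all of whose components are `IsH1`. -/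
def IsH1V {m : ℕ} (f f' : ℝ → Fin m → ℂ) : Prop :=
  ∀ a, IsH1 (fun x => f x a) (fun x => f' x a)

/-- An `m × m` matrix potential for the exponent `γ = 1`. -/
def IsMPotential {m : ℕ} (W : ℝ → Matrix (Fin m) (Fin m) ℂ) : Prop :=
  (∀ a b, Measurable fun x => W x a b) ∧ (∀ x, (W x).PosSemidef) ∧
    Integrable (fun x => trPow (W x)) volume

/-- `f` solves `-f'' - W f = lam f` in the sense of the quadratic form. -/
def IsMEigenfunction {m : ℕ} (W : ℝ → Matrix (Fin m) (Fin m) ℂ) (lam : ℝ)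
    (f : ℝ → Fin m → ℂ) : Prop :=
  ∃ f' : ℝ → Fin m → ℂ, IsH1V f f' ∧ ∀ g g' : ℝ → Fin m → ℂ, IsH1V g g' →
    (∫ x, ∑ a, conj (g' x a) * f' x a) - (∫ x, ∑ a, conj (g x a) * (W x *ᵥ f x) a)
      = (lam : ℂ) * ∫ x, ∑ a, conj (g x a) * f x a

/-- Sums `∑ |λ_j|` over `N` orthonormal eigenfunctions with negative eigenvalues. -/
def mNegEigenSums {m : ℕ} (W : ℝ → Matrix (Fin m) (Fin m) ℂ) (N : ℕ) : Set ℝ :=
  {r | ∃ (lam : Fin N → ℝ) (f : Fin N → ℝ → Fin m → ℂ),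
    (∀ i, lam i < 0 ∧ IsMEigenfunction W (lam i) (f i)) ∧
    (∀ i j, ∫ x, ∑ a, conj (f i x a) * f j x a = if i = j then 1 else 0) ∧
    r = ∑ i, |lam i|}

/-- Lieb-Thirring ratios at `γ = 1` for `m × m` matrix potentials. -/
def mLtRatios (m : ℕ) : Set ℝ :=
  {r | ∃ W : ℝ → Matrix (Fin m) (Fin m) ℂ, IsMPotential W ∧ 0 < (∫ x, trPow (W x)) ∧
    ∃ N, ∃ s ∈ mNegEigenSums W N, r = s / ∫ x, trPow (W x)}

end Vale.Agent.P371
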