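import Vale.Agent.P371.Duality

/-!
P371: the potential `(3/4)/cosh²` has one negative eigenvalue `-1/4` reaching the sharp constant.
-/

namespace Vale.Agent.P371

open MeasureTheory Filter
open scoped ComplexConjugate Topology

/-- The optimising potential. -/
noncomputable def optW (x : ℝ) : ℝ := 3 / 4 / Real.cosh x ^ 2

/-- Its real ground state. -/
noncomputable def gs (x : ℝ) : ℝ := (Real.sqrt (Real.pi * Real.cosh x))⁻¹

/-- The derivative of the ground state. -/
noncomputable def gs1 (x : ℝ) : ℝ := -(Real.sinh x / (2 * Real.cosh x)) * gs x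

/-- The second derivative of the ground state. -/
noncomputable def gs2 (x : ℝ) : ℝ := (1 / 4 - optW x) * gs x

lemma cosh_lower (x : ℝ) : (1 + x ^ 2) / 4 ≤ Real.cosh x := by
  have h := Real.quadratic_le_exp_of_nonneg (abs_nonneg x)
  rw [← Real.cosh_abs, Real.cosh_eq]
  have h1 := Real.exp_pos (-|x|)
  nlinarith [abs_nonneg x, sq_abs x]

lemma inv_cosh_le (x : ℝ) : 1 / Real.cosh x ≤ 4 * (1 + x ^ 2)⁻¹ := by
  have h := cosh_lower x
  have hc := Real.cosh_pos x
  have : 0 < 1 + x ^ 2 := by positivity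
  rw [← div_eq_mul_inv, div_le_div_iff₀ hc this]
  linarith

lemma gs_hasDerivAt (x : ℝ) : HasDerivAt gs (gs1 x) x := by
  have hc := Real.cosh_pos x
  have hpos : 0 < Real.pi * Real.cosh x := mul_pos Real.pi_pos hc
  have h := (((Real.hasDerivAt_cosh x).const_mul Real.pi).sqrt hpos.ne').inv
    (Real.sqrt_pos.mpr hpos).ne'
  refine h.congr_deriv ?_
  have hs : 0 < Real.sqrt (Real.pi * Real.cosh x) := Real.sqrt_pos.mpr hpos
  have hq : Real.sqrt (Real.pi * Real.cosh x) * Real.sqrt (Real.pi * Real.cosh x)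
      = Real.pi * Real.cosh x := Real.mul_self_sqrt hpos.le
  unfold gs1 gs
  field_simp
  linear_combination (Real.sinh x) * hq

lemma gs1_hasDerivAt (x : ℝ) : HasDerivAt gs1 (gs2 x) x := by
  have hc := (Real.cosh_pos x).ne'
  have h := (((Real.hasDerivAt_sinh x).div ((Real.hasDerivAt_cosh x).const_mul 2)
    (mul_ne_zero two_ne_zero hc)).neg).mul (gs_hasDerivAt x)
  refine h.congr_deriv ?_
  simp only [Pi.neg_apply, Pi.div_apply]
  unfold gs1 gs2 optW
  field_simp
  linear_combination (-12 * gs x) * Real.cosh_sq_sub_sinh_sq x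

lemma continuous_gs : Continuous gs :=
  continuous_iff_continuousAt.mpr fun x => (gs_hasDerivAt x).continuousAt

lemma continuous_gs1 : Continuous gs1 :=
  continuous_iff_continuousAt.mpr fun x => (gs1_hasDerivAt x).continuousAt

lemma continuous_optW : Continuous optW :=
  continuous_const.div (Real.continuous_cosh.pow 2) fun x => pow_ne_zero _ (Real.cosh_pos x).ne'

lemma continuous_gs2 : Continuous gs2 := (continuous_const.sub continuous_optW).mul continuous_gs

lemma gs_sq (x : ℝ) : gs x ^ 2 = Real.pi⁻¹ * (1 / Real.cosh x) := by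
  have hpos : 0 < Real.pi * Real.cosh x := mul_pos Real.pi_pos (Real.cosh_pos x)
  rw [gs, inv_pow, Real.sq_sqrt hpos.le, mul_inv, one_div]

lemma integrable_sech : Integrable (fun x : ℝ => 1 / Real.cosh x) volume := by
  refine (integrable_inv_one_add_sq.const_mul 4).mono'
    (continuous_const.div Real.continuous_cosh fun x => (Real.cosh_pos x).ne').aestronglyMeasurable
    (Eventually.of_forall fun x => ?_)
  rw [Real.norm_of_nonneg (by have := Real.cosh_pos x; positivity)]
  exact inv_cosh_le x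

lemma memLp_gs : MemLp gs 2 volume := by
  rw [memLp_two_iff_integrable_sq continuous_gs.aestronglyMeasurable]
  simp only [gs_sq]
  exact integrable_sech.const_mul _

lemma memLp_of_bounded {c : ℝ → ℝ} (hc : Continuous c) {C : ℝ} (hb : ∀ x, |c x| ≤ C) :
    MemLp (fun x => c x * gs x) 2 volume := by
  refine MemLp.of_le_mul (c := C) memLp_gs (hc.mul continuous_gs).aestronglyMeasurable
    (Eventually.of_forall fun x => ?_)
  rw [Real.norm_eq_abs, Real.norm_eq_abs, abs_mul]
  exact mul_le_mul_of_nonneg_right (hb x) (abs_nonneg _)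

lemma optW_bounds (x : ℝ) : 0 ≤ optW x ∧ optW x ≤ 3 / 4 := by
  have h1 : 1 ≤ Real.cosh x ^ 2 := one_le_pow₀ (Real.one_le_cosh x)
  refine ⟨by unfold optW; positivity, ?_⟩
  exact div_le_self (by norm_num) h1

lemma memLp_gs1 : MemLp gs1 2 volume := by
  refine memLp_of_bounded (C := 1) ((Real.continuous_sinh.div (continuous_const.mul
    Real.continuous_cosh) fun x => mul_ne_zero two_ne_zero (Real.cosh_pos x).ne').neg) fun x => ?_
  have hc := Real.cosh_pos x
  have h := Real.cosh_sq_sub_sinh_sq x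
  rw [abs_neg, abs_div, abs_of_pos (by positivity : 0 < 2 * Real.cosh x),
    div_le_one (by positivity)]
  nlinarith [sq_abs (Real.sinh x), abs_nonneg (Real.sinh x)]

lemma memLp_gs2 : MemLp gs2 2 volume := by
  refine memLp_of_bounded (C := 1) (continuous_const.sub continuous_optW) fun x => ?_
  obtain ⟨h0, h1⟩ := optW_bounds x
  rw [abs_le]; constructor <;> linarith

lemma tendsto_sinh_atTop' : Tendsto Real.sinh atTop atTop :=
  tendsto_atTop_mono' _ ((eventually_ge_atTop 0).mono fun x hx => Real.self_le_sinh_iff.mpr hx)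
    tendsto_id

lemma tendsto_sinh_atBot' : Tendsto Real.sinh atBot atBot := by
  have h := (tendsto_neg_atTop_atBot.comp (tendsto_sinh_atTop'.comp tendsto_neg_atBot_atTop))
  simpa [Function.comp_def] using h

lemma integral_sech : ∫ x : ℝ, 1 / Real.cosh x = Real.pi := by
  rw [integral_of_hasDerivAt_of_tendsto (f := fun x => Real.arctan (Real.sinh x))
    (m := -(Real.pi / 2)) (n := Real.pi / 2) (fun x => ?_) integrable_sech
    ((tendsto_nhds_of_tendsto_nhdsWithin Real.tendsto_arctan_atBot).comp tendsto_sinh_atBot')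
    ((tendsto_nhds_of_tendsto_nhdsWithin Real.tendsto_arctan_atTop).comp tendsto_sinh_atTop')]
  · ring
  · refine (Real.hasDerivAt_sinh x).arctan.congr_deriv ?_
    have hc := (Real.cosh_pos x).ne'
    have h := Real.cosh_sq_sub_sinh_sq x
    rw [show 1 + Real.sinh x ^ 2 = Real.cosh x ^ 2 by linarith]
    field_simp

lemma integrable_sech3 : Integrable (fun x : ℝ => 1 / Real.cosh x ^ 3) volume := by
  refine integrable_sech.mono'
    (continuous_const.div (Real.continuous_cosh.pow 3)
      fun x => pow_ne_zero _ (Real.cosh_pos x).ne').aestronglyMeasurable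
    (Eventually.of_forall fun x => ?_)
  have hc := Real.cosh_pos x
  rw [Real.norm_of_nonneg (by positivity)]
  exact one_div_le_one_div_of_le hc (le_self_pow₀ (Real.one_le_cosh x) three_ne_zero)

lemma integral_sech3 : ∫ x : ℝ, 1 / Real.cosh x ^ 3 = Real.pi / 2 := by
  have hsmall : ∀ l : Filter ℝ, Tendsto (fun x : ℝ => |x|) l atTop →
      Tendsto (fun x : ℝ => Real.sinh x / Real.cosh x ^ 2) l (𝓝 0) := by
    intro l hl
    have hz : Tendsto (fun x : ℝ => 4 * (1 + x ^ 2)⁻¹) l (𝓝 0) := by
      have h2 : Tendsto (fun x : ℝ => 1 + x ^ 2) l atTop := by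
        refine tendsto_atTop_mono (fun x => ?_) hl
        nlinarith [sq_abs x, sq_nonneg (|x| - 1)]
      simpa using (tendsto_inv_atTop_zero.comp h2).const_mul (4 : ℝ)
    refine squeeze_zero_norm (fun x => ?_) hz
    have hc := Real.cosh_pos x
    refine le_trans ?_ (inv_cosh_le x)
    rw [Real.norm_eq_abs, abs_div, abs_of_pos (by positivity : 0 < Real.cosh x ^ 2),
      div_le_div_iff₀ (by positivity) hc]
    have h := Real.cosh_sq_sub_sinh_sq x
    have : |Real.sinh x| ≤ Real.cosh x := by
      nlinarith [sq_abs (Real.sinh x), abs_nonneg (Real.sinh x)]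
    nlinarith
  have hbot : Tendsto (fun x : ℝ => (Real.sinh x / Real.cosh x ^ 2 + Real.arctan (Real.sinh x)) / 2)
      atBot (𝓝 ((0 + -(Real.pi / 2)) / 2)) :=
    (((hsmall _ tendsto_abs_atBot_atTop).add
      ((tendsto_nhds_of_tendsto_nhdsWithin Real.tendsto_arctan_atBot).comp tendsto_sinh_atBot'))).div_const 2
  have htop : Tendsto (fun x : ℝ => (Real.sinh x / Real.cosh x ^ 2 + Real.arctan (Real.sinh x)) / 2)
      atTop (𝓝 ((0 + Real.pi / 2) / 2)) :=
    (((hsmall _ tendsto_abs_atTop_atTop).add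
      ((tendsto_nhds_of_tendsto_nhdsWithin Real.tendsto_arctan_atTop).comp tendsto_sinh_atTop'))).div_const 2
  rw [integral_of_hasDerivAt_of_tendsto (fun x => ?_) integrable_sech3 hbot htop]
  · ring
  · have hc := (Real.cosh_pos x).ne'
    have h := Real.cosh_sq_sub_sinh_sq x
    have hd := (((Real.hasDerivAt_sinh x).div ((Real.hasDerivAt_cosh x).pow 2)
      (pow_ne_zero _ hc)).add (Real.hasDerivAt_sinh x).arctan).div_const 2
    refine hd.congr_deriv ?_
    rw [show 1 + Real.sinh x ^ 2 = Real.cosh x ^ 2 by linarith]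
    simp only [Pi.pow_apply]
    field_simp
    linear_combination (2 * Real.cosh x) * h

lemma optW_rpow (x : ℝ) :
    optW x ^ (3 / 2 : ℝ) = 3 * Real.sqrt 3 / 8 * (1 / Real.cosh x ^ 3) := by
  have hc := Real.cosh_pos x
  have h3 : Real.sqrt 3 * Real.sqrt 3 = 3 := Real.mul_self_sqrt (by norm_num)
  have e : optW x = (Real.sqrt 3 / (2 * Real.cosh x)) ^ 2 := by
    rw [div_pow, sq (Real.sqrt 3), h3, optW]; ring
  rw [e, ← Real.rpow_natCast _ 2, ← Real.rpow_mul (by positivity)]
  norm_num
  field_simp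
  linear_combination (8 : ℝ) * h3

lemma optW_isPotential : IsPotential optW := by
  refine ⟨continuous_optW.measurable, fun x => (optW_bounds x).1, ?_⟩
  simp only [optW_rpow]
  exact integrable_sech3.const_mul _

lemma integral_optW : ∫ x, optW x ^ (3 / 2 : ℝ) = 3 * Real.sqrt 3 * Real.pi / 16 := by
  simp only [optW_rpow]
  rw [integral_const_mul, integral_sech3]; ring

lemma isH1_gs : IsH1 (fun x => (gs x : ℂ)) (fun x => (gs1 x : ℂ)) :=
  ⟨fun x => (gs_hasDerivAt x).ofReal_comp, Complex.continuous_ofReal.comp continuous_gs1,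
    memLp_gs.ofReal, memLp_gs1.ofReal⟩

lemma gs_isEigenfunction : IsEigenfunction optW (-(1 / 4)) (fun x => (gs x : ℂ)) := by
  refine ⟨_, isH1_gs, fun g g' hg => ?_⟩
  obtain ⟨hgd, hgc, hg2, hg'2⟩ := hg
  have hA : Integrable (fun x => conj (g x) * (gs2 x : ℂ)) volume :=
    MemLp.integrable_mul (hg2.star) (memLp_gs2.ofReal (K := ℂ))
  have hB : Integrable (fun x => conj (g' x) * (gs1 x : ℂ)) volume :=
    MemLp.integrable_mul (hg'2.star) (memLp_gs1.ofReal (K := ℂ))
  have hC : Integrable (fun x => conj (g x) * (gs1 x : ℂ)) volume :=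
    MemLp.integrable_mul (hg2.star) (memLp_gs1.ofReal (K := ℂ))
  have hD : Integrable (fun x => conj (g x) * (gs x : ℂ)) volume :=
    MemLp.integrable_mul (hg2.star) (memLp_gs.ofReal (K := ℂ))
  have hd : ∀ x, HasDerivAt (fun y => conj (g y)) (conj (g' x)) x := fun x => (hgd x).star
  have hparts : ∫ x, conj (g x) * (gs2 x : ℂ) = -∫ x, conj (g' x) * (gs1 x : ℂ) :=
    integral_mul_deriv_eq_deriv_mul_of_integrable (fun x _ => hd x)
      (fun x _ => (gs1_hasDerivAt x).ofReal_comp) hA hB hC
  have e : (fun x => (optW x : ℂ) * (conj (g x) * (gs x : ℂ)))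
      = fun x => (1 / 4 : ℂ) * (conj (g x) * (gs x : ℂ)) - conj (g x) * (gs2 x : ℂ) := by
    funext x; simp only [gs2]; push_cast; ring
  rw [e, integral_sub (hD.const_mul _) hA, integral_const_mul, hparts]
  push_cast; ring

/-- The sharp value is attained by a single eigenvalue. -/
theorem ltConst_mem_oneStateRatios : ltConst ∈ oneStateRatios := by
  have h3 : Real.sqrt 3 * Real.sqrt 3 = 3 := Real.mul_self_sqrt (by norm_num)
  refine ⟨optW, optW_isPotential, by rw [integral_optW]; positivity, 1 / 4,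
    ⟨fun _ => -(1 / 4), fun _ x => (gs x : ℂ), fun i => ⟨by norm_num, gs_isEigenfunction⟩,
      fun i j => ?_, by norm_num⟩, ?_⟩
  · have e : (fun x => conj (gs x : ℂ) * (gs x : ℂ))
        = fun x => ((Real.pi⁻¹ * (1 / Real.cosh x) : ℝ) : ℂ) := by
      funext x; rw [Complex.conj_ofReal, ← Complex.ofReal_mul, ← sq, gs_sq]
    rw [if_pos (Subsingleton.elim i j), e, integral_complex_ofReal, integral_const_mul,
      integral_sech, inv_mul_cancel₀ Real.pi_ne_zero, Complex.ofReal_one]
  · rw [integral_optW, ltConst]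
    have hs : 0 < Real.sqrt 3 := Real.sqrt_pos.mpr (by norm_num)
    field_simp
    ring

end Vale.Agent.P371
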