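import Vale.Agent.P371.MDefs
import Vale.Agent.P371.Optimizer

/-!
P371: from the matrix kinetic inequality to the sharp constant for matrix potentials.
-/

namespace Vale.Agent.P371

open MeasureTheory Matrix
open scoped ComplexConjugate ComplexOrder

/-- The kinetic inequality for orthonormal vector-valued families. -/
def MKineticBound (m : ℕ) : Prop :=
  ∀ (N : ℕ) (U V : ℝ → Matrix (Fin N) (Fin m) ℂ),
    (∀ x i a, HasDerivAt (fun y => U y i a) (V x i a) x) →
    (∀ i a, Continuous fun x => V x i a) →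
    (∀ i a, MemLp (fun x => U x i a) 2 volume) → (∀ i a, MemLp (fun x => V x i a) 2 volume) →
    (∀ i j, (∫ x, (U x * (U x)ᴴ) i j) = if i = j then 1 else 0) →
    Integrable (fun x => ((U x * (U x)ᴴ) ^ 3).trace.re) volume ∧
      Real.pi ^ 2 / 4 * (∫ x, ((U x * (U x)ᴴ) ^ 3).trace.re)
        ≤ ∑ i, ∑ a, ∫ x, Complex.normSq (V x i a)

variable {m : ℕ}

lemma unitary_diag_form {A : Matrix (Fin m) (Fin m) ℂ} (hA : A.IsHermitian) :
    ∃ U : Matrix (Fin m) (Fin m) ℂ, Uᴴ * U = 1 ∧ U * Uᴴ = 1 ∧
      A = U * diagonal (fun i => (hA.eigenvalues i : ℂ)) * Uᴴ := by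
  refine ⟨(hA.eigenvectorUnitary : Matrix _ _ ℂ), ?_, ?_, ?_⟩
  · exact Matrix.mem_unitaryGroup_iff'.1 hA.eigenvectorUnitary.2
  · exact Matrix.mem_unitaryGroup_iff.1 hA.eigenvectorUnitary.2
  · conv_lhs => rw [hA.spectral_theorem, Unitary.conjStarAlgAut_apply, star_eq_conjTranspose]
    rfl

/-- The pointwise matrix Young inequality. -/
lemma mYoung {A R : Matrix (Fin m) (Fin m) ℂ} (hA : A.PosSemidef) (hR : R.PosSemidef) :
    (A * R).trace.re ≤ Real.pi ^ 2 / 4 * (R ^ 3).trace.re + ltConst * trPow A := by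
  obtain ⟨U, hU, hU', hAU⟩ := unitary_diag_form hA.isHermitian
  obtain ⟨V, hV, hV', hRV⟩ := unitary_diag_form hR.isHermitian
  set a := hA.isHermitian.eigenvalues with ha
  set r := hR.isHermitian.eigenvalues with hr
  have ha0 : ∀ i, 0 ≤ a i := hA.eigenvalues_nonneg
  have hr0 : ∀ i, 0 ≤ r i := hR.eigenvalues_nonneg
  set S := Uᴴ * V with hS
  have hS1 : S * Sᴴ = 1 := by
    simp only [hS, conjTranspose_mul, conjTranspose_conjTranspose]
    rw [Matrix.mul_assoc, ← Matrix.mul_assoc V, hV', Matrix.one_mul, hU]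
  have hS2 : Sᴴ * S = 1 := mul_eq_one_comm.1 hS1
  have htr : (A * R).trace = ∑ k, ∑ l, ((a k * r l * Complex.normSq (S k l) : ℝ) : ℂ) := by
    have e : (A * R).trace
        = (diagonal (fun i => (a i : ℂ)) * (S * diagonal (fun i => (r i : ℂ)) * Sᴴ)).trace := by
      rw [hAU, hRV, hS, conjTranspose_mul, conjTranspose_conjTranspose]
      rw [Matrix.trace_mul_comm (diagonal _) _]
      simp only [Matrix.mul_assoc]
      rw [Matrix.trace_mul_comm U]
      simp only [Matrix.mul_assoc]
      rw [Matrix.trace_mul_comm (diagonal fun i => (a i : ℂ))]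
      simp only [Matrix.mul_assoc]
    rw [e]
    simp only [Matrix.trace, diag, diagonal_mul]
    refine Finset.sum_congr rfl fun k _ => ?_
    rw [Matrix.mul_apply, Finset.mul_sum]
    refine Finset.sum_congr rfl fun l _ => ?_
    rw [Matrix.mul_diagonal, conjTranspose_apply]
    rw [Complex.ofReal_mul, Complex.ofReal_mul, Complex.normSq_eq_conj_mul_self]
    simp only [Complex.star_def]
    ring
  have hrow : ∀ k, ∑ l, Complex.normSq (S k l) = 1 := fun k => by
    have h := congrFun (congrFun hS1 k) k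
    simp only [mul_apply, conjTranspose_apply, one_apply_eq, Complex.star_def, Complex.mul_conj] at h
    exact_mod_cast h
  have hcol : ∀ l, ∑ k, Complex.normSq (S k l) = 1 := fun l => by
    have h := congrFun (congrFun hS2 l) l
    simp only [mul_apply, conjTranspose_apply, one_apply_eq, Complex.star_def,
      ← Complex.normSq_eq_conj_mul_self] at h
    exact_mod_cast h
  have hcube : (R ^ 3).trace.re = ∑ l, r l ^ 3 := by
    have e : R ^ 3 = V * diagonal (fun i => (r i : ℂ)) ^ 3 * Vᴴ := by
      rw [hRV, pow_three, pow_three]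
      simp only [Matrix.mul_assoc]
      rw [← Matrix.mul_assoc Vᴴ V, hV, Matrix.one_mul, ← Matrix.mul_assoc Vᴴ V, hV, Matrix.one_mul]
    rw [e, Matrix.trace_mul_cycle, hV, Matrix.one_mul, diagonal_pow, trace_diagonal, Complex.re_sum]
    refine Finset.sum_congr rfl fun l _ => ?_
    simp [← Complex.ofReal_pow]
  rw [htr, hcube, trPow, dif_pos hA.isHermitian]
  simp only [Complex.re_sum, Complex.ofReal_re]
  calc ∑ k, ∑ l, a k * r l * Complex.normSq (S k l)
      ≤ ∑ k, ∑ l, (Real.pi ^ 2 / 4 * r l ^ 3 + ltConst * a k ^ (3 / 2 : ℝ)) *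
          Complex.normSq (S k l) :=
        Finset.sum_le_sum fun k _ => Finset.sum_le_sum fun l _ =>
          mul_le_mul_of_nonneg_right (young (ha0 k) (hr0 l)) (Complex.normSq_nonneg _)
    _ = Real.pi ^ 2 / 4 * ∑ l, r l ^ 3 + ltConst * ∑ k, a k ^ (3 / 2 : ℝ) := by
        simp only [add_mul, Finset.sum_add_distrib]
        congr 1
        · rw [Finset.sum_comm, Finset.mul_sum]
          refine Finset.sum_congr rfl fun l _ => ?_
          rw [← Finset.mul_sum, hcol l, mul_one]
        · rw [Finset.mul_sum]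
          refine Finset.sum_congr rfl fun k _ => ?_
          rw [← Finset.mul_sum, hrow k, mul_one]

/-- The variational bound for matrix potentials. -/
theorem m_variational_bound (hK : MKineticBound m) {W : ℝ → Matrix (Fin m) (Fin m) ℂ}
    (hW : IsMPotential W) {N : ℕ} (f f' : Fin N → ℝ → Fin m → ℂ)
    (hf : ∀ i, IsH1V (f i) (f' i))
    (horth : ∀ i j, ∫ x, ∑ a, conj (f i x a) * f j x a = if i = j then 1 else 0) :
    (∀ i, Integrable (fun x => ∑ a, conj (f i x a) * (W x *ᵥ f i x) a) volume) ∧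
    ∑ i, ((∫ x, ∑ a, conj (f i x a) * (W x *ᵥ f i x) a).re
      - ∫ x, ∑ a, Complex.normSq (f' i x a)) ≤ ltConst * ∫ x, trPow (W x) := by
  obtain ⟨hWm, hW0, hWi⟩ := hW
  set U : ℝ → Matrix (Fin N) (Fin m) ℂ := fun x => Matrix.of fun i a => conj (f i x a) with hU
  obtain ⟨hint, hkin⟩ := hK N U (fun x => Matrix.of fun i a => conj (f' i x a))
    (fun x i a => ((hf i a).1 x).star)
    (fun i a => Complex.continuous_conj.comp (hf i a).2.1)
    (fun i a => (hf i a).2.2.1.star) (fun i a => (hf i a).2.2.2.star)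
    (fun i j => by
      simpa [hU, mul_apply, conjTranspose_apply] using horth i j)
  simp only [of_apply, Complex.normSq_conj] at hkin
  set q : Fin N → ℝ → ℂ := fun i x => ∑ a, conj (f i x a) * (W x *ᵥ f i x) a with hq
  have hq0 : ∀ i x, 0 ≤ q i x := fun i x => by
    simpa [hq, dotProduct] using (hW0 x).dotProduct_mulVec_nonneg (f i x)
  have hsum : ∀ x, ∑ i, q i x = (W x * ((U x)ᴴ * U x)).trace := fun x => by
    simp only [hq, hU, Matrix.trace, diag, mul_apply, mulVec, dotProduct, conjTranspose_apply,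
      of_apply, Complex.star_def, Complex.conj_conj, Finset.mul_sum]
    rw [Finset.sum_comm]
    refine Finset.sum_congr rfl fun a _ => ?_
    rw [Finset.sum_comm]
    refine Finset.sum_congr rfl fun b _ => Finset.sum_congr rfl fun i _ => ?_
    ring
  have hcyc : ∀ x, (((U x)ᴴ * U x) ^ 3).trace = ((U x * (U x)ᴴ) ^ 3).trace := fun x => by
    simp only [pow_three, Matrix.mul_assoc]
    rw [Matrix.trace_mul_comm]
    simp only [Matrix.mul_assoc]
  have hpt : ∀ x, (∑ i, q i x).re
      ≤ Real.pi ^ 2 / 4 * ((U x * (U x)ᴴ) ^ 3).trace.re + ltConst * trPow (W x) := fun x => by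
    rw [hsum, ← hcyc]
    exact mYoung (hW0 x) (posSemidef_conjTranspose_mul_self _)
  have hdom : Integrable (fun x => Real.pi ^ 2 / 4 * ((U x * (U x)ᴴ) ^ 3).trace.re
      + ltConst * trPow (W x)) volume := (hint.const_mul _).add (hWi.const_mul _)
  have hqm : ∀ i, AEStronglyMeasurable (q i) volume := fun i => by
    simp only [hq, mulVec, dotProduct]
    exact Finset.aestronglyMeasurable_fun_sum Finset.univ fun a _ =>
      (hf i a).2.2.1.1.star.mul (Finset.aestronglyMeasurable_fun_sum Finset.univ fun b _ =>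
        (hWm a b).aestronglyMeasurable.mul (hf i b).2.2.1.1)
  have hqi : ∀ i, Integrable (q i) volume := fun i => by
    refine hdom.mono' (hqm i) (Filter.Eventually.of_forall fun x => ?_)
    rw [← Complex.re_eq_norm.mpr (hq0 i x)]
    refine le_trans (le_of_le_of_eq (Finset.single_le_sum (f := fun j => (q j x).re)
      (fun j _ => (Complex.le_def.1 (hq0 j x)).1) (Finset.mem_univ i)) (Complex.re_sum _ _).symm)
      (hpt x)
  refine ⟨hqi, ?_⟩
  have h1 : ∑ i, (∫ x, q i x).re ≤ Real.pi ^ 2 / 4 * (∫ x, ((U x * (U x)ᴴ) ^ 3).trace.re)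
      + ltConst * ∫ x, trPow (W x) := by
    rw [← Complex.re_sum, ← integral_finsetSum _ fun i _ => hqi i]
    have hs : Integrable (fun x => ∑ i, q i x) volume := integrable_finsetSum _ fun i _ => hqi i
    rw [show (∫ x, ∑ i, q i x).re = ∫ x, (∑ i, q i x).re from (integral_re hs).symm,
      ← integral_const_mul, ← integral_const_mul,
      ← integral_add (hint.const_mul _) (hWi.const_mul _)]
    exact integral_mono hs.re hdom hpt
  have h2 : ∀ i, ∫ x, ∑ a, Complex.normSq (f' i x a) = ∑ a, ∫ x, Complex.normSq (f' i x a) :=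
    fun i => integral_finsetSum _ fun a _ => integrable_normSq (hf i a).2.2.2
  rw [Finset.sum_sub_distrib]
  simp only [h2]
  linarith

/-- The bound on every sum of negative eigenvalues of a matrix potential. -/
theorem mNegEigenSums_le (hK : MKineticBound m) {W : ℝ → Matrix (Fin m) (Fin m) ℂ}
    (hW : IsMPotential W) {N : ℕ} {r : ℝ} (hr : r ∈ mNegEigenSums W N) :
    r ≤ ltConst * ∫ x, trPow (W x) := by
  obtain ⟨lam, f, hlf, horth, rfl⟩ := hr
  choose f' hH1 hweak using fun i => (hlf i).2
  obtain ⟨hint, hb⟩ := m_variational_bound hK hW f f' hH1 horth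
  refine le_trans (le_of_eq ?_) hb
  refine Finset.sum_congr rfl fun i _ => ?_
  have h := hweak i (f i) (f' i) (hH1 i)
  have e1 : (fun x => ∑ a, conj (f' i x a) * f' i x a)
      = fun x => ((∑ a, Complex.normSq (f' i x a) : ℝ) : ℂ) := by
    funext x; push_cast; simp only [Complex.normSq_eq_conj_mul_self]
  have hn : ∫ x, ∑ a, conj (f i x a) * f i x a = 1 := by simpa using horth i i
  rw [hn, mul_one, e1, integral_complex_ofReal] at h
  have h' := congrArg Complex.re h
  simp only [Complex.sub_re, Complex.ofReal_re] at h'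
  rw [abs_of_neg (hlf i).1]
  linarith

lemma trPow_diag (d : Fin m → ℝ) :
    trPow (diagonal fun a => (d a : ℂ)) = ∑ a, d a ^ (3 / 2 : ℝ) := by
  have hH : (diagonal fun a => (d a : ℂ)).IsHermitian := by
    ext i j
    by_cases h : i = j
    · subst h; simp
    · simp [h, Ne.symm h]
  rw [trPow, dif_pos hH]
  have h := hH.roots_charpoly_eq_eigenvalues
  have h2 : (diagonal fun a => (d a : ℂ)).charpoly.roots
      = Finset.univ.val.map fun a => (d a : ℂ) := by
    rw [charpoly_diagonal, Finset.prod_eq_multiset_prod,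
      show (Finset.univ.val.map fun a => Polynomial.X - Polynomial.C (d a : ℂ)) =
        ((Finset.univ.val.map fun a => (d a : ℂ)).map fun z => Polynomial.X - Polynomial.C z) from by
          rw [Multiset.map_map]; rfl, Polynomial.roots_multiset_prod_X_sub_C]
  rw [h2] at h
  have h3 := congrArg (fun s : Multiset ℂ => (s.map fun z => z.re ^ (3 / 2 : ℝ)).sum) h
  simp only [Multiset.map_map, Function.comp_def] at h3
  simpa [Finset.sum_eq_multiset_sum] using h3.symm

/-- `L_1(m) = L_1(1) = 4/(3√3π)` for every `m ≥ 1`, given the kinetic inequality. -/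
theorem m_sharp_of_kinetic (hm : 1 ≤ m) (hK : MKineticBound m) :
    IsLUB (mLtRatios m) ltConst := by
  refine ⟨?_, fun b hb => ?_⟩
  · rintro r ⟨W, hW, hpos, N, s, hs, rfl⟩
    rw [div_le_iff₀ hpos]
    exact mNegEigenSums_le hK hW hs
  apply hb
  obtain ⟨a₀⟩ : Nonempty (Fin m) := ⟨⟨0, hm⟩⟩
  set d : ℝ → Fin m → ℝ := fun x a => if a = a₀ then optW x else 0 with hd
  set W : ℝ → Matrix (Fin m) (Fin m) ℂ := fun x => diagonal fun a => (d x a : ℂ) with hW
  have hd0 : ∀ x a, 0 ≤ d x a := fun x a => by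
    simp only [hd]; split_ifs
    exacts [(optW_bounds x).1, le_rfl]
  have htp : ∀ x, trPow (W x) = optW x ^ (3 / 2 : ℝ) := fun x => by
    simp only [hW]
    rw [trPow_diag, Finset.sum_eq_single a₀]
    · simp [hd]
    · intro a _ ha; simp [hd, ha]
    · simp
  have hWp : IsMPotential W := by
    refine ⟨fun a c => ?_, fun x => ?_, ?_⟩
    · by_cases hac : a = c
      · subst hac
        simp only [hW, diagonal_apply_eq, hd]
        split_ifs
        exacts [(Complex.continuous_ofReal.comp continuous_optW).measurable, measurable_const]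
      · simp only [hW, diagonal_apply_ne _ hac]
        exact measurable_const
    · exact PosSemidef.diagonal fun a => Complex.zero_le_real.mpr (hd0 x a)
    · simp only [htp]; exact optW_isPotential.2.2
  set F : ℝ → Fin m → ℂ := fun x a => if a = a₀ then (gs x : ℂ) else 0 with hF
  set F' : ℝ → Fin m → ℂ := fun x a => if a = a₀ then (gs1 x : ℂ) else 0 with hF'
  have hFH : IsH1V F F' := fun a => by
    by_cases ha : a = a₀
    · simp only [hF, hF', ha, if_true]; exact isH1_gs
    · simp only [hF, hF', ha, if_false]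
      exact ⟨fun x => hasDerivAt_const x 0, continuous_const, MemLp.zero', MemLp.zero'⟩
  have hMF : ∀ x a, (W x *ᵥ F x) a = if a = a₀ then (optW x : ℂ) * gs x else 0 := fun x a => by
    simp only [hW, mulVec_diagonal, hd, hF]
    split_ifs <;> simp
  have heig : IsMEigenfunction W (-(1 / 4)) F := by
    obtain ⟨g₁, hg₁, hweak⟩ := gs_isEigenfunction
    have hg : g₁ = fun x => (gs1 x : ℂ) := funext fun x => (hg₁.1 x).unique (isH1_gs.1 x)
    subst hg
    refine ⟨F', hFH, fun g g' hgg => ?_⟩
    have h := hweak _ _ (hgg a₀)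
    simp only [hMF]
    simp only [hF, hF', mul_ite, mul_zero, Finset.sum_ite_eq', Finset.mem_univ, if_true]
    refine Eq.trans ?_ h
    congr 2
    funext x; ring
  refine ⟨W, hWp, by simp only [htp]; rw [integral_optW]; positivity, 1, 1 / 4,
    ⟨fun _ => -(1 / 4), fun _ => F, fun i => ⟨by norm_num, heig⟩, fun i j => ?_, by norm_num⟩, ?_⟩
  · simp only [hF, mul_ite, mul_zero, Finset.sum_ite_eq', Finset.mem_univ, if_true]
    have e : (fun x => conj (gs x : ℂ) * (gs x : ℂ))
        = fun x => ((Real.pi⁻¹ * (1 / Real.cosh x) : ℝ) : ℂ) := by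
      funext x; rw [Complex.conj_ofReal, ← Complex.ofReal_mul, ← sq, gs_sq]
    rw [if_pos (Subsingleton.elim i j), e, integral_complex_ofReal, integral_const_mul,
      integral_sech, inv_mul_cancel₀ Real.pi_ne_zero, Complex.ofReal_one]
  · simp only [htp]
    rw [integral_optW, ltConst]
    have hs : 0 < Real.sqrt 3 := Real.sqrt_pos.mpr (by norm_num)
    field_simp
    ring

end Vale.Agent.P371
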