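import Vale.Agent.P371.MCalib
import Vale.Agent.P371.Kinetic

/-!
# P371: the sharp matrix kinetic inequality (`γ = 1`)

For `U : ℝ → ℂ^{N×m}` with `∫ U Uᴴ = 1`:  `(π²/4) ∫ tr (U Uᴴ)³ ≤ ∫ |U'|²`, given the cubic
inequality `CubicIneq` (proved in `Cubic.lean`).
-/

namespace Vale.Agent.P371

open Matrix Real Finset MeasureTheory Filter Topology
open scoped ComplexConjugate ComplexOrder

variable {N m : ℕ}

/-- The cubic inequality behind the matrix calibration. -/
def CubicIneq : Prop :=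
  ∀ (N : ℕ) (Q : Matrix (Fin N) (Fin N) ℂ), Q.PosSemidef → ∀ θ : Fin N → ℝ,
    (∀ i, θ i ∈ Set.Ioo 0 (π / 2)) →
    0 ≤ (∑ i, ∑ j, ∑ k, (((sinc (θ i - θ k) - cos (θ i - θ k))
      / (sin (θ i + θ j) * sin (θ j + θ k)) : ℝ) : ℂ) * (Q i j * Q j k * Q k i)).re

theorem exact_kernel_le (hcub : CubicIneq) (μ : Fin N → ℝ) (hμ : ∀ i, μ i ∈ Set.Ioo (0 : ℝ) 1)
    (U : Matrix (Fin N) (Fin m) ℂ) :
    ∑ i, ∑ l, ∑ j, (tri (U * Uᴴ) i l j).re
      * ((cos (ang μ l j - ang μ i j) - sinc (ang μ l j - ang μ i j))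
        / (sin (ang μ l j) * sin (ang μ i j))) ≤ 0 := by
  set Q : Matrix (Fin N) (Fin N) ℂ := U * Uᴴ with hQ
  have h := hcub N Q (posSemidef_self_mul_conjTranspose U) (fun i => π / 2 * μ i)
    (fun i => ⟨mul_pos (by positivity) (hμ i).1,
      mul_lt_of_lt_one_right (by positivity) (hμ i).2⟩)
  rw [← neg_nonneg]
  refine le_of_le_of_eq h ?_
  simp only [Complex.re_sum, ← Finset.sum_neg_distrib]
  refine Finset.sum_congr rfl fun i _ => ?_
  rw [Finset.sum_comm]
  refine Finset.sum_congr rfl fun l _ => Finset.sum_congr rfl fun j _ => ?_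
  have e : (tri Q i l j).re = (Q i j * Q j l * Q l i).re := by
    rw [← Complex.conj_re, tri, map_mul, map_mul, ← Complex.star_def, hQ, gram_star, gram_star,
      gram_star]
    ring_nf
  rw [Complex.re_ofReal_mul, e,
    show ang μ l j - ang μ i j = -(π / 2 * μ i - π / 2 * μ l) by simp only [ang]; ring,
    cos_neg, sinc_neg, show π / 2 * μ i + π / 2 * μ j = ang μ i j by simp only [ang]; ring,
    show π / 2 * μ j + π / 2 * μ l = ang μ l j by simp only [ang]; ring]
  ring

/-- The pointwise matrix calibration inequality. -/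
theorem mdS_le (hcub : CubicIneq) {d : ℕ} {c : ℕ → ℝ} {δ η : ℝ} (hδ : 0 < δ)
    (hker : ∀ s ∈ Set.Icc (π * δ) (π - π * δ), ∀ t ∈ Set.Icc (π * δ) (π - π * δ),
      |dd d c s t + pol d c t * pol d c s + 1
        - (cos (s - t) - sinc (s - t)) / (sin s * sin t)| ≤ η)
    {M : Matrix (Fin N) (Fin N) ℂ} (hM : M.IsHermitian)
    (hspec : ∀ i, hM.eigenvalues i ∈ Set.Icc δ (1 - δ)) (U V : Matrix (Fin N) (Fin m) ℂ) :
    mdS d c M U V ≤ mfrob V - π ^ 2 / 4 *
      ((U * Uᴴ * (U * Uᴴ) * (U * Uᴴ)).trace.re - η * (N : ℝ) ^ 3 * mfrob U ^ 3) := by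
  obtain ⟨R, hR, hR', hMR⟩ : ∃ R : Matrix (Fin N) (Fin N) ℂ, Rᴴ * R = 1 ∧ R * Rᴴ = 1 ∧
      M = R * diagonal (fun i => (hM.eigenvalues i : ℂ)) * Rᴴ := by
    refine ⟨(hM.eigenvectorUnitary : Matrix _ _ ℂ), ?_, ?_, ?_⟩
    · exact Matrix.mem_unitaryGroup_iff'.1 hM.eigenvectorUnitary.2
    · exact Matrix.mem_unitaryGroup_iff.1 hM.eigenvectorUnitary.2
    · conv_lhs => rw [hM.spectral_theorem, Unitary.conjStarAlgAut_apply, star_eq_conjTranspose]
      rfl
  have hback : ∀ A : Matrix (Fin N) (Fin m) ℂ, R * (Rᴴ * A) = A := fun A => by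
    rw [← Matrix.mul_assoc, hR', Matrix.one_mul]
  have hfr : ∀ A : Matrix (Fin N) (Fin m) ℂ, mfrob (Rᴴ * A) = mfrob A := fun A => by
    rw [mfrob_eq_trace, mfrob_eq_trace, conjTranspose_mul, conjTranspose_conjTranspose,
      Matrix.mul_assoc, hback]
  have hcube : (Rᴴ * U * (Rᴴ * U)ᴴ * (Rᴴ * U * (Rᴴ * U)ᴴ) * (Rᴴ * U * (Rᴴ * U)ᴴ)).trace
      = (U * Uᴴ * (U * Uᴴ) * (U * Uᴴ)).trace := by
    have hR'' : Rᴴᴴ * Rᴴ = 1 := by rw [conjTranspose_conjTranspose, hR']
    rw [gram_conj, show ∀ A B : Matrix (Fin N) (Fin N) ℂ, Rᴴ * A * Rᴴᴴ * (Rᴴ * B * Rᴴᴴ)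
        = Rᴴ * (A * B) * Rᴴᴴ from fun A B => by
      rw [show Rᴴ * A * Rᴴᴴ * (Rᴴ * B * Rᴴᴴ) = Rᴴ * A * (Rᴴᴴ * Rᴴ) * (B * Rᴴᴴ) by
        simp only [Matrix.mul_assoc], hR'', Matrix.mul_one]
      simp only [Matrix.mul_assoc], trace_conj_two hR'']
  have e : mdS d c M U V
      = mdS d c (diagonal fun i => (hM.eigenvalues i : ℂ)) (Rᴴ * U) (Rᴴ * V) := by
    conv_rhs => rw [← mdS_conj hR, hback, hback, ← hMR]
  rw [e, ← hfr V, ← hfr U, ← hcube]
  refine mdS_diag_le d c _ _ _ _ ?_
  set W := Rᴴ * U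
  set μ := hM.eigenvalues
  have hang : ∀ i j, ang μ i j ∈ Set.Icc (π * δ) (π - π * δ) := by
    intro i j
    constructor <;> simp only [ang] <;>
      nlinarith [(hspec i).1, (hspec i).2, (hspec j).1, (hspec j).2, Real.pi_pos]
  have hex := exact_kernel_le hcub μ
    (fun i => ⟨lt_of_lt_of_le hδ (hspec i).1, by linarith [(hspec i).2]⟩) W
  have hterm : ∀ i l j, (tri (W * Wᴴ) i l j).re
      * (dd d c (ang μ l j) (ang μ i j) + pol d c (ang μ i j) * pol d c (ang μ l j) + 1)
      ≤ (tri (W * Wᴴ) i l j).re * ((cos (ang μ l j - ang μ i j) - sinc (ang μ l j - ang μ i j))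
        / (sin (ang μ l j) * sin (ang μ i j))) + mfrob W ^ 3 * η := by
    intro i l j
    rw [← sub_le_iff_le_add', ← mul_sub]
    refine (le_abs_self _).trans ?_
    rw [abs_mul]
    refine mul_le_mul ?_ (hker _ (hang l j) _ (hang i j)) (abs_nonneg _)
      (pow_nonneg (mfrob_nonneg W) 3)
    refine (Complex.abs_re_le_norm _).trans ?_
    rw [tri, norm_mul, norm_mul, pow_succ, pow_two]
    exact mul_le_mul (mul_le_mul (norm_gram_le W i l) (norm_gram_le W l j) (norm_nonneg _)
      (mfrob_nonneg W)) (norm_gram_le W j i) (norm_nonneg _)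
      (mul_nonneg (mfrob_nonneg W) (mfrob_nonneg W))
  refine (Finset.sum_le_sum fun i _ => Finset.sum_le_sum fun l _ => Finset.sum_le_sum fun j _ =>
    hterm i l j).trans ?_
  simp only [Finset.sum_add_distrib, Finset.sum_const, Finset.card_univ, Fintype.card_fin,
    nsmul_eq_mul]
  nlinarith [hex]

/-- The bound on the matrix calibration. -/
theorem abs_mS_le {d : ℕ} {c : ℕ → ℝ} {δ B : ℝ}
    (hB : ∀ t ∈ Set.Icc (π * δ) (π - π * δ), |pol d c t| ≤ B)
    {M : Matrix (Fin N) (Fin N) ℂ} (hM : M.IsHermitian)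
    (hspec : ∀ i, hM.eigenvalues i ∈ Set.Icc δ (1 - δ)) (U : Matrix (Fin N) (Fin m) ℂ) :
    |mS d c M U| ≤ π / 4 * ((N : ℝ) ^ 2 * B) * mfrob U ^ 2 := by
  obtain ⟨R, hR, hR', hMR⟩ : ∃ R : Matrix (Fin N) (Fin N) ℂ, Rᴴ * R = 1 ∧ R * Rᴴ = 1 ∧
      M = R * diagonal (fun i => (hM.eigenvalues i : ℂ)) * Rᴴ := by
    refine ⟨(hM.eigenvectorUnitary : Matrix _ _ ℂ), ?_, ?_, ?_⟩
    · exact Matrix.mem_unitaryGroup_iff'.1 hM.eigenvectorUnitary.2
    · exact Matrix.mem_unitaryGroup_iff.1 hM.eigenvectorUnitary.2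
    · conv_lhs => rw [hM.spectral_theorem, Unitary.conjStarAlgAut_apply, star_eq_conjTranspose]
      rfl
  have hback : R * (Rᴴ * U) = U := by rw [← Matrix.mul_assoc, hR', Matrix.one_mul]
  have hfr : mfrob (Rᴴ * U) = mfrob U := by
    rw [mfrob_eq_trace, mfrob_eq_trace, conjTranspose_mul, conjTranspose_conjTranspose,
      Matrix.mul_assoc, hback]
  have e : mS d c M U = mS d c (diagonal fun i => (hM.eigenvalues i : ℂ)) (Rᴴ * U) := by
    conv_rhs => rw [← mS_conj hR, hback, ← hMR]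
  rw [e, ← hfr]
  refine abs_mS_diag_le d c B _ _ fun i j => hB _ ?_
  constructor <;> simp only [ang] <;>
    nlinarith [(hspec i).1, (hspec i).2, (hspec j).1, (hspec j).2, Real.pi_pos]

theorem HasEDeriv.mul {A B : ℝ → Matrix (Fin N) (Fin N) ℂ} {A' B' : Matrix (Fin N) (Fin N) ℂ}
    {x : ℝ} (hA : HasEDeriv A A' x) (hB : HasEDeriv B B' x) :
    HasEDeriv (fun y => A y * B y) (A' * B x + A x * B') x := by
  intro i j
  simp only [Matrix.add_apply, Matrix.mul_apply, ← Finset.sum_add_distrib]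
  exact HasDerivAt.fun_sum fun l _ => (hA i l).fun_mul (hB l j)

theorem hasDerivAt_mS {d : ℕ} {c : ℕ → ℝ} {A : ℝ → Matrix (Fin N) (Fin N) ℂ}
    {U : ℝ → Matrix (Fin N) (Fin m) ℂ} {V : Matrix (Fin N) (Fin m) ℂ} {x : ℝ}
    (hA : HasEDeriv A (U x * (U x)ᴴ) x)
    (hU : ∀ i a, HasDerivAt (fun y => U y i a) (V i a) x) :
    HasDerivAt (fun y => mS d c (A y) (U y)) (mdS d c (A x) (U x) V) x := by
  have hQ : HasEDeriv (fun y => U y * (U y)ᴴ) (mQd (U x) V) x := by
    intro i j
    simp only [mQd, Matrix.add_apply, Matrix.mul_apply, conjTranspose_apply,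
      ← Finset.sum_add_distrib]
    exact HasDerivAt.fun_sum fun a _ => (hU i a).fun_mul (hU j a).star
  have hP : HasEDeriv (fun y => mP d c (A y) (U y * (U y)ᴴ))
      (mdP d c (A x) (U x * (U x)ᴴ) (mQd (U x) V)) x := by
    intro i j
    simp only [mP, mdP, Matrix.sum_apply, Matrix.smul_apply, smul_eq_mul]
    exact HasDerivAt.fun_sum fun k _ => (hasEDeriv_Tk hA hQ k i j).const_mul (c k : ℂ)
  have h := HasDerivAt.fun_sum (u := Finset.univ) fun i _ => (hQ.mul hP) i i
  unfold mS mdS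
  exact (Complex.reCLM.hasFDerivAt.comp_hasDerivAt x h).const_mul (π / 4)

/-- The sharp matrix kinetic inequality, given the cubic inequality. -/
theorem mkinetic (hcub : CubicIneq) {N m : ℕ} (U V : ℝ → Matrix (Fin N) (Fin m) ℂ)
    (hU : ∀ x i a, HasDerivAt (fun y => U y i a) (V x i a) x)
    (hV : ∀ i a, Continuous fun x => V x i a)
    (hU2 : ∀ i a, MemLp (fun x => U x i a) 2 volume)
    (hV2 : ∀ i a, MemLp (fun x => V x i a) 2 volume)
    (horth : ∀ i j, ∫ x, (U x * (U x)ᴴ) i j = if i = j then 1 else 0) :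
    Integrable (fun x => (U x * (U x)ᴴ * (U x * (U x)ᴴ) * (U x * (U x)ᴴ)).trace.re) ∧
      π ^ 2 / 4 * ∫ x, (U x * (U x)ᴴ * (U x * (U x)ᴴ) * (U x * (U x)ᴴ)).trace.re
        ≤ ∫ x, mfrob (V x) := by
  have huc : ∀ i a, Continuous fun x => U x i a := fun i a =>
    continuous_iff_continuousAt.2 fun x => (hU x i a).continuousAt
  set Q : ℝ → Matrix (Fin N) (Fin N) ℂ := fun x => U x * (U x)ᴴ with hQdef
  set T : ℝ → ℝ := fun x => (Q x * Q x * Q x).trace.re with hT
  set R : ℝ → ℝ := fun x => mfrob (U x) with hR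
  have hR0 : ∀ x, 0 ≤ R x := fun x => mfrob_nonneg _
  have hRc : Continuous R := continuous_finsetSum _ fun i _ =>
    continuous_finsetSum _ fun a _ => Complex.continuous_normSq.comp (huc i a)
  have hRi : Integrable R := integrable_finsetSum _ fun i _ =>
    integrable_finsetSum _ fun a _ => integrable_normSq (hU2 i a)
  set R' : ℝ → ℝ := fun x => ∑ i, ∑ a, (2 * (V x i a * conj (U x i a)).re) with hR'
  have hRd : ∀ x, HasDerivAt R (R' x) x := by
    intro x
    refine HasDerivAt.fun_sum fun i _ => HasDerivAt.fun_sum fun a _ => ?_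
    have h := Complex.reCLM.hasFDerivAt.comp_hasDerivAt x ((hU x i a).fun_mul (hU x i a).star)
    have e : (fun y => Complex.normSq (U y i a))
        = Complex.reCLM ∘ fun y => U y i a * star (U y i a) := by
      funext y; simp [Complex.normSq_apply, Complex.mul_re]
    rw [e]
    refine h.congr_deriv ?_
    simp [Complex.mul_re]; ring
  have hR'i : Integrable R' := integrable_finsetSum _ fun i _ => integrable_finsetSum _ fun a _ =>
    (integrable_mul_conj (hV2 i a) (hU2 i a)).re.const_mul 2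
  have htop : Tendsto R atTop (𝓝 0) :=
    tendsto_zero_of_hasDerivAt_of_integrableOn_Ioi (a := 0) (fun x _ => hRd x) hR'i.integrableOn
      hRi.integrableOn
  have hbot : Tendsto R atBot (𝓝 0) :=
    tendsto_zero_of_hasDerivAt_of_integrableOn_Iic (a := 0) (fun x _ => hRd x) hR'i.integrableOn
      hRi.integrableOn
  obtain ⟨C, hC⟩ : ∃ C, ∀ x, R x ≤ C := by
    obtain ⟨a, ha⟩ := (hbot.eventually_le_const zero_lt_one).exists_forall_of_atBot
    obtain ⟨b, hb⟩ := (htop.eventually_le_const zero_lt_one).exists_forall_of_atTop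
    obtain ⟨C, hC⟩ :=
      (isCompact_Icc (a := a) (b := b)).exists_bound_of_continuousOn hRc.continuousOn
    refine ⟨max 1 C, fun x => ?_⟩
    by_cases h1 : x ≤ a
    · exact (ha x h1).trans (le_max_left _ _)
    by_cases h2 : b ≤ x
    · exact (hb x h2).trans (le_max_left _ _)
    · have := hC x ⟨(not_le.1 h1).le, (not_le.1 h2).le⟩
      exact ((le_abs_self _).trans this).trans (le_max_right _ _)
  have hR3 : Integrable fun x => R x ^ 3 := by
    refine (hRi.const_mul (C ^ 2)).mono' (hRc.pow 3).aestronglyMeasurable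
      (Eventually.of_forall fun x => ?_)
    rw [Real.norm_eq_abs, abs_of_nonneg (pow_nonneg (hR0 x) 3)]
    calc R x ^ 3 = R x ^ 2 * R x := by ring
      _ ≤ C ^ 2 * R x := mul_le_mul_of_nonneg_right (pow_le_pow_left₀ (hR0 x) (hC x) 2) (hR0 x)
  have hQc : ∀ i j, Continuous fun x => Q x i j := fun i j => by
    simp only [hQdef, Matrix.mul_apply, conjTranspose_apply]
    exact continuous_finsetSum _ fun a _ => (huc i a).mul (continuous_star.comp (huc j a))
  have hTc : Continuous T := by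
    simp only [hT, Matrix.trace, Matrix.diag, Matrix.mul_apply (M := Q _ * Q _),
      Matrix.mul_apply (M := Q _)]
    exact Complex.continuous_re.comp (continuous_finsetSum _ fun i _ =>
      continuous_finsetSum _ fun j _ =>
        (continuous_finsetSum _ fun l _ => (hQc i l).mul (hQc l j)).mul (hQc j i))
  have hTb : ∀ x, |T x| ≤ (N : ℝ) ^ 3 * R x ^ 3 := by
    intro x
    refine (Complex.abs_re_le_norm _).trans ?_
    simp only [Matrix.trace, Matrix.diag, Matrix.mul_apply (M := Q x * Q x),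
      Matrix.mul_apply (M := Q x), Finset.sum_mul]
    refine (norm_sum_le _ _).trans ?_
    calc _ ≤ ∑ _i : Fin N, ∑ _j : Fin N, ∑ _l : Fin N, R x * R x * R x := by
          refine Finset.sum_le_sum fun i _ => (norm_sum_le _ _).trans
            (Finset.sum_le_sum fun j _ => (norm_sum_le _ _).trans
              (Finset.sum_le_sum fun l _ => ?_))
          rw [norm_mul, norm_mul]
          exact mul_le_mul (mul_le_mul (norm_gram_le _ i l) (norm_gram_le _ l j) (norm_nonneg _)
            (hR0 x)) (norm_gram_le _ j i) (norm_nonneg _) (mul_nonneg (hR0 x) (hR0 x))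
      _ = _ := by
          simp only [Finset.sum_const, Finset.card_univ, Fintype.card_fin, nsmul_eq_mul]; ring
  have hTi : Integrable T := (hR3.const_mul ((N : ℝ) ^ 3)).mono' hTc.aestronglyMeasurable
    (Eventually.of_forall fun x => by rw [Real.norm_eq_abs]; exact hTb x)
  refine ⟨hTi, ?_⟩
  set G : ℝ → Matrix (Fin N) (Fin N) ℂ :=
    fun x => Matrix.of fun i j => ∫ t in Set.Iic x, Q t i j with hG
  have hint : ∀ i j, Integrable fun t => Q t i j := fun i j => by
    simp only [hQdef, Matrix.mul_apply, conjTranspose_apply]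
    exact integrable_finsetSum _ fun a _ => integrable_mul_conj (hU2 i a) (hU2 j a)
  have hGd : ∀ x i j, HasDerivAt (fun y => G y i j) (Q x i j) x := fun x i j =>
    hasDerivAt_Iic_integral (hQc i j) (hint i j) x
  have hGh : ∀ x, (G x).IsHermitian := by
    intro x
    refine Matrix.IsHermitian.ext fun i j => ?_
    simp only [hG, Matrix.of_apply]
    rw [Complex.star_def, ← integral_conj]
    refine integral_congr_ae (Eventually.of_forall fun t => ?_)
    exact gram_star (U t) j i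
  have hquad : ∀ x (w : Fin N → ℂ), 0 ≤ (star w ⬝ᵥ (G x *ᵥ w)).re ∧
      (star w ⬝ᵥ (G x *ᵥ w)).re ≤ ∑ i, Complex.normSq (w i) := by
    intro x w
    have hterm : ∀ i j, Integrable fun t => star (w i) * (Q t i j * w j) := fun i j =>
      ((hint i j).mul_const (w j)).const_mul _
    have e : ∀ s : Set ℝ, ∫ t in s, star w ⬝ᵥ (Q t *ᵥ w)
        = ∑ i, ∑ j, star (w i) * ((∫ t in s, Q t i j) * w j) := by
      intro s
      simp only [star_dot_mulVec]
      rw [integral_finsetSum _ fun i _ =>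
        integrable_finsetSum _ fun j _ => (hterm i j).integrableOn]
      refine Finset.sum_congr rfl fun i _ => ?_
      rw [integral_finsetSum _ fun j _ => (hterm i j).integrableOn]
      refine Finset.sum_congr rfl fun j _ => ?_
      rw [integral_const_mul, integral_mul_const]
    have hqi : Integrable fun t => star w ⬝ᵥ (Q t *ᵥ w) := by
      simp only [star_dot_mulVec]
      exact integrable_finsetSum _ fun i _ => integrable_finsetSum _ fun j _ => hterm i j
    have hpos : ∀ t, 0 ≤ (star w ⬝ᵥ (Q t *ᵥ w)).re := fun t =>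
      (posSemidef_self_mul_conjTranspose (U t)).re_dotProduct_nonneg w
    have hre : ∀ s : Set ℝ, (∫ t in s, star w ⬝ᵥ (Q t *ᵥ w)).re
        = ∫ t in s, (star w ⬝ᵥ (Q t *ᵥ w)).re := fun s =>
      (integral_re hqi.integrableOn).symm
    have hx : star w ⬝ᵥ (G x *ᵥ w) = ∫ t in Set.Iic x, star w ⬝ᵥ (Q t *ᵥ w) := by
      rw [star_dot_mulVec, e]; rfl
    refine ⟨?_, ?_⟩
    · rw [hx, hre]
      exact setIntegral_nonneg measurableSet_Iic fun t _ => hpos t
    · rw [hx, hre]
      refine (setIntegral_le_integral hqi.re (Eventually.of_forall fun t => hpos t)).trans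
        (le_of_eq ?_)
      rw [← setIntegral_univ]
      refine (hre Set.univ).symm.trans ?_
      rw [e]
      simp only [setIntegral_univ, hQdef, horth, ite_mul, one_mul, zero_mul, mul_ite, mul_zero,
        Finset.sum_ite_eq, Finset.mem_univ, if_true, star_mul_self_eq, Complex.re_sum,
        Complex.ofReal_re]
  have key : ∀ δ ∈ Set.Ioo (0 : ℝ) (1 / 2), ∀ η > (0 : ℝ),
      π ^ 2 / 4 * (1 - 2 * δ) ^ 2 * ((∫ x, T x) - η * (N : ℝ) ^ 3 * ∫ x, R x ^ 3)
        ≤ ∫ x, mfrob (V x) := by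
    intro δ hδ η hη
    obtain ⟨d, c, B, hB, hker⟩ := exists_kernel_approx (δ := π * δ) (η := η)
      (mul_pos Real.pi_pos hδ.1) (by nlinarith [hδ.2, Real.pi_pos]) hη
    set κ : ℝ := 1 - 2 * δ with hκ
    have hκ0 : 0 < κ := by linarith [hδ.2]
    set r : ℝ := Real.sqrt κ
    have hrr : r * r = κ := Real.mul_self_sqrt hκ0.le
    have hrC : (r : ℂ) * r = (κ : ℂ) := by rw [← Complex.ofReal_mul, hrr]
    set A : ℝ → Matrix (Fin N) (Fin N) ℂ := fun x => (κ : ℂ) • G x + (δ : ℂ) • 1 with hA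
    have hAh : ∀ x, (A x).IsHermitian := by
      intro x
      refine IsHermitian.add ?_ ?_
      · unfold Matrix.IsHermitian
        rw [conjTranspose_smul, (hGh x).eq]; simp
      · unfold Matrix.IsHermitian
        rw [conjTranspose_smul, conjTranspose_one]; simp
    have hspec : ∀ x i, (hAh x).eigenvalues i ∈ Set.Icc δ (1 - δ) := by
      intro x i
      set a : Fin N → ℂ := ⇑((hAh x).eigenvectorBasis i)
      have hn : ∑ k, Complex.normSq (a k) = 1 := by
        have h := (hAh x).eigenvectorBasis.orthonormal.1 i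
        have h2 : ‖(hAh x).eigenvectorBasis i‖ ^ 2 = 1 := by rw [h, one_pow]
        rw [EuclideanSpace.norm_sq_eq] at h2
        simpa [Complex.normSq_eq_norm_sq] using h2
      have he := (hAh x).eigenvalues_eq i
      have hq : (star a ⬝ᵥ (A x *ᵥ a)).re = κ * (star a ⬝ᵥ (G x *ᵥ a)).re + δ := by
        simp only [hA, Matrix.add_mulVec, Matrix.smul_mulVec, Matrix.one_mulVec, dotProduct_add,
          dotProduct_smul, Complex.add_re, smul_eq_mul, Complex.re_ofReal_mul]
        congr 1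
        rw [show (star a ⬝ᵥ a).re = ∑ k, Complex.normSq (a k) by
          simp [dotProduct, Complex.re_sum, Complex.normSq_apply, Complex.mul_re], hn, mul_one]
      have hg := hquad x a
      rw [hn] at hg
      rw [show (hAh x).eigenvalues i = (star a ⬝ᵥ (A x *ᵥ a)).re from he, hq]
      constructor <;> nlinarith [hg.1, hg.2]
    have hfr : ∀ Z : Matrix (Fin N) (Fin m) ℂ, mfrob ((r : ℂ) • Z) = κ * mfrob Z := by
      intro Z
      simp [mfrob, Complex.normSq_mul, Complex.normSq_ofReal, hrr, Finset.mul_sum]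
    have hgr : ∀ x, (r : ℂ) • U x * ((r : ℂ) • U x)ᴴ = (κ : ℂ) • Q x := by
      intro x
      rw [conjTranspose_smul, Complex.star_def, Complex.conj_ofReal, Matrix.smul_mul,
        Matrix.mul_smul, smul_smul, hrC]
    set g : ℝ → ℝ := fun x =>
      κ * mfrob (V x) - π ^ 2 / 4 * κ ^ 3 * (T x - η * (N : ℝ) ^ 3 * R x ^ 3) with hg
    set S : ℝ → ℝ := fun x => mS d c (A x) ((r : ℂ) • U x) with hS
    have hSd : ∀ x, HasDerivAt S (mdS d c (A x) ((r : ℂ) • U x) ((r : ℂ) • V x)) x := by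
      intro x
      refine hasDerivAt_mS (fun i j => ?_) fun i a => ?_
      · simp only [hgr, hA, Matrix.add_apply, Matrix.smul_apply, smul_eq_mul]
        exact ((hGd x i j).const_mul (κ : ℂ)).add_const _
      · simp only [Matrix.smul_apply, smul_eq_mul]
        exact (hU x i a).const_mul (r : ℂ)
    have hSle : ∀ x, mdS d c (A x) ((r : ℂ) • U x) ((r : ℂ) • V x) ≤ g x := by
      intro x
      refine (mdS_le hcub hδ.1 hker (hAh x) (hspec x) _ _).trans (le_of_eq ?_)
      rw [hgr, hfr, hfr]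
      simp only [hg, hT, hR, Matrix.smul_mul, Matrix.mul_smul, smul_smul, Matrix.trace_smul,
        smul_eq_mul, ← Complex.ofReal_mul, Complex.re_ofReal_mul]
      ring
    have hSb : ∀ x, |S x| ≤ π / 4 * ((N : ℝ) ^ 2 * B) * κ ^ 2 * R x ^ 2 := by
      intro x
      refine (abs_mS_le hB (hAh x) (hspec x) _).trans (le_of_eq ?_)
      rw [hfr]
      simp only [hR]; ring
    have hVi : Integrable fun x => mfrob (V x) := integrable_finsetSum _ fun i _ =>
      integrable_finsetSum _ fun a _ => integrable_normSq (hV2 i a)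
    have hgi : Integrable g := (hVi.const_mul κ).sub ((hTi.sub (hR3.const_mul _)).const_mul _)
    have hVc : Continuous fun x => mfrob (V x) := continuous_finsetSum _ fun i _ =>
      continuous_finsetSum _ fun a _ => Complex.continuous_normSq.comp (hV i a)
    have hgc : Continuous g := (continuous_const.mul hVc).sub
      (continuous_const.mul (hTc.sub (continuous_const.mul (hRc.pow 3))))
    set F : ℝ → ℝ := fun x => (∫ t in (0 : ℝ)..x, g t) - S x with hF
    have hFd : ∀ x, HasDerivAt F (g x - mdS d c (A x) ((r : ℂ) • U x) ((r : ℂ) • V x)) x :=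
      fun x => (intervalIntegral.integral_hasDerivAt_right (hgc.intervalIntegrable _ _)
        hgc.aestronglyMeasurable.stronglyMeasurableAtFilter hgc.continuousAt).fun_sub (hSd x)
    have hmono : Monotone F :=
      monotone_of_hasDerivAt_nonneg hFd fun x => sub_nonneg.2 (hSle x)
    have hS0 : ∀ l : Filter ℝ, Tendsto R l (𝓝 0) → Tendsto S l (𝓝 0) := by
      intro l hl
      refine squeeze_zero_norm (a := fun x => π / 4 * ((N : ℝ) ^ 2 * B) * κ ^ 2 * R x ^ 2)
        (fun x => by rw [Real.norm_eq_abs]; exact hSb x) ?_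
      simpa using (hl.pow 2).const_mul (π / 4 * ((N : ℝ) ^ 2 * B) * κ ^ 2)
    have hlim : Tendsto (fun T : ℝ => F T - F (-T)) atTop (𝓝 (∫ x, g x)) := by
      have h1 := intervalIntegral_tendsto_integral hgi tendsto_neg_atTop_atBot tendsto_id
      have h2 : Tendsto (fun T : ℝ => S T - S (-T)) atTop (𝓝 0) := by
        simpa using (hS0 _ htop).sub ((hS0 _ hbot).comp tendsto_neg_atTop_atBot)
      have h3 := h1.sub h2
      rw [sub_zero] at h3
      refine h3.congr fun T => ?_
      simp only [hF, id]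
      rw [← intervalIntegral.integral_interval_sub_left (a := (0 : ℝ))
        (hgc.intervalIntegrable _ _) (hgc.intervalIntegrable _ _)]
      ring
    have hnn : 0 ≤ ∫ x, g x := ge_of_tendsto hlim
      ((eventually_ge_atTop (0 : ℝ)).mono fun T hT => sub_nonneg.2 (hmono (by linarith)))
    have hTR : Integrable fun x => T x - η * (N : ℝ) ^ 3 * R x ^ 3 :=
      hTi.sub (hR3.const_mul _)
    rw [hg, integral_sub (hVi.const_mul κ) (hTR.const_mul _),
      integral_const_mul, integral_const_mul, integral_sub hTi (hR3.const_mul _),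
      integral_const_mul] at hnn
    have h4 : κ * (π ^ 2 / 4 * κ ^ 2 * ((∫ x, T x) - η * (N : ℝ) ^ 3 * ∫ x, R x ^ 3))
        ≤ κ * ∫ x, mfrob (V x) := by nlinarith [hnn]
    exact le_of_mul_le_mul_left h4 hκ0
  have hlim : Tendsto (fun e : ℝ => π ^ 2 / 4 * (1 - 2 * e) ^ 2
      * ((∫ x, T x) - e * (N : ℝ) ^ 3 * ∫ x, R x ^ 3)) (𝓝[>] 0) (𝓝 (π ^ 2 / 4 * ∫ x, T x)) := by
    have : Continuous fun e : ℝ => π ^ 2 / 4 * (1 - 2 * e) ^ 2
        * ((∫ x, T x) - e * (N : ℝ) ^ 3 * ∫ x, R x ^ 3) := by fun_prop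
    simpa using (this.tendsto 0).mono_left nhdsWithin_le_nhds
  refine le_of_tendsto hlim ?_
  filter_upwards [Ioo_mem_nhdsGT (by norm_num : (0 : ℝ) < 1 / 2)] with e he
  exact key e he e he.1

end Vale.Agent.P371
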