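import Vale.Agent.P371.MKinetic
import Vale.Agent.P371.Cubic

/-!
# P371: the unconditional matrix kinetic inequality at `γ = 1`
-/

namespace Vale.Agent.P371

open Matrix Real MeasureTheory
open scoped ComplexConjugate ComplexOrder

theorem cubicIneq : CubicIneq := by
  intro N Q hQ θ hθ
  refine le_of_le_of_eq (cubic_nonneg θ hθ Q hQ) ?_
  congr 1
  exact Finset.sum_congr rfl fun i _ => Finset.sum_congr rfl fun j _ =>
    Finset.sum_congr rfl fun k _ => mul_comm _ _

/-- The sharp matrix kinetic inequality, in the form used by the duality layer. -/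
theorem mkinetic_full (m N : ℕ) (U V : ℝ → Matrix (Fin N) (Fin m) ℂ)
    (hU : ∀ x i a, HasDerivAt (fun y => U y i a) (V x i a) x)
    (hV : ∀ i a, Continuous fun x => V x i a)
    (hU2 : ∀ i a, MemLp (fun x => U x i a) 2 volume)
    (hV2 : ∀ i a, MemLp (fun x => V x i a) 2 volume)
    (horth : ∀ i j, (∫ x, (U x * (U x)ᴴ) i j) = if i = j then 1 else 0) :
    Integrable (fun x => ((U x * (U x)ᴴ) ^ 3).trace.re) volume ∧
      π ^ 2 / 4 * (∫ x, ((U x * (U x)ᴴ) ^ 3).trace.re)
        ≤ ∑ i, ∑ a, ∫ x, Complex.normSq (V x i a) := by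
  obtain ⟨h1, h2⟩ := mkinetic cubicIneq U V hU hV hU2 hV2 horth
  have e : ∀ x, (U x * (U x)ᴴ) ^ 3 = U x * (U x)ᴴ * (U x * (U x)ᴴ) * (U x * (U x)ᴴ) := fun x => by
    simp only [pow_succ, pow_zero, Matrix.one_mul]
  simp only [e]
  refine ⟨h1, h2.trans (le_of_eq ?_)⟩
  simp only [mfrob]
  rw [integral_finsetSum _ fun i _ => integrable_finsetSum _ fun a _ => integrable_normSq (hV2 i a)]
  exact Finset.sum_congr rfl fun i _ =>
    integral_finsetSum _ fun a _ => integrable_normSq (hV2 i a)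

end Vale.Agent.P371
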