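import Vale.Agent.P371.Optimizer

/-!
P371: the sharp constant at `γ = 1` from the kinetic inequality.
-/

namespace Vale.Agent.P371

open MeasureTheory
open scoped ComplexConjugate

/-- `L_1(1) = L^{(1)}_1 = 4/(3√3π)`, with the variational form of the upper bound. -/
theorem sharp_of_kinetic (hK : KineticBound) :
    IsLUB ltRatios ltConst ∧ IsLUB oneStateRatios ltConst ∧
    ∀ W : ℝ → ℝ, IsPotential W → ∀ (N : ℕ) (f f' : Fin N → ℝ → ℂ), (∀ i, IsH1 (f i) (f' i)) →
      (∀ i j, ∫ x, conj (f i x) * f j x = if i = j then 1 else 0) →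
      (∀ i, Integrable (fun x => W x * Complex.normSq (f i x)) volume) ∧
      ∑ i, ((∫ x, W x * Complex.normSq (f i x)) - ∫ x, Complex.normSq (f' i x))
        ≤ ltConst * ∫ x, W x ^ (3 / 2 : ℝ) := by
  have hub : ltConst ∈ upperBounds ltRatios := by
    rintro r ⟨W, hW, hpos, N, s, hs, rfl⟩
    rw [div_le_iff₀ hpos]
    exact negEigenSums_le hK hW hs
  have hsub : oneStateRatios ⊆ ltRatios := fun r ⟨W, hW, hpos, s, hs, hr⟩ =>
    ⟨W, hW, hpos, 1, s, hs, hr⟩
  refine ⟨⟨hub, fun b hb => hb (hsub ltConst_mem_oneStateRatios)⟩,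
    ⟨fun r hr => hub (hsub hr), fun b hb => hb ltConst_mem_oneStateRatios⟩,
    fun W hW N f f' hf horth => variational_bound hK hW f f' hf horth⟩

end Vale.Agent.P371
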